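import Vale.Agent.P363.Inter.Slice.KatoPoint
import Vale.Agent.P363.Inter.Spec
import Vale.Agent.P363.Tool.Weak.Local

/-!
P363, interacting side: a state of the ion times a function of the remaining electron; the
equation of the amplitude and of what is left of a solution when that product is taken out.
-/

noncomputable section

namespace Vale.Agent.P363.Inter

open MeasureTheory Filter Set
open scoped BigOperators Topology

variable {m : ℕ}

/-- A function of electron `i` times a function of the others. -/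
def tenF (i : Fin (m + 1)) (h : Space → ℝ) (θ : Cfg m → ℝ) (z : Cfg (m + 1)) : ℝ :=
  xL i h z * wL i θ z

/-- The gradient of such a product. -/
def tenD (i : Fin (m + 1)) (h : Space → ℝ) (gh : Fin 3 → Space → ℝ) (θ : Cfg m → ℝ)
    (Dθ : Fin m → Fin 3 → Cfg m → ℝ) : Fin (m + 1) → Fin 3 → Cfg (m + 1) → ℝ :=
  i.insertNth (α := fun _ => Fin 3 → Cfg (m + 1) → ℝ) (fun a => tenF i (gh a) θ)
    fun k a => tenF i h (Dθ k a)

variable {i : Fin (m + 1)} {h : Space → ℝ} {gh : Fin 3 → Space → ℝ} {θ : Cfg m → ℝ}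
  {Dθ : Fin m → Fin 3 → Cfg m → ℝ}

theorem tenF_ins (i : Fin (m + 1)) (h : Space → ℝ) (θ : Cfg m → ℝ) (x : Space) (y : Cfg m) :
    tenF i h θ (i.insertNth x y) = h x * θ y := by simp [tenF, xL, wL]

theorem tenD_self (i : Fin (m + 1)) (h : Space → ℝ) (gh : Fin 3 → Space → ℝ) (θ : Cfg m → ℝ)
    (Dθ : Fin m → Fin 3 → Cfg m → ℝ) (a : Fin 3) : tenD i h gh θ Dθ i a = tenF i (gh a) θ := by
  simp [tenD]

theorem tenD_other (i : Fin (m + 1)) (h : Space → ℝ) (gh : Fin 3 → Space → ℝ) (θ : Cfg m → ℝ)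
    (Dθ : Fin m → Fin 3 → Cfg m → ℝ) (k : Fin m) (a : Fin 3) :
    tenD i h gh θ Dθ (i.succAbove k) a = tenF i h (Dθ k a) := by
  simp [tenD]

theorem memLp_tenF (i : Fin (m + 1)) (hh : MemLp h 2) (hθ : MemLp θ 2) :
    MemLp (tenF i h θ) 2 := by
  have hm : AEStronglyMeasurable (tenF i h θ) := by
    refine ((mp_ins i).aestronglyMeasurable_comp_iff (embedding_ins i)).1 ?_
    refine ((hh.1.comp_fst).mul (hθ.1.comp_snd)).congr (Eventually.of_forall fun p => ?_)
    exact (tenF_ins i h θ p.1 p.2).symm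
  refine (memLp_two_iff_integrable_sq hm).2 (((mp_ins i).integrable_comp_emb (embedding_ins i)).1 ?_)
  refine (hh.integrable_sq.mul_prod hθ.integrable_sq).congr (Eventually.of_forall fun p => ?_)
  simp only [Function.comp, tenF_ins, mul_pow]

theorem integral_tenF_sq (i : Fin (m + 1)) (hh : MemLp h 2) (hθ : MemLp θ 2) :
    ∫ z, tenF i h θ z ^ 2 = (∫ x, h x ^ 2) * ∫ y, θ y ^ 2 := by
  rw [integral_split i (memLp_tenF i hh hθ).integrable_sq, ← integral_mul_const]
  congr 1; funext x
  simp only [tenF_ins, mul_pow]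
  exact integral_const_mul _ _

theorem SqLim.ten {hs : ℕ → Space → ℝ} {θs : ℕ → Cfg m → ℝ} (h1 : SqLim volume hs h)
    (h2 : SqLim volume θs θ) (i : Fin (m + 1)) :
    SqLim volume (fun k => tenF i (hs k) (θs k)) (tenF i h θ) := by
  refine ⟨fun k => memLp_tenF i (h1.mem k) (h2.mem k), memLp_tenF i h1.lim_mem h2.lim_mem,
    squeeze_zero (fun k => integral_nonneg fun z => sq_nonneg _) (fun k => ?_)
      (show Tendsto (fun k => 2 * ((∫ x, (hs k x - h x) ^ 2) * ∫ y, θs k y ^ 2) +
        2 * ((∫ x, h x ^ 2) * ∫ y, (θs k y - θ y) ^ 2)) atTop (𝓝 0) by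
        simpa using ((h1.tendsto.mul h2.integral_sq).const_mul 2).add
          ((h2.tendsto.const_mul (∫ x, h x ^ 2)).const_mul 2))⟩
  have d1 : MemLp (fun x => hs k x - h x) 2 := (h1.mem k).sub h1.lim_mem
  have d2 : MemLp (fun y => θs k y - θ y) 2 := (h2.mem k).sub h2.lim_mem
  have m1 : MemLp (tenF i (fun x => hs k x - h x) (θs k)) 2 := memLp_tenF i d1 (h2.mem k)
  have m2 : MemLp (tenF i h fun y => θs k y - θ y) 2 := memLp_tenF i h1.lim_mem d2
  rw [← integral_tenF_sq i d1 (h2.mem k), ← integral_tenF_sq i h1.lim_mem d2,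
    ← integral_const_mul, ← integral_const_mul,
    ← integral_add (m1.integrable_sq.const_mul 2) (m2.integrable_sq.const_mul 2)]
  refine integral_mono_of_nonneg (Eventually.of_forall fun z => sq_nonneg _)
    ((m1.integrable_sq.const_mul 2).add (m2.integrable_sq.const_mul 2))
    (Eventually.of_forall fun z => ?_)
  simp only [tenF, xL, wL, Pi.sub_apply]
  nlinarith [sq_nonneg ((hs k (z i) - h (z i)) * θs k (i.removeNth z) -
    h (z i) * (θs k (i.removeNth z) - θ (i.removeNth z)))]

theorem isC1_tenF (i : Fin (m + 1)) (hh : ContDiff ℝ 1 h) (hc : HasCompactSupport h)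
    (hθ : IsC1 θ) : IsC1 (tenF i h θ) := by
  refine ⟨(contDiff_xL i hh).mul (contDiff_wL i hθ.smooth),
    HasCompactSupport.intro ((hc.isCompact.prod hθ.compact.isCompact).image (continuous_ins i))
      fun z hz => ?_⟩
  by_cases h1 : z i ∈ tsupport h
  · have h2 : i.removeNth z ∉ tsupport θ := fun h2 =>
      hz ⟨(z i, i.removeNth z), ⟨h1, h2⟩, Fin.insertNth_self_removeNth i z⟩
    simp [tenF, wL, image_eq_zero_of_notMem_tsupport h2]
  · simp [tenF, xL, image_eq_zero_of_notMem_tsupport h1]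

theorem slotDeriv_tenF (i j : Fin (m + 1)) (hh : ContDiff ℝ 1 h) (hθ : IsC1 θ) (a : Fin 3) :
    slotDeriv j a (tenF i h θ) =
      tenD i h (fun a => deriv3 a h) θ (fun k a => slotDeriv k a θ) j a := by
  funext z
  have e : slotDeriv j a (tenF i h θ) z =
      xL i h z * slotDeriv j a (wL i θ) z + wL i θ z * slotDeriv j a (xL i h) z := by
    simp only [slotDeriv]
    rw [show tenF i h θ = xL i h * wL i θ from rfl,
      fderiv_mul ((contDiff_xL i hh).differentiable one_ne_zero z)
        ((contDiff_wL i hθ.smooth).differentiable one_ne_zero z)]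
    rfl
  rw [e, slotDeriv_xL i j a (hh.differentiable one_ne_zero _)]
  rcases Fin.eq_self_or_eq_succAbove i j with rfl | ⟨k, rfl⟩
  · rw [slotDeriv_wL_self _ _ hθ.smooth, tenD_self, if_pos rfl]
    simp [tenF, xL]; ring
  · rw [slotDeriv_wL _ _ _ hθ.smooth, tenD_other, if_neg (Fin.succAbove_ne i k)]
    simp [tenF, wL]

/-- Products of energy space functions are in the energy space. -/
theorem InH1.ten {hs : ℕ → Space → ℝ} (hc : ∀ k, ContDiff ℝ 1 (hs k))
    (hs' : ∀ k, HasCompactSupport (hs k)) (h1 : SqLim volume hs h)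
    (h2 : ∀ a, SqLim volume (fun k => deriv3 a (hs k)) (gh a)) (hθ : InH1 θ Dθ)
    (i : Fin (m + 1)) : InH1 (tenF i h θ) (tenD i h gh θ Dθ) := by
  obtain ⟨θs, hθs⟩ := hθ
  refine ⟨fun k => tenF i (hs k) (θs k), fun k => isC1_tenF i (hc k) (hs' k) (hθs.c1 k),
    h1.ten hθs.val i, fun j a => ?_⟩
  refine SqLim.congr (f := fun k => tenD i (hs k) (fun a => deriv3 a (hs k)) (θs k)
    (fun l b => slotDeriv l b (θs k)) j a) ?_
    (fun k => Eventually.of_forall fun z => (congrFun (slotDeriv_tenF i j (hc k) (hθs.c1 k) a) z).symm)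
    .rfl
  rcases Fin.eq_self_or_eq_succAbove i j with rfl | ⟨l, rfl⟩
  · simp only [tenD_self]
    exact (h2 a).ten hθs.val _
  · simp only [tenD_other]
    exact h1.ten (hθs.der l a) _

/-- Inner products of slices depend continuously on both functions. -/
theorem SqLim.slIp₂ {f : ℕ → Cfg (m + 1) → ℝ} {F : Cfg (m + 1) → ℝ} {θs : ℕ → Cfg m → ℝ}
    (hf : SqLim volume f F) (hθ : SqLim volume θs θ) (i : Fin (m + 1)) :
    SqLim volume (fun k => Inter.slIp i (θs k) (f k)) (Inter.slIp i θ F) := by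
  refine ⟨fun k => memLp_slIp (hθ.mem k) (hf.mem k), memLp_slIp hθ.lim_mem hf.lim_mem,
    squeeze_zero (fun k => integral_nonneg fun x => sq_nonneg _) (fun k => ?_)
      (show Tendsto (fun k => 2 * ((∫ y, θs k y ^ 2) * ∫ z, (f k z - F z) ^ 2) +
        2 * ((∫ y, (θs k y - θ y) ^ 2) * ∫ z, F z ^ 2)) atTop (𝓝 0) by
        simpa using ((hθ.integral_sq.mul hf.tendsto).const_mul 2).add
          ((hθ.tendsto.mul_const (∫ z, F z ^ 2)).const_mul 2))⟩
  have d1 : MemLp (fun z => f k z - F z) 2 := (hf.mem k).sub hf.lim_mem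
  have d2 : MemLp (fun y => θs k y - θ y) 2 := (hθ.mem k).sub hθ.lim_mem
  have i1 := (memLp_slNorm i d1).integrable_sq
  have i2 := (memLp_slNorm i hf.lim_mem).integrable_sq
  rw [← integral_slNorm_sq i d1, ← integral_slNorm_sq i hf.lim_mem, ← integral_const_mul,
    ← integral_const_mul, ← integral_const_mul, ← integral_const_mul,
    ← integral_add ((i1.const_mul _).const_mul 2) ((i2.const_mul _).const_mul 2)]
  refine integral_mono_ae ((memLp_slIp (hθ.mem k) (hf.mem k)).sub
      (memLp_slIp hθ.lim_mem hf.lim_mem)).integrable_sq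
    (((i1.const_mul _).const_mul 2).add ((i2.const_mul _).const_mul 2)) ?_
  filter_upwards [memLp_slices i (hf.mem k), memLp_slices i hf.lim_mem] with x hx hx'
  have e : Inter.slIp i (θs k) (f k) x - Inter.slIp i θ F x =
      Inter.slIp i (θs k) (fun z => f k z - F z) x +
        Inter.slIp i (fun y => θs k y - θ y) F x := by
    have ia : Integrable fun y => θs k y * F (i.insertNth x y) := (hθ.mem k).integrable_mul hx'
    have ib : Integrable fun y => θ y * F (i.insertNth x y) := hθ.lim_mem.integrable_mul hx'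
    have e2 : Inter.slIp i (fun y => θs k y - θ y) F x =
        Inter.slIp i (θs k) F x - Inter.slIp i θ F x := by
      simp only [Inter.slIp, sub_mul]
      exact integral_sub ia ib
    rw [slIp_sub (hθ.mem k) hx hx', e2]
    ring
  have b1 := pow_le_pow_left₀ (abs_nonneg _)
    (abs_slIp_le (hθ.mem k) (h := fun z => f k z - F z) (hx.sub hx')) 2
  have b2 := pow_le_pow_left₀ (abs_nonneg _) (abs_slIp_le d2 hx') 2
  rw [sq_abs, mul_pow, Real.sq_sqrt (integral_nonneg fun _ => sq_nonneg _)] at b1 b2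
  rw [e]
  nlinarith [sq_nonneg (Inter.slIp i (θs k) (fun z => f k z - F z) x -
    Inter.slIp i (fun y => θs k y - θ y) F x)]

theorem slIp_c1 {φ : Cfg (m + 1) → ℝ} (hφ : IsC1 φ) (hθ : IsC1 θ) (i : Fin (m + 1)) :
    ContDiff ℝ 1 (slIp i θ φ) ∧ HasCompactSupport (slIp i θ φ) ∧
      ∀ a, deriv3 a (slIp i θ φ) = slIp i θ (slotDeriv i a φ) := by
  have hw : IsC1 fun z => wL i θ z * φ z := hφ.mul_left (contDiff_wL i hθ.smooth)
  have e : slIp i θ φ = marg i fun z => wL i θ z * φ z := by
    funext x; simp only [slIp, marg, wL_ins]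
  obtain ⟨h1, h2, h3⟩ := hw.marg i
  rw [e]
  refine ⟨h1, h2, fun a => funext fun x => ?_⟩
  rw [h3 a x]
  simp only [slIp, marg]
  congr 1; funext y
  rw [hφ.slot_mul ((contDiff_wL i hθ.smooth).differentiable one_ne_zero _) i a,
    slotDeriv_wL_self i a hθ.smooth, zero_mul, add_zero, wL_ins]

variable {g : Cfg (m + 1) → ℝ} {G : Fin (m + 1) → Fin 3 → Cfg (m + 1) → ℝ}

/-- The inner products of the slices with `θ` have a weak gradient. -/
theorem InH1.hasWeakGrad_slIp (hg : InH1 g G) (hθ : InH1 θ Dθ) (i : Fin (m + 1)) :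
    HasWeakGrad univ (slIp i θ g) fun a => slIp i θ (G i a) := by
  obtain ⟨φ, hφ⟩ := hg
  obtain ⟨θs, hθs⟩ := hθ
  have hv := hφ.val.slIp₂ hθs.val i
  have hd : ∀ a, SqLim volume (fun k => deriv3 a (slIp i (θs k) (φ k))) (slIp i θ (G i a)) :=
    fun a => ((hφ.der i a).slIp₂ hθs.val i).congr
      (fun k => Eventually.of_forall fun x =>
        (congrFun ((slIp_c1 (hφ.c1 k) (hθs.c1 k) i).2.2 a) x).symm) .rfl
  refine HasWeakGrad.of_tendsto_integral
    (fun k => HasWeakGrad.of_contDiffOn isOpen_univ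
      (slIp_c1 (hφ.c1 k) (hθs.c1 k) i).1.contDiffOn)
    ((hv.lim_mem.locallyIntegrable one_le_two).locallyIntegrableOn _)
    (fun a => ((hd a).lim_mem.locallyIntegrable one_le_two).locallyIntegrableOn _)
    (fun η hη => hv.integral_mul (SqLim.const
      (hη.continuous.memLp_of_hasCompactSupport hη.compact)))
    (fun η a hη => (hd a).integral_mul (SqLim.const
      (hη.continuous.memLp_of_hasCompactSupport hη.compact)))

/-- The projection of the slices onto `θ` is in the energy space. -/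
theorem InH1.ten_slIp (hg : InH1 g G) (hθ : InH1 θ Dθ) (i : Fin (m + 1)) :
    InH1 (tenF i (slIp i θ g) θ) (tenD i (slIp i θ g) (fun a => slIp i θ (G i a)) θ Dθ) := by
  obtain ⟨φ, hφ⟩ := hg
  obtain ⟨θs, hθs⟩ := hθ
  refine InH1.ten (fun k => (slIp_c1 (hφ.c1 k) (hθs.c1 k) i).1)
    (fun k => (slIp_c1 (hφ.c1 k) (hθs.c1 k) i).2.1) (hφ.val.slIp₂ hθs.val i) (fun a => ?_)
    ⟨θs, hθs⟩ i
  exact ((hφ.der i a).slIp₂ hθs.val i).congr
    (fun k => Eventually.of_forall fun x =>
      (congrFun ((slIp_c1 (hφ.c1 k) (hθs.c1 k) i).2.2 a) x).symm) .rfl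

theorem inH1_tenF_bump {η : Space → ℝ} (hη : ContDiff ℝ 1 η) (hc : HasCompactSupport η)
    (hθ : InH1 θ Dθ) (i : Fin (m + 1)) :
    InH1 (tenF i η θ) (tenD i η (fun a => deriv3 a η) θ Dθ) :=
  InH1.ten (hs := fun _ => η) (fun _ => hη) (fun _ => hc)
    (SqLim.const (hη.continuous.memLp_of_hasCompactSupport hc))
    (fun a => SqLim.const ((((hη.continuous_fderiv one_ne_zero).clm_apply continuous_const) :
      Continuous (deriv3 a η)).memLp_of_hasCompactSupport (hc.fderiv_apply ℝ (unit3 a))))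
    hθ i

/-! ### Three electrons -/

section Three

variable {i : Fin 3} {l lam E2 E : ℝ} {χ : Cfg 2 → ℝ} {Dχ : Fin 2 → Fin 3 → Cfg 2 → ℝ}
  {u : Cfg 3 → ℝ} {U : Fin 3 → Fin 3 → Cfg 3 → ℝ} {h : Space → ℝ} {gh : Fin 3 → Space → ℝ}

theorem InH1.memLp_repelN (hu : InH1 u U) (i : Fin 3) :
    MemLp (fun z => repelN i z * u z) 2 := by
  have hp : ∀ k, MemLp (fun z => u z / ‖z i - z (i.succAbove k)‖) 2 := fun k => by
    simpa only [pole, Fin.removeNth] using
      hu.memLp_div i (c := fun y => y k) (continuous_apply k)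
  refine (memLp_finsetSum Finset.univ fun k _ => hp k).ae_eq (Eventually.of_forall fun z => ?_)
  simp only [repelN, Finset.sum_mul]
  exact Finset.sum_congr rfl fun k _ => by ring

theorem InH1.memLp_repel {θ : Cfg 2 → ℝ} {Dθ : Fin 2 → Fin 3 → Cfg 2 → ℝ} (h : InH1 θ Dθ)
    (x : Space) : MemLp (fun y => repel x y * θ y) 2 := by
  have hp : ∀ k, MemLp (fun y : Cfg 2 => θ y / ‖y k - x‖) 2 := fun k => by
    simpa only [pole] using h.memLp_div k (c := fun _ => x) continuous_const
  refine (memLp_finsetSum Finset.univ fun k _ => hp k).ae_eq (Eventually.of_forall fun y => ?_)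
  simp only [repel, Finset.sum_mul]
  exact Finset.sum_congr rfl fun k _ => by rw [norm_sub_rev]; ring

theorem InH1.memLp_attract {n : ℕ} {u : Cfg (n + 1) → ℝ}
    {U : Fin (n + 1) → Fin 3 → Cfg (n + 1) → ℝ} (hu : InH1 u U) (l : ℝ) (i : Fin (n + 1)) :
    MemLp (fun z => attract l (z i) * u z) 2 := by
  have hp : ∀ p : Space, MemLp (fun z => u z / ‖z i - p‖) 2 := fun p => by
    simpa only [pole] using hu.memLp_div i (c := fun _ => p) continuous_const
  refine ((hp (nuc l)).add (hp (-nuc l))).ae_eq (Eventually.of_forall fun z => ?_)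
  simp only [attract, Pi.add_apply, sub_neg_eq_add]
  ring

/-- The repulsion between electron `i` and the ion, in the state `χ` and the slice. -/
def rAmp (i : Fin 3) (χ : Cfg 2 → ℝ) (u : Cfg 3 → ℝ) : Space → ℝ :=
  slIp i χ fun z => repelN i z * u z

theorem rAmp_eq (i : Fin 3) (χ : Cfg 2 → ℝ) (u : Cfg 3 → ℝ) (x : Space) :
    rAmp i χ u x = ipN (fun y => repel x y * χ y) (slice i u x) := by
  simp only [rAmp, slIp, ipN, slice, repelN_ins]
  congr 1; funext y; ring

theorem memLp_rAmp (hχ : MemLp χ 2) (hu : InH1 u U) (i : Fin 3) : MemLp (rAmp i χ u) 2 :=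
  memLp_slIp hχ (hu.memLp_repelN i)

theorem memLp_attract_slIp (hχ : MemLp χ 2) (hu : InH1 u U) (l : ℝ) (i : Fin 3) :
    MemLp (fun x => attract l x * slIp i χ u x) 2 := by
  refine (memLp_slIp (i := i) hχ (hu.memLp_attract l i)).ae_eq (Eventually.of_forall fun x => ?_)
  simp only [slIp, Fin.insertNth_apply_same, ← integral_const_mul]
  congr 1; funext y; ring

/-- The energy of the amplitudes alone. -/
def ampBase (i : Fin 3) (l E2 E : ℝ) (χ : Cfg 2 → ℝ) (u : Cfg 3 → ℝ)
    (U : Fin 3 → Fin 3 → Cfg 3 → ℝ) (h : Space → ℝ) (gh : Fin 3 → Space → ℝ) (x : Space) : ℝ :=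
  1 / 2 * ∑ a, slIp i χ (U i a) x * gh a x + (E2 - E - attract l x) * slIp i χ u x * h x

/-- The form tested with a product: the energy of the amplitude and the repulsion. -/
theorem bform_tenF (hχ : InH1 χ Dχ) (hsχ : Solves l lam E2 χ Dχ fun _ => 0) (hu : InH1 u U)
    (hT : InH1 (tenF i h χ) (tenD i h gh χ Dχ)) (hh : MemLp h 2) (hgh : ∀ a, MemLp (gh a) 2) :
    Integrable (ampBase i l E2 E χ u U h gh) ∧
      bform l lam E u U (tenF i h χ) (tenD i h gh χ Dχ) =
        (∫ x, ampBase i l E2 E χ u U h gh x) + lam * ∫ x, h x * rAmp i χ u x := by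
  have ir : Integrable fun x => h x * rAmp i χ u x :=
    hh.integrable_mul (memLp_rAmp hχ.memLp hu i)
  have ib : Integrable (ampBase i l E2 E χ u U h gh) := by
    have a1 : Integrable fun x => 1 / 2 * ∑ a, slIp i χ (U i a) x * gh a x :=
      (integrable_finsetSum _ fun a _ =>
        (memLp_slIp hχ.memLp (hu.grad_memLp i a)).integrable_mul (hgh a)).const_mul _
    have a2 : Integrable fun x => (E2 - E) * (slIp i χ u x * h x) :=
      ((memLp_slIp hχ.memLp hu.memLp).integrable_mul hh).const_mul _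
    have a3 : Integrable fun x => attract l x * slIp i χ u x * h x :=
      (memLp_attract_slIp hχ.memLp hu l i).integrable_mul hh
    refine ((a1.add a2).sub a3).congr (Eventually.of_forall fun x => ?_)
    simp only [ampBase, Pi.add_apply, Pi.sub_apply]
    ring
  refine ⟨ib, ?_⟩
  rw [← integral_const_mul, ← integral_add ib (ir.const_mul lam)]
  simp only [bform]
  rw [integral_split i (integrable_bform hu hT l lam E)]
  refine integral_congr_ae ?_
  filter_upwards [hu.slices i, ae_all_iff.2 fun a => memLp_slices i (hu.grad_memLp i a)]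
    with x hx hxa
  have e0 := hsχ _ _ hx
  simp only [zero_mul, integral_zero] at e0
  have i1 : ∀ a, Integrable fun y => χ y * U i a (i.insertNth x y) := fun a =>
    hχ.memLp.integrable_mul (hxa a)
  have i2 : Integrable fun y : Cfg 2 => (1 / 2 : ℝ) * ∑ k, ∑ a, Dχ k a y *
      U (i.succAbove k) a (i.insertNth x y) + (molPot l lam y - E2) * χ y * u (i.insertNth x y) :=
    integrable_bform hχ hx l lam E2
  have i3 : Integrable fun y => χ y * u (i.insertNth x y) := hχ.memLp.integrable_mul hx.memLp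
  have i4 : Integrable fun y => repel x y * χ y * u (i.insertNth x y) :=
    (hχ.memLp_repel x).integrable_mul hx.memLp
  have i5 : Integrable fun y => 1 / 2 * ∑ a, gh a x * (χ y * U i a (i.insertNth x y)) :=
    (integrable_finsetSum _ fun a _ => (i1 a).const_mul _).const_mul _
  have key : ∀ y : Cfg 2,
      1 / 2 * ∑ j, ∑ a, U j a (i.insertNth x y) * tenD i h gh χ Dχ j a (i.insertNth x y) +
        (molPot l lam (i.insertNth x y : Cfg 3) - E) * u (i.insertNth x y) *
          tenF i h χ (i.insertNth x y) =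
      1 / 2 * ∑ a, gh a x * (χ y * U i a (i.insertNth x y)) +
      h x * ((1 / 2 : ℝ) * ∑ k, ∑ a, Dχ k a y * U (i.succAbove k) a (i.insertNth x y) +
        (molPot l lam y - E2) * χ y * u (i.insertNth x y)) +
      (E2 - E - attract l x) * h x * (χ y * u (i.insertNth x y)) +
      lam * h x * (repel x y * χ y * u (i.insertNth x y)) := fun y => by
    rw [Fin.sum_univ_succAbove _ i]
    simp only [tenD_self, tenD_other, tenF_ins, molPot_ins, repelN_ins, Fin.sum_univ_two,
      Fin.sum_univ_three]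
    ring
  simp only [key]
  have j1 : Integrable fun y : Cfg 2 =>
      1 / 2 * ∑ a, gh a x * (χ y * U i a (i.insertNth x y)) +
        h x * ((1 / 2 : ℝ) * ∑ k, ∑ a, Dχ k a y * U (i.succAbove k) a (i.insertNth x y) +
          (molPot l lam y - E2) * χ y * u (i.insertNth x y)) := i5.add (i2.const_mul _)
  have j2 : Integrable fun y : Cfg 2 =>
      1 / 2 * ∑ a, gh a x * (χ y * U i a (i.insertNth x y)) +
        h x * ((1 / 2 : ℝ) * ∑ k, ∑ a, Dχ k a y * U (i.succAbove k) a (i.insertNth x y) +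
          (molPot l lam y - E2) * χ y * u (i.insertNth x y)) +
        (E2 - E - attract l x) * h x * (χ y * u (i.insertNth x y)) := j1.add (i3.const_mul _)
  rw [integral_add j2 (i4.const_mul _), integral_add j1 (i3.const_mul _),
    integral_add i5 (i2.const_mul _), integral_const_mul, integral_const_mul, integral_const_mul,
    integral_const_mul, integral_finsetSum _ fun a _ => (i1 a).const_mul _]
  simp only [integral_const_mul]
  rw [show (∫ y : Cfg 2, ((1 / 2 : ℝ) * ∑ k, ∑ a, Dχ k a y *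
      U (i.succAbove k) a (i.insertNth x y) +
      (molPot l lam y - E2) * χ y * u (i.insertNth x y))) = 0 from e0]
  simp only [ampBase, rAmp_eq, ipN, slIp, slice, Fin.sum_univ_three]
  ring

theorem bform_comm {n : ℕ} (l lam E : ℝ) (f g : Cfg n → ℝ) (D G : Fin n → Fin 3 → Cfg n → ℝ) :
    bform l lam E f D g G = bform l lam E g G f D := by
  simp only [bform]
  congr 1; funext z
  rw [show (molPot l lam z - E) * f z * g z = (molPot l lam z - E) * g z * f z by ring]
  congr 2
  exact Finset.sum_congr rfl fun j _ => Finset.sum_congr rfl fun a _ => mul_comm _ _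

/-- A solution minus its projection onto `χ`. -/
def perpF (i : Fin 3) (χ : Cfg 2 → ℝ) (f : Cfg 3 → ℝ) (z : Cfg 3) : ℝ :=
  f z - tenF i (slIp i χ f) χ z

/-- Its gradient. -/
def perpD (i : Fin 3) (χ : Cfg 2 → ℝ) (Dχ : Fin 2 → Fin 3 → Cfg 2 → ℝ) (f : Cfg 3 → ℝ)
    (D : Fin 3 → Fin 3 → Cfg 3 → ℝ) (j : Fin 3) (a : Fin 3) (z : Cfg 3) : ℝ :=
  D j a z - tenD i (slIp i χ f) (fun a => slIp i χ (D i a)) χ Dχ j a z

/-- Its right hand side. -/
def perpR (i : Fin 3) (lam : ℝ) (χ : Cfg 2 → ℝ) (f : Cfg 3 → ℝ) (z : Cfg 3) : ℝ :=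
  lam * (tenF i (rAmp i χ f) χ z - repelN i z * tenF i (slIp i χ f) χ z)

variable {f : Cfg 3 → ℝ} {D : Fin 3 → Fin 3 → Cfg 3 → ℝ}

theorem inH1_perpF (hf : InH1 f D) (hχ : InH1 χ Dχ) (i : Fin 3) :
    InH1 (perpF i χ f) (perpD i χ Dχ f D) := by
  obtain ⟨φ, hφ⟩ := hf
  obtain ⟨ψ, hψ⟩ := hφ.inH1.ten_slIp hχ i
  exact (hφ.sub hψ).inH1

theorem memLp_perpR (hf : InH1 f D) (hχ : InH1 χ Dχ) (i : Fin 3) (lam : ℝ) :
    MemLp (perpR i lam χ f) 2 :=
  ((memLp_tenF i (memLp_rAmp hχ.memLp hf i) hχ.memLp).sub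
    ((hf.ten_slIp hχ i).memLp_repelN i)).const_mul lam

theorem integral_tenF_mul {θ : Cfg 2 → ℝ} {g : Cfg 3 → ℝ} (hh : MemLp h 2) (hθ : MemLp θ 2)
    (hg : MemLp g 2) (i : Fin 3) :
    ∫ z, tenF i h θ z * g z = ∫ x, h x * slIp i θ g x := by
  rw [integral_split i (g := fun z => tenF i h θ z * g z)
    ((memLp_tenF i hh hθ).integrable_mul hg)]
  congr 1; funext x
  simp only [slIp, tenF_ins, ← integral_const_mul]
  congr 1; funext y; ring

/-- What is left when the projection is taken out solves with the repulsion as a source. -/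
theorem solves_perpF (hf : InH1 f D) (hs : Solves l lam E f D fun _ => 0) (hχ : InH1 χ Dχ)
    (hsχ : Solves l lam E2 χ Dχ fun _ => 0) (i : Fin 3) :
    Solves l lam E (perpF i χ f) (perpD i χ Dχ f D) (perpR i lam χ f) := by
  intro g G hg
  have hA := hf.ten_slIp hχ i
  have hB := hg.ten_slIp hχ i
  have hm := hχ.memLp
  have h1 := (bform_tenF (E := E) hχ hsχ hg hA (memLp_slIp hm hf.memLp)
    fun a => memLp_slIp hm (hf.grad_memLp i a)).2
  have h2 := (bform_tenF (E := E) hχ hsχ hf hB (memLp_slIp hm hg.memLp)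
    fun a => memLp_slIp hm (hg.grad_memLp i a)).2
  rw [hs _ _ hB] at h2
  simp only [zero_mul, integral_zero] at h2
  have hbase : ampBase i l E2 E χ g G (slIp i χ f) (fun a => slIp i χ (D i a)) =
      ampBase i l E2 E χ f D (slIp i χ g) fun a => slIp i χ (G i a) := by
    funext x
    simp only [ampBase, Fin.sum_univ_three]
    ring
  have e1 : bform l lam E (perpF i χ f) (perpD i χ Dχ f D) g G =
      bform l lam E f D g G -
        bform l lam E (tenF i (slIp i χ f) χ)
          (tenD i (slIp i χ f) (fun a => slIp i χ (D i a)) χ Dχ) g G := by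
    simp only [bform]
    rw [← integral_sub (integrable_bform hf hg l lam E) (integrable_bform hA hg l lam E)]
    refine integral_congr_ae (Eventually.of_forall fun z => ?_)
    simp only [perpF, perpD, sub_mul, Finset.sum_sub_distrib]
    ring
  rw [e1, hs g G hg, bform_comm l lam E (tenF i (slIp i χ f) χ), h1, hbase]
  simp only [zero_mul, integral_zero]
  have iR : Integrable fun z => tenF i (rAmp i χ f) χ z * g z :=
    (memLp_tenF i (memLp_rAmp hm hf i) hm).integrable_mul hg.memLp
  have iA : Integrable fun z => tenF i (slIp i χ f) χ z * (repelN i z * g z) :=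
    hA.memLp.integrable_mul (hg.memLp_repelN i)
  have hrhs : ∫ z, perpR i lam χ f z * g z =
      lam * ((∫ x, rAmp i χ f x * slIp i χ g x) - ∫ x, slIp i χ f x * rAmp i χ g x) := by
    rw [← integral_tenF_mul (memLp_rAmp hm hf i) hm hg.memLp i,
      show (∫ x, slIp i χ f x * rAmp i χ g x) =
        ∫ x, slIp i χ f x * slIp i χ (fun z => repelN i z * g z) x from rfl,
      ← integral_tenF_mul (memLp_slIp hm hf.memLp) hm (hg.memLp_repelN i) i,
      ← integral_sub iR iA, ← integral_const_mul]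
    refine integral_congr_ae (Eventually.of_forall fun z => ?_)
    simp only [perpR]
    ring
  rw [hrhs, show (∫ x, rAmp i χ f x * slIp i χ g x) = ∫ x, slIp i χ g x * rAmp i χ f x from
    integral_congr_ae (Eventually.of_forall fun x => mul_comm _ _)]
  linarith

theorem slice_perpF (i : Fin 3) (χ : Cfg 2 → ℝ) (f : Cfg 3 → ℝ) (x : Space) (y : Cfg 2) :
    perpF i χ f (i.insertNth x y) = slice i f x y - ampAt i χ f x * χ y := by
  simp only [perpF, tenF_ins, slice, ampAt, ipN, slIp]

theorem perpF_ins_zero (χ : Cfg 2 → ℝ) (f : Cfg 3 → ℝ) (x : Space) (y : Cfg 2) :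
    perpF 0 χ f ((0 : Fin 3).insertNth x y) = perp χ f x y :=
  slice_perpF 0 χ f x y

/-- The slices of what is left are orthogonal to `χ`. -/
theorem slIp_perpF (hf : MemLp f 2) (hχ : MemLp χ 2) (h1 : ∫ y, χ y ^ 2 = 1) (i : Fin 3) :
    ∀ᵐ x : Space, slIp i χ (perpF i χ f) x = 0 := by
  filter_upwards [memLp_slices i hf] with x hx
  have ia : Integrable fun y => χ y * f (i.insertNth x y) := hχ.integrable_mul hx
  simp only [slIp, perpF, tenF_ins, mul_sub]
  rw [integral_sub ia ((hχ.integrable_sq.const_mul (slIp i χ f x)).congr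
    (Eventually.of_forall fun y => by simp only [slIp]; ring))]
  have : (fun y => χ y * ((∫ y, χ y * f (i.insertNth x y)) * χ y)) =
      fun y => (∫ y, χ y * f (i.insertNth x y)) * χ y ^ 2 := by funext y; ring
  rw [this, integral_const_mul, h1, mul_one, sub_self]

theorem _root_.Vale.Agent.P363.IsLowest.inH1 {n : ℕ} {l lam E : ℝ} {P : (Cfg n → ℝ) → Prop}
    {f : Cfg n → ℝ} {D : Fin n → Fin 3 → Cfg n → ℝ} (h : IsLowest l lam P E f D) : InH1 f D :=
  inH1_of_isFormLim h.lim

/-- The equation of the amplitude of an ion state. -/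
theorem ampStmt : AmpStmt := by
  intro l lam E3 f D _ hf P E χ Dχ hχl i
  have hχ := hχl.inH1
  have hu := hf.inH1
  have hm := hχ.memLp
  have hamp : ampAt i χ f = slIp i χ f := rfl
  have hA : MemLp (slIp i χ f) 2 := memLp_slIp hm hu.memLp
  have hr : MemLp (rAmp i χ f) 2 := memLp_rAmp hm hu i
  set F := fun x => 2 * ((E - E3 - attract l x) * slIp i χ f x + lam * rAmp i χ f x) with hF
  have hFm : MemLp F 2 := by
    refine (((hA.const_mul (E - E3)).sub (memLp_attract_slIp hm hu l i)).add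
      (hr.const_mul lam)).const_mul 2 |>.ae_eq (Eventually.of_forall fun x => ?_)
    simp only [hF, Pi.add_apply, Pi.sub_apply]
    ring
  have hFe : (fun x => 2 * ((E - E3 - attract l x) * ampAt i χ f x +
      lam * ipN (fun y => repel x y * χ y) (slice i f x))) = F := by
    funext x; rw [← rAmp_eq, hamp]
  rw [hamp] at hFe ⊢
  rw [hFe]
  refine ⟨(hA.locallyIntegrable one_le_two).locallyIntegrableOn _,
    (hFm.locallyIntegrable one_le_two).locallyIntegrableOn _, fun η hη => ?_⟩
  have hη1 : ContDiff ℝ 1 η := hη.smooth.of_le (by simp)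
  have hηm : MemLp η 2 := hη.continuous.memLp_of_hasCompactSupport hη.compact
  have hdm : ∀ a, MemLp (deriv3 a η) 2 := fun a =>
    (hη.deriv a).continuous.memLp_of_hasCompactSupport (hη.deriv a).compact
  have hT := inH1_tenF_bump hη1 hη.compact hχ i
  have e := (bform_tenF (E := E3) hχ hχl.solves hu hT hηm hdm).2
  rw [hf.solves _ _ hT] at e
  simp only [zero_mul, integral_zero] at e
  have hw := (hu.hasWeakGrad_slIp hχ i).2.2
  have hgd : ∀ a, MemLp (slIp i χ (D i a)) 2 := fun a => memLp_slIp hm (hu.grad_memLp i a)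
  have e1 : ∀ a, ∫ x, slIp i χ (D i a) x * deriv3 a η x =
      -∫ x, slIp i χ f x * deriv3 a (deriv3 a η) x := fun a => by
    rw [hw _ (hη.deriv a) a, neg_neg]
  have i2 : Integrable fun x => F x * η x := hFm.integrable_mul hηm
  have i3 : ∀ a, Integrable fun x => slIp i χ f x * deriv3 a (deriv3 a η) x := fun a =>
    have h2 : MemLp (deriv3 a (deriv3 a η)) 2 :=
      ((hη.deriv a).deriv a).continuous.memLp_of_hasCompactSupport ((hη.deriv a).deriv a).compact
    hA.integrable_mul h2
  have i4 : ∀ a, Integrable fun x => slIp i χ (D i a) x * deriv3 a η x := fun a =>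
    (hgd a).integrable_mul (hdm a)
  have i5 : Integrable fun x => η x * rAmp i χ f x := hηm.integrable_mul hr
  have i6 := (bform_tenF (E := E3) hχ hχl.solves hu hT hηm hdm).1
  have i7 : Integrable fun x => 2 * (ampBase i l E E3 χ f D η (fun a => deriv3 a η) x +
      lam * (η x * rAmp i χ f x)) := (i6.add (i5.const_mul lam)).const_mul 2
  have e2 : ∫ x, F x * η x = 2 * ((∫ x, ampBase i l E E3 χ f D η (fun a => deriv3 a η) x) +
      lam * ∫ x, η x * rAmp i χ f x) -
      ∑ a, ∫ x, slIp i χ (D i a) x * deriv3 a η x := by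
    rw [← integral_const_mul, ← integral_add i6 (i5.const_mul lam), ← integral_const_mul,
      ← integral_finsetSum _ fun a _ => i4 a,
      ← integral_sub i7 (integrable_finsetSum _ fun a _ => i4 a)]
    refine integral_congr_ae (Eventually.of_forall fun x => ?_)
    simp only [hF, ampBase]
    ring
  rw [e2, ← e]
  simp only [e1, Finset.sum_neg_distrib]
  rw [← integral_finsetSum _ fun a _ => i3 a, mul_zero, zero_sub, neg_neg]
  simp only [lap, Finset.mul_sum]

end Three

end Vale.Agent.P363.Inter
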