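import Vale.Agent.P363.Inter.Slice.Decay
import Vale.Agent.P363.Inter.Spec

/-!
P363, interacting side: exponential moments of the molecule and of the three ion states, with
their gradients, uniformly in the coupling.
-/

noncomputable section

namespace Vale.Agent.P363.Inter

open MeasureTheory Filter Set
open scoped BigOperators Topology

/-- An ion state with exponential moments of itself and of its gradient. -/
structure IonBound (ε K : ℝ) (φ : Cfg 2 → ℝ) (Dφ : Fin 2 → Fin 3 → Cfg 2 → ℝ) : Prop where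
  inH1 : InH1 φ Dφ
  mem : MemLp (fun y => weight ε 0 y * φ y) 2
  le : ∫ y, (weight ε 0 y * φ y) ^ 2 ≤ K
  grad_mem : ∀ k a, MemLp (fun y => weight ε 0 y * Dφ k a y) 2
  grad_le : ∀ k a, ∫ y, (weight ε 0 y * Dφ k a y) ^ 2 ≤ K

/-- The molecule with exponential moments in each electron. -/
structure MolBound (ε K : ℝ) (f : Cfg 3 → ℝ) (D : Fin 3 → Fin 3 → Cfg 3 → ℝ) : Prop where
  inH1 : InH1 f D
  mem : ∀ i, MemLp (fun z => wexp (Pi.single i ε) 0 z * f z) 2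
  le : ∀ i, ∫ z, (wexp (Pi.single i ε) 0 z * f z) ^ 2 ≤ K
  grad_mem : ∀ i j a, MemLp (fun z => wexp (Pi.single i ε) 0 z * D j a z) 2
  grad_le : ∀ i j a, ∫ z, (wexp (Pi.single i ε) 0 z * D j a z) ^ 2 ≤ K

theorem weight_sq_le (ε : ℝ) (y : Cfg 2) :
    weight ε 0 y ^ 2 ≤ ∑ k, wexp (Pi.single k (2 * ε)) 0 y ^ 2 := by
  simp only [weight_eq_wexp, Fin.sum_univ_two, wexp_single]
  have e : wexp (fun _ : Fin 2 => ε) 0 y ^ 2 =
      Real.exp (2 * ε * expo 0 (y 0)) * Real.exp (2 * ε * expo 0 (y 1)) := by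
    rw [wexp, Fin.sum_univ_two, ← Real.exp_nat_mul, ← Real.exp_add]
    congr 1; push_cast; ring
  rw [e]
  nlinarith [sq_nonneg (Real.exp (2 * ε * expo 0 (y 0)) - Real.exp (2 * ε * expo 0 (y 1))),
    sq_nonneg (Real.exp (2 * ε * expo 0 (y 0))), sq_nonneg (Real.exp (2 * ε * expo 0 (y 1)))]

theorem memLp_weight_mul {ε K : ℝ} {h : Cfg 2 → ℝ} (hm : MemLp h 2)
    (hk : ∀ k, MemLp (fun y => wexp (Pi.single k (2 * ε)) 0 y * h y) 2 ∧
      ∫ y, (wexp (Pi.single k (2 * ε)) 0 y * h y) ^ 2 ≤ K) :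
    MemLp (fun y => weight ε 0 y * h y) 2 ∧ ∫ y, (weight ε 0 y * h y) ^ 2 ≤ 2 * K := by
  have hw : Continuous (weight ε 0) := by
    rw [weight_eq_wexp]; exact (contDiff_wexp _ le_rfl).continuous
  have hle : ∀ y, (weight ε 0 y * h y) ^ 2 ≤
      ∑ k, (wexp (Pi.single k (2 * ε)) 0 y * h y) ^ 2 := fun y => by
    simp only [mul_pow, ← Finset.sum_mul]
    exact mul_le_mul_of_nonneg_right (weight_sq_le ε y) (sq_nonneg _)
  have hs : Integrable fun y => ∑ k, (wexp (Pi.single k (2 * ε)) 0 y * h y) ^ 2 :=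
    integrable_finsetSum _ fun k _ => (hk k).1.integrable_sq
  have hi : Integrable fun y => (weight ε 0 y * h y) ^ 2 :=
    hs.mono' ((hw.aestronglyMeasurable.mul hm.1).pow 2) (Eventually.of_forall fun y => by
      rw [Real.norm_eq_abs, abs_of_nonneg (sq_nonneg _)]; exact hle y)
  refine ⟨(memLp_two_iff_integrable_sq (hw.aestronglyMeasurable.mul hm.1)).2 hi,
    (integral_mono hi hs hle).trans ?_⟩
  rw [integral_finsetSum _ fun k _ => (hk k).1.integrable_sq, Fin.sum_univ_two]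
  linarith [(hk 0).2, (hk 1).2]

variable {l C eg eu e' : ℝ} {g u : Space → ℝ} {Dg Du : Fin 3 → Space → ℝ}

/-- Uniform exponential moments. -/
theorem mol_decay (hZ : ZeroOrder l g u Dg Du eg eu e') (C : ℝ) :
    ∃ lam₀ ε₀ K : ℝ, 0 < lam₀ ∧ lam₀ ≤ 1 ∧ 0 < ε₀ ∧ ∀ lam ∈ Ioo 0 lam₀,
      ∀ E3 f D E2 χ Dχ Es χs Ds Et χt Dt,
        MolState l lam C g u Dg Du eg eu E3 f D E2 χ Dχ Es χs Ds Et χt Dt →
        ∀ ε ∈ Ioc 0 ε₀, MolBound ε K f D ∧ IonBound ε K χ Dχ ∧ IonBound ε K χs Ds ∧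
          IonBound ε K χt Dt := by
  have hu : eu < 0 := hZ.eu_lt.trans hZ.e'_neg
  have hg : eg < 0 := hZ.eg_lt.trans hu
  set κ := -eu / 2 with hκ
  have hκ0 : 0 < κ := by rw [hκ]; linarith
  set EB := 2 * |eg| + |eu| + |C| with hEB
  obtain ⟨ε2, K2, hε2, h2⟩ := slot_decay hZ 1 hκ0 EB
  obtain ⟨ε3, K3, hε3, h3⟩ := slot_decay hZ 2 hκ0 EB
  refine ⟨min 1 (κ / (|C| + 1)), min (ε2 / 2) ε3, max (2 * K2) K3,
    lt_min one_pos (by positivity), min_le_left _ _, lt_min (half_pos hε2) hε3,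
    fun lam hlam E3 f D E2 χ Dχ Es χs Ds Et χt Dt hM ε hε => ?_⟩
  have hCl : C * lam ≤ κ := by
    have h := hlam.2.le.trans (min_le_right _ _)
    rw [le_div_iff₀ (by positivity)] at h
    linarith [mul_le_mul_of_nonneg_right (le_abs_self C) hlam.1.le, hlam.1,
      show lam * (|C| + 1) = |C| * lam + lam by ring]
  have hCl' : |C * lam| ≤ |C| := by
    rw [abs_mul, abs_of_pos hlam.1]
    exact mul_le_of_le_one_right (abs_nonneg _) (hlam.2.le.trans (min_le_left _ _))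
  have hbd : ∀ E E₀ : ℝ, |E₀| ≤ 2 * |eg| + |eu| → E₀ ≤ E → E ≤ E₀ + C * lam → |E| ≤ EB := by
    intro E E₀ h0 h1 h2
    rw [abs_le] at h0 hCl' ⊢
    constructor <;> linarith [abs_nonneg C, hCl'.2, hCl'.1]
  have hion : ∀ {P : (Cfg 2 → ℝ) → Prop} {σ τ E₀ E : ℝ} {G : Cfg 2 → ℝ}
      {DG : Fin 2 → Fin 3 → Cfg 2 → ℝ} {φ : Cfg 2 → ℝ} {Dφ : Fin 2 → Fin 3 → Cfg 2 → ℝ},
      TwoState l lam C P σ τ E₀ G DG E φ Dφ → E₀ ≤ eg + eu → |E₀| ≤ 2 * |eg| + |eu| →
      IonBound ε (max (2 * K2) K3) φ Dφ := by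
    intro P σ τ E₀ E G DG φ Dφ hT hE0 hE0'
    have hH := inH1_of_isFormLim hT.lowest.lim
    have hm := h2 (2 * ε) ⟨by linarith [hε.1], by linarith [hε.2.trans (min_le_left _ _)]⟩ lam E
      hlam.1.le (by push_cast; linarith [hT.energy_le]) (hbd E E₀ hE0' hT.energy_ge hT.energy_le)
      φ Dφ hH hT.lowest.solves hT.lowest.mass_one
    have h0 := memLp_weight_mul (ε := ε) hH.memLp fun k => (hm k).1
    have h1 := fun j a => memLp_weight_mul (ε := ε) (hH.grad_memLp j a) fun k => (hm k).2 j a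
    exact ⟨hH, h0.1, h0.2.trans (le_max_left _ _), fun j a => (h1 j a).1,
      fun j a => (h1 j a).2.trans (le_max_left _ _)⟩
  have habs : |2 * eg + eu| ≤ 2 * |eg| + |eu| := by
    refine (abs_add_le _ _).trans (le_of_eq ?_); rw [abs_mul, abs_two]
  have hgu : |eg + eu| ≤ 2 * |eg| + |eu| := (abs_add_le _ _).trans (by linarith [abs_nonneg eg])
  have hgg : |2 * eg| ≤ 2 * |eg| + |eu| := by rw [abs_mul, abs_two]; linarith [abs_nonneg eu]
  have hH := inH1_of_isFormLim hM.three.lowest.lim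
  have hm := h3 ε ⟨hε.1, hε.2.trans (min_le_right _ _)⟩ lam E3 hlam.1.le
    (by push_cast; linarith [hM.three.energy_le])
    (hbd E3 _ habs hM.three.energy_ge hM.three.energy_le) f D hH hM.three.lowest.solves
    hM.three.lowest.mass_one
  exact ⟨⟨hH, fun i => (hm i).1.1, fun i => (hm i).1.2.trans (le_max_right _ _),
      fun i j a => ((hm i).2 j a).1, fun i j a => ((hm i).2 j a).2.trans (le_max_right _ _)⟩,
    hion hM.ion (by linarith [hZ.eg_lt]) hgg, hion hM.singlet le_rfl hgu,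
    hion hM.triplet le_rfl hgu⟩

end Vale.Agent.P363.Inter
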