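import Vale.Agent.P363.Inter.Slice.EnergyBase
import Vale.Agent.P363.Inter.Slice.Proj
import Vale.Agent.P363.Inter.DensitySpec

/-!
P363, interacting side: Caccioppoli inequalities for the excited part of an up slice, for its ion
part and for the down slice.
-/

noncomputable section

namespace Vale.Agent.P363.Inter

open MeasureTheory Filter Set
open scoped BigOperators Topology

variable {f : Cfg 3 → ℝ} {D : Fin 3 → Fin 3 → Cfg 3 → ℝ} {χ : Cfg 2 → ℝ}
  {Dχ : Fin 2 → Fin 3 → Cfg 2 → ℝ} {l lam E E2 : ℝ}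

theorem gradMul_const_one {n : ℕ} (y : Cfg n) : gradMul (fun _ => (1 : ℝ)) y = 0 := by
  simp [gradMul, slotDeriv]

theorem nrmN_sq_eq {n : ℕ} (F : Cfg n → ℝ) : nrmN F ^ 2 = ∫ y, F y ^ 2 := by
  rw [nrmN_eq_sqrt, Real.sq_sqrt (integral_nonneg fun y => sq_nonneg _)]

/-- A cut off times an integrable function with a bounded continuous weight. -/
theorem integrable_cut_mul {η : Space → ℝ} (hη : IsBump univ η) {θ : Space → ℝ}
    (hθ : Continuous θ) {g : Space → ℝ} (hg : Integrable g) :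
    Integrable fun x => (η x ^ 2 + ∑ a, deriv3 a η x ^ 2) * (θ x * g x) := by
  have hc : Continuous fun x => (η x ^ 2 + ∑ a, deriv3 a η x ^ 2) * θ x :=
    ((hη.continuous.pow 2).add (continuous_finsetSum _ fun a _ =>
      (hη.deriv a).continuous.pow 2)).mul hθ
  have hs : HasCompactSupport fun x => (η x ^ 2 + ∑ a, deriv3 a η x ^ 2) * θ x := by
    refine HasCompactSupport.intro hη.compact.isCompact fun x hx => ?_
    have h0 : ∀ a, deriv3 a η x = 0 := fun a => deriv3_eq_zero_of_notMem a hx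
    simp [image_eq_zero_of_notMem_tsupport hx, h0]
  obtain ⟨B, hB⟩ := hs.exists_bound_of_continuous hc
  refine (hg.bdd_mul hc.aestronglyMeasurable (Eventually.of_forall hB)).congr
    (Eventually.of_forall fun x => ?_)
  ring

/-- The weight of the source in the error terms. -/
def decay2 (lam : ℝ) (x : Space) : ℝ := lam ^ 2 / (1 + ‖x‖ ^ 2) ^ 2

theorem decay2_nonneg (lam : ℝ) (x : Space) : 0 ≤ decay2 lam x := by
  unfold decay2; positivity

theorem continuous_decay2 (lam : ℝ) : Continuous (decay2 lam) :=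
  continuous_const.div ((continuous_const.add (continuous_norm.pow 2)).pow 2) fun x => by positivity

/-- Caccioppoli for what is left of the up slice. -/
theorem perp_energy (hf : InH1 f D) (hlam : 0 ≤ lam) (hlam1 : lam ≤ 1)
    (hs : Solves l lam E f D fun _ => 0) (hχ : InH1 χ Dχ)
    (hsχ : Solves l lam E2 χ Dχ fun _ => 0) (h1 : ∫ y, χ y ^ 2 = 1) {EB : ℝ} (hE : |E| ≤ EB)
    {W : Cfg 2 → ℝ} (hW : IsMult W) (hb : ∀ y, gradMul W y ≤ 2 * W y ^ 2) {Kr κ : ℝ}
    (hKr : 0 ≤ Kr) (hκ0 : 0 ≤ κ) (hκ : √(∫ y, (W y * χ y) ^ 2) ≤ κ)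
    (hq : ∀ x : Space, ∃ c, MemLp (fun y => (repel x y - c) * χ y) 2 ∧
      MemLp (fun y => W y * ((repel x y - c) * χ y)) 2 ∧
      √(∫ y, ((repel x y - c) * χ y) ^ 2) ≤ Kr / (1 + ‖x‖ ^ 2) ∧
      √(∫ y, (W y * ((repel x y - c) * χ y)) ^ 2) ≤ Kr / (1 + ‖x‖ ^ 2))
    {η : Space → ℝ} (hη : IsBump univ η) :
    Integrable (fun x => (η x ^ 2 + ∑ a, deriv3 a η x ^ 2) *
      ((∫ y, (W y * perp χ f x y) ^ 2) + (∫ y, perp χ f x y ^ 2) +
        decay2 lam x * amp χ f x ^ 2)) ∧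
    ∫ x, η x ^ 2 * (∑ j, ∑ a, ∫ y,
        (W y * perpD 0 χ Dχ f D j a ((0 : Fin 3).insertNth x y)) ^ 2) ≤
      (8 * (EB + 48) + 18 + 8 * (2 * Kr * (κ + 1))) *
        ∫ x, (η x ^ 2 + ∑ a, deriv3 a η x ^ 2) *
          ((∫ y, (W y * perp χ f x y) ^ 2) + (∫ y, perp χ f x y ^ 2) +
            decay2 lam x * amp χ f x ^ 2) := by
  have hP := inH1_perpF hf hχ 0
  have hPs := solves_perpF hf hs hχ hsχ 0
  have hm := hχ.memLp
  have hη1 : ContDiff ℝ 1 η := hη.contDiff 1
  set U : Space → ℝ := fun x => ∫ y, (W y * perp χ f x y) ^ 2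
  set P : Space → ℝ := fun x => ∫ y, perp χ f x y ^ 2
  set L : Space → ℝ := fun x => decay2 lam x * amp χ f x ^ 2
  have hU : ∀ x, 0 ≤ U x := fun x => integral_nonneg fun y => sq_nonneg _
  have hP0 : ∀ x, 0 ≤ P x := fun x => integral_nonneg fun y => sq_nonneg _
  have hL0 : ∀ x, 0 ≤ L x := fun x => mul_nonneg (decay2_nonneg lam x) (sq_nonneg _)
  obtain ⟨sU, iU, eU⟩ := slot_sq 0 hη1 hη.compact hW hP.memLp
  have hiU : Integrable fun x => η x ^ 2 * U x := by simpa only [perpF_ins_zero] using iU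
  have hiP : Integrable fun x => η x ^ 2 * P x := by
    simpa only [perpF_ins_zero, one_mul] using
      (slot_sq 0 hη1 hη.compact (isMult_one (n := 2)) hP.memLp).2.1
  have hA2 : Integrable fun x => amp χ f x ^ 2 := (memLp_slIp hm hf.memLp).integrable_sq
  have hiL : Integrable fun x => (η x ^ 2 + ∑ a, deriv3 a η x ^ 2) * L x :=
    integrable_cut_mul hη (continuous_decay2 lam) hA2
  have hle : ∀ x, η x ^ 2 ≤ η x ^ 2 + ∑ a, deriv3 a η x ^ 2 := fun x =>
    le_add_of_nonneg_right (Finset.sum_nonneg fun a _ => sq_nonneg _)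
  have hη0 : ∀ x, 0 ≤ η x ^ 2 + ∑ a, deriv3 a η x ^ 2 := fun x => (sq_nonneg _).trans (hle x)
  have hiηL : Integrable fun x => η x ^ 2 * L x :=
    hiL.mono' ((hη.continuous.pow 2).aestronglyMeasurable.mul
      ((continuous_decay2 lam).aestronglyMeasurable.mul hA2.1))
      (Eventually.of_forall fun x => by
        rw [Real.norm_eq_abs, abs_of_nonneg (mul_nonneg (sq_nonneg _) (hL0 x))]
        exact mul_le_mul_of_nonneg_right (hle x) (hL0 x))
  set N : Space → ℝ := fun x => 2 * Kr * (κ + 1) * (U x + P x + L x)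
  have hN : Integrable fun x => η x ^ 2 * N x := by
    refine (((hiU.add hiP).add hiηL).const_mul (2 * Kr * (κ + 1))).congr
      (Eventually.of_forall fun x => ?_)
    simp only [N, Pi.add_apply]
    ring
  have hT : ∀ᵐ x : Space, |∫ y, W y ^ 2 * (perpR 0 lam χ f ((0 : Fin 3).insertNth x y) *
      perpF 0 χ f ((0 : Fin 3).insertNth x y))| ≤ N x := by
    filter_upwards [memLp_slices 0 hf.memLp, memLp_slices 0 (hW.wL 0 |>.memLp_mul hP.memLp)]
      with x hx hx'
    obtain ⟨c, hq1, hq2, hq3, hq4⟩ := hq x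
    have hWP : MemLp (fun y => W y * (slice 0 f x y - ipN χ (slice 0 f x) * χ y)) 2 := by
      simpa only [wL_ins, slice_perpF, ampAt] using hx'
    have hWχ : MemLp (fun y => W y * χ y) 2 := hW.memLp_mul hm
    have hp := src_pair_le (W := W) (F := slice 0 f x) (q := repel x) hm h1 hx hq1 hWχ hq2 hWP
    have e : ∫ y, W y ^ 2 * (perpR 0 lam χ f ((0 : Fin 3).insertNth x y) *
        perpF 0 χ f ((0 : Fin 3).insertNth x y)) =
        lam * ∫ y, W y ^ 2 * ((ipN (fun y => repel x y * χ y) (slice 0 f x) * χ y -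
          ipN χ (slice 0 f x) * (repel x y * χ y)) *
          (slice 0 f x y - ipN χ (slice 0 f x) * χ y)) := by
      rw [← integral_const_mul]
      refine integral_congr_ae (Eventually.of_forall fun y => ?_)
      simp only [perpR, tenF_ins, repelN_ins, rAmp_eq, slice_perpF, ampAt]
      simp only [slIp, ipN, slice]
      ring
    rw [e, abs_mul, abs_of_nonneg hlam]
    refine (mul_le_mul_of_nonneg_left hp hlam).trans ?_
    have hu : √(U x) ^ 2 = U x := Real.sq_sqrt (hU x)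
    have hpp : √(P x) ^ 2 = P x := Real.sq_sqrt (hP0 x)
    have hu0 := Real.sqrt_nonneg (U x)
    have hp0 := Real.sqrt_nonneg (P x)
    set ρ := Kr / (1 + ‖x‖ ^ 2)
    have hρ : 0 ≤ ρ := by positivity
    have hρK : ρ ≤ Kr := div_le_self hKr (by nlinarith [norm_nonneg x])
    show lam * (((|amp χ f x| + √(P x)) * √(∫ y, ((repel x y - c) * χ y) ^ 2) *
      √(∫ y, (W y * χ y) ^ 2) + |amp χ f x| *
      √(∫ y, (W y * ((repel x y - c) * χ y)) ^ 2)) * √(U x)) ≤ N x
    set A := |amp χ f x|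
    have hA : 0 ≤ A := abs_nonneg _
    refine le_trans (b := lam * (((A + √(P x)) * ρ * κ + A * ρ) * √(U x))) (by gcongr) ?_
    set s := lam / (1 + ‖x‖ ^ 2) * A
    have hs0 : 0 ≤ s := by positivity
    have e1 : lam * (((A + √(P x)) * ρ * κ + A * ρ) * √(U x)) =
        Kr * ((κ + 1) * (s * √(U x))) + lam * ρ * κ * (√(P x) * √(U x)) := by
      simp only [ρ, s]; ring
    rw [e1]
    have h2 : lam * ρ * κ ≤ Kr * (κ + 1) :=
      calc lam * ρ * κ ≤ 1 * Kr * κ := by gcongr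
        _ ≤ _ := by nlinarith
    have hL : s ^ 2 = L x := by
      simp only [s, L, A, decay2, mul_pow, sq_abs, div_pow]
    have h3 : s * √(U x) + √(P x) * √(U x) ≤ 2 * (U x + P x + L x) := by
      nlinarith [sq_nonneg (s - √(U x)), sq_nonneg (√(P x) - √(U x)), hU x, hP0 x, hL0 x]
    calc Kr * ((κ + 1) * (s * √(U x))) + lam * ρ * κ * (√(P x) * √(U x))
        ≤ Kr * ((κ + 1) * (s * √(U x))) + Kr * (κ + 1) * (√(P x) * √(U x)) :=
          add_le_add le_rfl (mul_le_mul_of_nonneg_right h2 (mul_nonneg hp0 hu0))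
      _ = Kr * (κ + 1) * (s * √(U x) + √(P x) * √(U x)) := by ring
      _ ≤ Kr * (κ + 1) * (2 * (U x + P x + L x)) := by gcongr
      _ = N x := by simp only [N]; ring
  obtain ⟨hiT, hmain⟩ := energy_slot hP hlam (memLp_perpR hf hχ 0 lam) hPs 0 hη hW hb hN hT
  simp only [perpF_ins_zero] at hiT hmain
  have hiT' : Integrable fun x => (η x ^ 2 + ∑ a, deriv3 a η x ^ 2) * P x := by
    have hb1 : ∀ y : Cfg 2, gradMul (fun _ => (1 : ℝ)) y ≤ 2 * (1 : ℝ) ^ 2 := fun y => by
      rw [gradMul_const_one]; norm_num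
    have iη := (slot_sq 0 hη1 hη.compact (isMult_one (n := 2)) hP.memLp).2.1
    have id := fun a => (slot_sq 0 ((hη.deriv a).contDiff 1) (hη.deriv a).compact
      (isMult_one (n := 2)) hP.memLp).2.1
    simp only [perpF_ins_zero, one_mul] at iη id
    refine (iη.add (integrable_finsetSum Finset.univ fun a _ => id a)).congr
      (Eventually.of_forall fun x => ?_)
    simp only [Pi.add_apply, add_mul, Finset.sum_mul, P]
  have hiS : Integrable fun x => (η x ^ 2 + ∑ a, deriv3 a η x ^ 2) * (U x + P x + L x) := by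
    refine ((hiT.add hiT').add hiL).congr (Eventually.of_forall fun x => ?_)
    simp only [Pi.add_apply, U]
    ring
  refine ⟨hiS, hmain.trans ?_⟩
  set S := ∫ x, (η x ^ 2 + ∑ a, deriv3 a η x ^ 2) * (U x + P x + L x)
  have hS0 : 0 ≤ S := integral_nonneg fun x =>
    mul_nonneg (hη0 x) (add_nonneg (add_nonneg (hU x) (hP0 x)) (hL0 x))
  have g1 : ∫ x, (η x ^ 2 + ∑ a, deriv3 a η x ^ 2) * U x ≤ S :=
    integral_mono hiT hiS fun x => mul_le_mul_of_nonneg_left
      (by linarith [hP0 x, hL0 x]) (hη0 x)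
  have g2 : ∫ x, η x ^ 2 * N x ≤ 2 * Kr * (κ + 1) * S := by
    rw [← integral_const_mul]
    refine integral_mono hN (hiS.const_mul _) fun x => ?_
    simp only [N]
    rw [← mul_assoc, mul_comm (η x ^ 2), mul_assoc]
    exact mul_le_mul_of_nonneg_left (mul_le_mul_of_nonneg_right (hle x)
      (add_nonneg (add_nonneg (hU x) (hP0 x)) (hL0 x))) (by positivity)
  norm_num
  calc (8 * (|E| + 48) + 18) * (∫ x, (η x ^ 2 + ∑ a, deriv3 a η x ^ 2) * U x) +
        8 * ∫ x, η x ^ 2 * N x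
      ≤ (8 * (EB + 48) + 18) * S + 8 * (2 * Kr * (κ + 1) * S) := by
        have hEB : 0 ≤ EB := (abs_nonneg E).trans hE
        refine add_le_add (mul_le_mul (by linarith) g1 (integral_nonneg fun x =>
          mul_nonneg (hη0 x) (hU x)) (by linarith)) (by linarith)
    _ = _ := by ring

/-- Caccioppoli for the amplitude. -/
theorem amp_energy (hf : InH1 f D) (hlam : 0 ≤ lam) (hs : Solves l lam E f D fun _ => 0)
    (hχ : InH1 χ Dχ) (hsχ : Solves l lam E2 χ Dχ fun _ => 0) (h1 : ∫ y, χ y ^ 2 = 1) {EB : ℝ}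
    (hE : |E| ≤ EB) {Kr : ℝ} (hKr : 0 ≤ Kr)
    (hq : ∀ x : Space, ∃ c, MemLp (fun y => (repel x y - c) * χ y) 2 ∧
      √(∫ y, ((repel x y - c) * χ y) ^ 2) ≤ Kr / (1 + ‖x‖ ^ 2))
    {η : Space → ℝ} (hη : IsBump univ η) :
    ∫ x, η x ^ 2 * ∑ a, slIp 0 χ (D 0 a) x ^ 2 ≤
      (8 * (EB + 48) + 6 + 8 * (Kr + 1)) *
        ∫ x, (η x ^ 2 + ∑ a, deriv3 a η x ^ 2) *
          (amp χ f x ^ 2 + decay2 lam x * uPerp χ f x ^ 2) := by
  have hu := hf.ten_slIp hχ 0
  have hP := inH1_perpF hf hχ 0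
  have hm := hχ.memLp
  have hη1 : ContDiff ℝ 1 η := hη.contDiff 1
  have hsu : Solves l lam E (tenF 0 (slIp 0 χ f) χ)
      (tenD 0 (slIp 0 χ f) (fun a => slIp 0 χ (D 0 a)) χ Dχ) fun z => -perpR 0 lam χ f z := by
    intro g G hg
    have e1 := solves_perpF hf hs hχ hsχ 0 g G hg
    have e2 := hs g G hg
    simp only [zero_mul, integral_zero] at e2
    have e3 : bform l lam E (perpF 0 χ f) (perpD 0 χ Dχ f D) g G = bform l lam E f D g G -
        bform l lam E (tenF 0 (slIp 0 χ f) χ)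
          (tenD 0 (slIp 0 χ f) (fun a => slIp 0 χ (D 0 a)) χ Dχ) g G := by
      simp only [bform]
      rw [← integral_sub (integrable_bform hf hg l lam E) (integrable_bform hu hg l lam E)]
      refine integral_congr_ae (Eventually.of_forall fun z => ?_)
      simp only [perpF, perpD, sub_mul, Finset.sum_sub_distrib]
      ring
    simp only [neg_mul, integral_neg]
    linarith
  set A2 : Space → ℝ := fun x => amp χ f x ^ 2
  set L : Space → ℝ := fun x => decay2 lam x * uPerp χ f x ^ 2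
  have hA2 : Integrable A2 := (memLp_slIp hm hf.memLp).integrable_sq
  have hP2 : Integrable fun x => uPerp χ f x ^ 2 := by
    refine ((integrable_slices 0 hP.memLp.integrable_sq).2).congr (Eventually.of_forall fun x => ?_)
    simp only [uPerp, nrmN_sq_eq, perpF_ins_zero]
  have iT1 : Integrable fun x => (η x ^ 2 + ∑ a, deriv3 a η x ^ 2) * A2 x := by
    simpa only [one_mul] using integrable_cut_mul hη (θ := fun _ => 1) continuous_const hA2
  have iT2 : Integrable fun x => (η x ^ 2 + ∑ a, deriv3 a η x ^ 2) * L x :=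
    integrable_cut_mul hη (continuous_decay2 lam) hP2
  have hL0 : ∀ x, 0 ≤ L x := fun x => mul_nonneg (decay2_nonneg lam x) (sq_nonneg _)
  have hle : ∀ x, η x ^ 2 ≤ η x ^ 2 + ∑ a, deriv3 a η x ^ 2 := fun x =>
    le_add_of_nonneg_right (Finset.sum_nonneg fun a _ => sq_nonneg _)
  set N : Space → ℝ := fun x => (Kr + 1) * (A2 x + L x)
  have hsum0 : ∀ x, 0 ≤ A2 x + L x := fun x => add_nonneg (sq_nonneg _) (hL0 x)
  have iS : Integrable fun x => (η x ^ 2 + ∑ a, deriv3 a η x ^ 2) * (A2 x + L x) :=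
    (iT1.add iT2).congr (Eventually.of_forall fun x => by simp only [Pi.add_apply]; ring)
  have hN : Integrable fun x => η x ^ 2 * N x := by
    refine (iS.const_mul (Kr + 1)).mono' ((hη.continuous.pow 2).aestronglyMeasurable.mul
      (((hA2.1.add ((continuous_decay2 lam).aestronglyMeasurable.mul hP2.1))).const_mul _))
      (Eventually.of_forall fun x => ?_)
    have h0 : 0 ≤ Kr + 1 := by linarith
    rw [Real.norm_eq_abs, abs_of_nonneg (mul_nonneg (sq_nonneg _) (mul_nonneg h0 (hsum0 x)))]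
    nlinarith [mul_le_mul_of_nonneg_right (hle x) (mul_nonneg h0 (hsum0 x))]
  have hT : ∀ᵐ x : Space, |∫ y, (1 : ℝ) ^ 2 * (-perpR 0 lam χ f ((0 : Fin 3).insertNth x y) *
      tenF 0 (slIp 0 χ f) χ ((0 : Fin 3).insertNth x y))| ≤ N x := by
    filter_upwards [memLp_slices 0 hf.memLp] with x hx
    obtain ⟨c, hq1, hq2⟩ := hq x
    have hp := src_pair_amp_le (F := slice 0 f x) (q := repel x) hm h1 hx hq1
    have e : ∫ y, (1 : ℝ) ^ 2 * (-perpR 0 lam χ f ((0 : Fin 3).insertNth x y) *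
        tenF 0 (slIp 0 χ f) χ ((0 : Fin 3).insertNth x y)) =
        lam * ∫ y, (ipN χ (slice 0 f x) * (repel x y * χ y) -
          ipN (fun y => repel x y * χ y) (slice 0 f x) * χ y) *
          (ipN χ (slice 0 f x) * χ y) := by
      rw [← integral_const_mul]
      refine integral_congr_ae (Eventually.of_forall fun y => ?_)
      simp only [perpR, tenF_ins, repelN_ins, rAmp_eq]
      simp only [slIp, ipN, slice]
      ring
    rw [e, abs_mul, abs_of_nonneg hlam]
    refine (mul_le_mul_of_nonneg_left hp hlam).trans ?_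
    have hsl : √(∫ y, (slice 0 f x y - ipN χ (slice 0 f x) * χ y) ^ 2) = uPerp χ f x :=
      (nrmN_eq_sqrt _).symm
    rw [hsl]
    have hu0 : 0 ≤ uPerp χ f x := nrmN_nonneg _
    show lam * (|amp χ f x| * (√(∫ y, ((repel x y - c) * χ y) ^ 2) * uPerp χ f x)) ≤ N x
    refine (mul_le_mul_of_nonneg_left (mul_le_mul_of_nonneg_left
      (mul_le_mul_of_nonneg_right hq2 hu0) (abs_nonneg _)) hlam).trans ?_
    set s := lam / (1 + ‖x‖ ^ 2) * uPerp χ f x
    have hL : s ^ 2 = L x := by simp only [s, L, decay2, mul_pow, div_pow]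
    have e2 : lam * (|amp χ f x| * (Kr / (1 + ‖x‖ ^ 2) * uPerp χ f x)) =
        Kr * (|amp χ f x| * s) := by simp only [s]; ring
    rw [e2]
    simp only [N, A2]
    nlinarith [sq_abs (amp χ f x), mul_nonneg hKr (sq_nonneg (|amp χ f x| - s)),
      mul_nonneg hKr (sq_nonneg (amp χ f x)), mul_nonneg hKr (sq_nonneg s),
      sq_nonneg (amp χ f x), hL0 x]
  obtain ⟨hiT, hmain⟩ := energy_slot hu hlam (memLp_perpR hf hχ 0 lam).neg hsu 0 hη
    (isMult_one (n := 2)) (b := 0) (fun y => by rw [gradMul_const_one]; simp) hN hT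
  have hsl : ∀ x, ∫ y, ((1 : ℝ) * tenF 0 (slIp 0 χ f) χ ((0 : Fin 3).insertNth x y)) ^ 2 =
      A2 x := fun x => by
    simp only [one_mul, tenF_ins, mul_pow, integral_const_mul, h1, mul_one]
    rfl
  simp only [hsl] at hmain
  have hη0 : ∀ x, 0 ≤ η x ^ 2 + ∑ a, deriv3 a η x ^ 2 := fun x => (sq_nonneg _).trans (hle x)
  refine le_trans ?_ (hmain.trans ?_)
  · refine integral_mono_of_nonneg (Eventually.of_forall fun x =>
      mul_nonneg (sq_nonneg _) (Finset.sum_nonneg fun a _ => sq_nonneg _)) ?_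
      (Eventually.of_forall fun x => mul_le_mul_of_nonneg_left ?_ (sq_nonneg _))
    · simp only [Finset.mul_sum]
      exact integrable_finsetSum _ fun j _ => integrable_finsetSum _ fun a _ =>
        (slot_sq 0 hη1 hη.compact (isMult_one (n := 2)) (hu.grad_memLp j a)).2.1
    · refine le_trans (le_of_eq (Finset.sum_congr rfl fun a _ => ?_))
        (Finset.single_le_sum (f := fun j => ∑ a, ∫ y, ((1 : ℝ) *
          tenD 0 (slIp 0 χ f) (fun a => slIp 0 χ (D 0 a)) χ Dχ j a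
            ((0 : Fin 3).insertNth x y)) ^ 2)
          (fun j _ => Finset.sum_nonneg fun a _ => integral_nonneg fun y => sq_nonneg _)
          (Finset.mem_univ (0 : Fin 3)))
      simp only [tenD_self, one_mul, tenF_ins, mul_pow, integral_const_mul, h1, mul_one]
  · set S := ∫ x, (η x ^ 2 + ∑ a, deriv3 a η x ^ 2) * (A2 x + L x)
    have g1 : ∫ x, (η x ^ 2 + ∑ a, deriv3 a η x ^ 2) * A2 x ≤ S :=
      integral_mono iT1 iS fun x => mul_le_mul_of_nonneg_left
        (le_add_of_nonneg_right (hL0 x)) (hη0 x)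
    have g2 : ∫ x, η x ^ 2 * N x ≤ (Kr + 1) * S := by
      rw [← integral_const_mul]
      refine integral_mono hN (iS.const_mul _) fun x => ?_
      simp only [N]
      rw [← mul_assoc, mul_comm (η x ^ 2), mul_assoc]
      exact mul_le_mul_of_nonneg_left (mul_le_mul_of_nonneg_right (hle x) (hsum0 x)) (by linarith)
    norm_num
    calc (8 * (|E| + 48) + 6) * (∫ x, (η x ^ 2 + ∑ a, deriv3 a η x ^ 2) * A2 x) +
          8 * ∫ x, η x ^ 2 * N x
        ≤ (8 * (EB + 48) + 6) * S + 8 * ((Kr + 1) * S) := by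
          have hEB : 0 ≤ EB := (abs_nonneg E).trans hE
          refine add_le_add (mul_le_mul (by linarith) g1 (integral_nonneg fun x =>
            mul_nonneg (hη0 x) (sq_nonneg _)) (by linarith)) (by linarith)
      _ = _ := by ring

/-- Caccioppoli for the down slice. -/
theorem down_energy (hf : InH1 f D) (hlam : 0 ≤ lam) (hs : Solves l lam E f D fun _ => 0)
    {EB : ℝ} (hE : |E| ≤ EB) {η : Space → ℝ} (hη : IsBump univ η) :
    ∫ x, η x ^ 2 * kinDown D x ≤
      (8 * (EB + 48) + 6) * ∫ x, (η x ^ 2 + ∑ a, deriv3 a η x ^ 2) * uDown f x ^ 2 := by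
  obtain ⟨hiT, h⟩ := energy_slot hf hlam (MemLp.zero' (p := 2)) hs 2 hη (isMult_one (n := 2))
    (b := 0) (fun y => by rw [gradMul_const_one]; simp) (N := fun _ => 0) (by simp)
    (Eventually.of_forall fun x => by simp)
  simp only [one_mul, mul_zero, integral_zero, add_zero, abs_zero, mul_one] at h
  have e : ∀ x, uDown f x ^ 2 = ∫ y, f ((2 : Fin 3).insertNth x y) ^ 2 := fun x => nrmN_sq_eq _
  simp only [kinDown, slice, e]
  refine h.trans (mul_le_mul_of_nonneg_right ?_ (integral_nonneg fun x => mul_nonneg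
    (add_nonneg (sq_nonneg _) (Finset.sum_nonneg fun a _ => sq_nonneg _))
    (integral_nonneg fun y => sq_nonneg _)))
  norm_num
  linarith

variable {g u : Space → ℝ} {Dg Du : Fin 3 → Space → ℝ} {eg eu e' : ℝ}

/-- Constants of the ion shared by both statements. -/
theorem energy_consts (hZ : ZeroOrder l g u Dg Du eg eu e') (C : ℝ) :
    ∃ lam₀ ε₀ κ Kr EB : ℝ, 0 < lam₀ ∧ lam₀ ≤ 1 ∧ 0 < ε₀ ∧ ε₀ ≤ 1 ∧ 0 ≤ κ ∧ 0 ≤ Kr ∧ 0 ≤ EB ∧
      ∀ lam ∈ Ioo 0 lam₀, ∀ E3 f D E2 χ Dχ Es χs Ds Et χt Dt,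
        MolState l lam C g u Dg Du eg eu E3 f D E2 χ Dχ Es χs Ds Et χt Dt →
        |E3| ≤ EB ∧ ∀ ε ∈ Icc 0 ε₀, ∀ δ > 0,
          √(∫ y, (weight ε δ y * χ y) ^ 2) ≤ κ ∧
          ∀ x : Space, ∃ c, MemLp (fun y => (repel x y - c) * χ y) 2 ∧
            MemLp (fun y => weight ε δ y * ((repel x y - c) * χ y)) 2 ∧
            √(∫ y, ((repel x y - c) * χ y) ^ 2) ≤ Kr / (1 + ‖x‖ ^ 2) ∧
            √(∫ y, (weight ε δ y * ((repel x y - c) * χ y)) ^ 2) ≤ Kr / (1 + ‖x‖ ^ 2) := by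
  obtain ⟨lam₀, ε₀, K, hl, hl1, hε₀, hd⟩ := mol_decay hZ C
  set e₁ := min (ε₀ / 2) (1 / 2) with he
  have he0 : 0 < e₁ := lt_min (half_pos hε₀) one_half_pos
  have he1 : 2 * e₁ ≤ ε₀ := by linarith [min_le_left (ε₀ / 2) (1 / 2 : ℝ)]
  have he2 : 2 * e₁ ≤ 1 := by linarith [min_le_right (ε₀ / 2) (1 / 2 : ℝ)]
  refine ⟨lam₀, e₁, √K, (400 / e₁ ^ 2 + 40) * √K, 2 * |eg| + |eu| + |C|, hl, hl1, he0,
    by linarith, Real.sqrt_nonneg _, by positivity, by positivity,
    fun lam hlam E3 f D E2 χ Dχ Es χs Ds Et χt Dt hM => ⟨?_, fun ε hε δ hδ => ?_⟩⟩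
  · have h1 := hM.three.energy_ge
    have h2 := hM.three.energy_le
    have h3 : C * lam ≤ |C| := (mul_le_mul_of_nonneg_right (le_abs_self C) hlam.1.le).trans
      (mul_le_of_le_one_right (abs_nonneg _) (hlam.2.le.trans hl1))
    rw [abs_le]
    constructor <;>
      linarith [le_abs_self eg, neg_abs_le eg, le_abs_self eu, neg_abs_le eu, abs_nonneg C]
  obtain ⟨-, hb, -, -⟩ := hd lam hlam _ _ _ _ _ _ _ _ _ _ _ _ hM (2 * e₁)
    ⟨by linarith, he1⟩
  have hwm : ∀ c, 0 ≤ c → Continuous (weight c δ) := fun c _ => by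
    rw [weight_eq_wexp]; exact (contDiff_wexp _ hδ.le).continuous
  have hw1 : ∀ y, weight ε δ y ≤ weight e₁ δ y := fun y => by
    simp only [weight_eq_wexp]; exact wexp_mono (fun _ => hε.2) hδ.le y
  have hone : ∀ y, 1 ≤ weight e₁ δ y := fun y => by
    rw [weight_eq_wexp]; exact one_le_wexp (fun _ => he0.le) hδ.le y
  have hw2 : ∀ y, weight e₁ δ y ≤ weight (2 * e₁) 0 y := fun y => by
    simp only [weight_eq_wexp]
    exact (wexp_le_zero (fun _ => he0.le) hδ.le y).trans (wexp_mono (fun _ => by linarith) le_rfl y)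
  have hwpos : ∀ y, 0 ≤ weight ε δ y := fun y => (Real.exp_pos _).le
  refine ⟨Real.sqrt_le_sqrt ((integral_mono_of_nonneg (Eventually.of_forall fun y => sq_nonneg _)
    hb.mem.integrable_sq (Eventually.of_forall fun y => ?_)).trans hb.le), fun x => ?_⟩
  · simp only [mul_pow]
    exact mul_le_mul_of_nonneg_right (pow_le_pow_left₀ (hwpos y) ((hw1 y).trans (hw2 y)) 2)
      (sq_nonneg _)
  obtain ⟨c, hm, hn⟩ := hb.weight_repel_le he0 he2 hδ.le x
  have hK0 : 0 ≤ (400 / e₁ ^ 2 + 40) * √K / (1 + ‖x‖ ^ 2) := by positivity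
  have hB : ∫ y, (weight e₁ δ y * ((repel x y - c) * χ y)) ^ 2 ≤
      ((400 / e₁ ^ 2 + 40) * √K / (1 + ‖x‖ ^ 2)) ^ 2 := by
    rw [← nrmN_sq_eq]
    exact pow_le_pow_left₀ (nrmN_nonneg _) hn 2
  have hraw : AEStronglyMeasurable (fun y => (repel x y - c) * χ y) :=
    ((measurable_repel x).sub_const _).aestronglyMeasurable.mul hb.inH1.memLp.1
  obtain ⟨m1, n1⟩ := memLp_of_sq_le hraw hm.integrable_sq (Eventually.of_forall fun y => by
    simp only [mul_pow]
    exact le_mul_of_one_le_left (mul_nonneg (sq_nonneg _) (sq_nonneg _))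
      (one_le_pow₀ (hone y))) hK0 hB
  obtain ⟨m2, n2⟩ := memLp_of_sq_le ((hwm ε hε.1).aestronglyMeasurable.mul hraw) hm.integrable_sq
    (Eventually.of_forall fun y => by
      simp only [Pi.mul_apply, mul_pow]
      exact mul_le_mul_of_nonneg_right (pow_le_pow_left₀ (hwpos y) (hw1 y) 2)
        (mul_nonneg (sq_nonneg _) (sq_nonneg _))) hK0 hB
  rw [nrmN_eq_sqrt] at n1 n2
  exact ⟨c, m1, m2, n1, n2⟩

/-- Caccioppoli for the weighted excited part. -/
theorem weightEnergyStmt : WeightEnergyStmt := by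
  intro l g u Dg Du eg eu e' hZ C
  obtain ⟨lam₀, ε₀, κ, Kr, EB, hl, hl1, hε₀, hε1, hκ, hKr, hEB, hd⟩ := energy_consts hZ C
  refine ⟨lam₀, ε₀, 8 * (EB + 48) + 18 + 8 * (2 * Kr * (κ + 1)), hl, hε₀,
    fun lam hlam E3 f D E2 χ Dχ Es χs Ds Et χt Dt hM ε hε δ hδ η hη => ?_⟩
  obtain ⟨hE, hb⟩ := hd lam hlam _ _ _ _ _ _ _ _ _ _ _ _ hM
  obtain ⟨hκW, hq⟩ := hb ε ⟨hε.1.le, hε.2⟩ δ hδ
  have hW : IsMult (weight ε δ) := by rw [weight_eq_wexp]; exact isMult_wexp _ hδ
  have hg : ∀ y, gradMul (weight ε δ) y ≤ 2 * weight ε δ y ^ 2 := fun y => by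
    rw [weight_eq_wexp]
    refine (gradMul_wexp_le _ hδ.le y).trans (mul_le_mul_of_nonneg_right ?_ (sq_nonneg _))
    rw [Fin.sum_univ_two]
    have : ε ^ 2 ≤ 1 := pow_le_one₀ hε.1.le (hε.2.trans hε1)
    linarith
  obtain ⟨hiS, h⟩ := perp_energy hM.three.lowest.inH1 hlam.1.le (hlam.2.le.trans hl1)
    hM.three.lowest.solves hM.ion.lowest.inH1 hM.ion.lowest.solves hM.ion.lowest.mass_one hE hW hg
    hKr hκ hκW hq hη
  have hη1 : ContDiff ℝ 1 η := hη.contDiff 1
  have hPm := inH1_perpF hM.three.lowest.inH1 hM.ion.lowest.inH1 0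
  have hmono : ∫ x, η x ^ 2 * ionKin ε δ χ f D Dχ x ≤ ∫ x, η x ^ 2 * (∑ j, ∑ a, ∫ y,
      (weight ε δ y * perpD 0 χ Dχ f D j a ((0 : Fin 3).insertNth x y)) ^ 2) := by
    refine integral_mono_of_nonneg (Eventually.of_forall fun x => mul_nonneg (sq_nonneg _)
      (Finset.sum_nonneg fun k _ => Finset.sum_nonneg fun a _ =>
        integral_nonneg fun y => sq_nonneg _)) ?_
      (Eventually.of_forall fun x => mul_le_mul_of_nonneg_left ?_ (sq_nonneg _))
    · simp only [Finset.mul_sum]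
      exact integrable_finsetSum _ fun j _ => integrable_finsetSum _ fun a _ =>
        (slot_sq 0 hη1 hη.compact hW (hPm.grad_memLp j a)).2.1
    · rw [Fin.sum_univ_succAbove _ (0 : Fin 3)]
      refine le_add_of_nonneg_of_le (Finset.sum_nonneg fun a _ =>
        integral_nonneg fun y => sq_nonneg _) (le_of_eq ?_)
      refine Finset.sum_congr rfl fun k _ => Finset.sum_congr rfl fun a _ =>
        integral_congr_ae (Eventually.of_forall fun y => ?_)
      simp only [perpD, tenD_other, tenF_ins]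
      rfl
  refine hmono.trans (h.trans_eq ?_)
  simp only [uWeight, uPerp, nrmN_sq_eq, decay2]

/-- Caccioppoli for the excited part, the amplitude and the down slice. -/
theorem perpEnergyStmt : PerpEnergyStmt := by
  intro l g u Dg Du eg eu e' hZ C
  obtain ⟨lam₀, ε₀, κ, Kr, EB, hl, hl1, hε₀, hε1, hκ, hKr, hEB, hd⟩ := energy_consts hZ C
  refine ⟨lam₀, 2 * (8 * (EB + 48) + 18 + 8 * (2 * Kr * (κ + 1)) + 8 * (Kr + 1)), hl,
    fun lam hlam E3 f D E2 χ Dχ Es χs Ds Et χt Dt hM => ?_⟩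
  obtain ⟨hE, hb⟩ := hd lam hlam _ _ _ _ _ _ _ _ _ _ _ _ hM
  obtain ⟨hκW, hq⟩ := hb 0 ⟨le_rfl, hε₀.le⟩ 1 one_pos
  have hw : weight 0 1 = fun _ : Cfg 2 => (1 : ℝ) := by funext y; simp [weight]
  simp only [hw] at hκW hq
  have hf := hM.three.lowest.inH1
  have hχ := hM.ion.lowest.inH1
  have h1 := hM.ion.lowest.mass_one
  refine ⟨fun a => slIp 0 χ (D 0 a), hf.hasWeakGrad_slIp hχ 0,
    fun a => memLp_slIp hχ.memLp (hf.grad_memLp 0 a), fun η hη => ?_⟩
  have hη1 : ContDiff ℝ 1 η := hη.contDiff 1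
  have hη0 : ∀ x, 0 ≤ η x ^ 2 + ∑ a, deriv3 a η x ^ 2 := fun x =>
    add_nonneg (sq_nonneg _) (Finset.sum_nonneg fun a _ => sq_nonneg _)
  set K0 := 8 * (EB + 48) + 18 + 8 * (2 * Kr * (κ + 1)) with hK0
  have hKpos : 0 ≤ 8 * (2 * Kr * (κ + 1)) := by positivity
  refine ⟨?_, ?_, ?_⟩
  · obtain ⟨hiS, h⟩ := perp_energy hf hlam.1.le (hlam.2.le.trans hl1) hM.three.lowest.solves hχ
      hM.ion.lowest.solves h1 hE (isMult_one (n := 2))
      (fun y => by rw [gradMul_const_one]; norm_num) hKr hκ hκW hq hη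
    simp only [one_mul] at hiS h
    have hlhs : (fun x => η x ^ 2 * kinPerp χ f D Dχ (fun a => slIp 0 χ (D 0 a)) x) =
        fun x => η x ^ 2 * (∑ j, ∑ a, ∫ y,
          perpD 0 χ Dχ f D j a ((0 : Fin 3).insertNth x y) ^ 2) := by
      funext x
      congr 1
      rw [kinPerp, ionKin, Fin.sum_univ_succAbove (fun j : Fin 3 => ∑ a, ∫ y,
        perpD 0 χ Dχ f D j a ((0 : Fin 3).insertNth x y) ^ 2) 0]
      have hw0 : ∀ y, weight 0 0 y = 1 := fun y => by simp [weight]
      simp only [hw0, one_mul, perpD, tenD_self, tenD_other, tenF_ins]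
      rfl
    rw [hlhs]
    refine h.trans ?_
    have hR : Integrable fun x => (η x ^ 2 + ∑ a, deriv3 a η x ^ 2) *
        (uPerp χ f x ^ 2 + lam ^ 2 / (1 + ‖x‖ ^ 2) ^ 2 * amp χ f x ^ 2) := by
      refine hiS.mono' (((hη.continuous.pow 2).add (continuous_finsetSum _ fun a _ =>
        (hη.deriv a).continuous.pow 2)).aestronglyMeasurable.mul (?_ : AEStronglyMeasurable _ _))
        (Eventually.of_forall fun x => ?_)
      · refine AEStronglyMeasurable.add ?_ ((continuous_decay2 lam).aestronglyMeasurable.mul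
          (memLp_slIp hχ.memLp hf.memLp).integrable_sq.1)
        refine (integrable_slices 0 (inH1_perpF hf hχ 0).memLp.integrable_sq).2.1.congr
          (Eventually.of_forall fun x => ?_)
        simp only [uPerp, nrmN_sq_eq, perpF_ins_zero]
      · have h2 : 0 ≤ uPerp χ f x ^ 2 + lam ^ 2 / (1 + ‖x‖ ^ 2) ^ 2 * amp χ f x ^ 2 :=
          add_nonneg (sq_nonneg _) (mul_nonneg (by positivity) (sq_nonneg _))
        rw [Real.norm_eq_abs, abs_of_nonneg (mul_nonneg (hη0 x) h2)]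
        refine mul_le_mul_of_nonneg_left ?_ (hη0 x)
        simp only [uPerp, nrmN_sq_eq, decay2]
        have : 0 ≤ ∫ y, perp χ f x y ^ 2 := integral_nonneg fun y => sq_nonneg _
        linarith
    calc K0 * _ ≤ K0 * (2 * ∫ x, (η x ^ 2 + ∑ a, deriv3 a η x ^ 2) *
          (uPerp χ f x ^ 2 + lam ^ 2 / (1 + ‖x‖ ^ 2) ^ 2 * amp χ f x ^ 2)) := by
          refine mul_le_mul_of_nonneg_left ?_ (by simp only [hK0]; linarith)
          rw [← integral_const_mul]
          refine integral_mono hiS (hR.const_mul 2) fun x => ?_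
          simp only [uPerp, nrmN_sq_eq, decay2]
          have h3 : 0 ≤ lam ^ 2 / (1 + ‖x‖ ^ 2) ^ 2 * amp χ f x ^ 2 :=
            mul_nonneg (by positivity) (sq_nonneg _)
          nlinarith [mul_nonneg (hη0 x) h3]
      _ ≤ _ := by
          rw [← mul_assoc]
          refine mul_le_mul_of_nonneg_right (by linarith) (integral_nonneg fun x =>
            mul_nonneg (hη0 x) (add_nonneg (sq_nonneg _) (mul_nonneg (by positivity) (sq_nonneg _))))
  · refine (down_energy hf hlam.1.le hM.three.lowest.solves hE hη).trans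
      (mul_le_mul_of_nonneg_right (by simp only [hK0]; linarith)
        (integral_nonneg fun x => mul_nonneg (hη0 x) (sq_nonneg _)))
  · refine (amp_energy hf hlam.1.le hM.three.lowest.solves hχ hM.ion.lowest.solves h1 hE hKr
      (fun x => ?_) hη).trans ?_
    · obtain ⟨c, h2, -, h3, -⟩ := hq x
      exact ⟨c, h2, h3⟩
    · exact mul_le_mul_of_nonneg_right (by simp only [hK0]; linarith)
        (integral_nonneg fun x => mul_nonneg (hη0 x)
          (add_nonneg (sq_nonneg _) (mul_nonneg (decay2_nonneg lam x) (sq_nonneg _))))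

end Vale.Agent.P363.Inter
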