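import Vale.Agent.P363.Inter.Slice.States

/-!
P363, interacting side: the repulsion of a distant electron on the ion states.
-/

noncomputable section

namespace Vale.Agent.P363.Inter

open MeasureTheory Filter Set
open scoped BigOperators Topology RealInnerProductSpace

variable {ε K : ℝ} {φ : Cfg 2 → ℝ} {Dφ : Fin 2 → Fin 3 → Cfg 2 → ℝ}

theorem nrmN_eq_sqrt {n : ℕ} (F : Cfg n → ℝ) : nrmN F = √(∫ y, F y ^ 2) := by
  simp [nrmN, ipN, sq]

theorem nrmN_nonneg {n : ℕ} (F : Cfg n → ℝ) : 0 ≤ nrmN F := Real.sqrt_nonneg _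

/-- A function with square below an integrable one. -/
theorem memLp_of_sq_le {n : ℕ} {F G : Cfg n → ℝ} {B : ℝ} (hF : AEStronglyMeasurable F)
    (hG : Integrable G) (hle : ∀ᵐ y, F y ^ 2 ≤ G y) (hB : 0 ≤ B) (hI : ∫ y, G y ≤ B ^ 2) :
    MemLp F 2 ∧ nrmN F ≤ B := by
  have hi : Integrable fun y => F y ^ 2 :=
    hG.mono' (hF.pow 2) (hle.mono fun y hy => by
      rwa [Real.norm_eq_abs, abs_of_nonneg (sq_nonneg _)])
  refine ⟨(memLp_two_iff_integrable_sq hF).2 hi, ?_⟩
  rw [nrmN_eq_sqrt, ← Real.sqrt_sq hB]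
  exact Real.sqrt_le_sqrt ((integral_mono_ae hi hG hle).trans hI)

theorem IonBound.const_nonneg (h : IonBound ε K φ Dφ) : 0 ≤ K :=
  (integral_nonneg fun y => sq_nonneg _).trans h.le

/-- Hardy with the weight: an electron at any point against an ion state. -/
theorem IonBound.hardy (h : IonBound ε K φ Dφ) (hε : 0 ≤ ε) (hε1 : ε ≤ 1) (x : Space)
    (k : Fin 2) :
    MemLp (fun y => weight ε 0 y * (φ y / ‖x - y k‖)) 2 ∧
      ∫ y, (weight ε 0 y * (φ y / ‖x - y k‖)) ^ 2 ≤ 96 * K := by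
  rw [weight_eq_wexp]
  set c : Fin 2 → ℝ := fun _ => ε
  have hmem := h.mem
  rw [weight_eq_wexp] at hmem
  have hmK := h.le
  rw [weight_eq_wexp] at hmK
  have step : ∀ j : ℕ,
      MemLp (fun y => wexp c (1 / ((j : ℝ) + 1)) y * (φ y / ‖x - y k‖)) 2 ∧
        ∫ y, (wexp c (1 / ((j : ℝ) + 1)) y * (φ y / ‖x - y k‖)) ^ 2 ≤ 96 * K := by
    intro j
    set δ := 1 / ((j : ℝ) + 1)
    have hδ : 0 < δ := by positivity
    have hw := isMult_wexp c hδ
    obtain ⟨ψ, hψ⟩ := h.inH1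
    have hH := (hψ.mult hw).inH1
    have e : ∀ y : Cfg 2, wexp c δ y * φ y / pole k (fun _ => x) y =
        wexp c δ y * (φ y / ‖x - y k‖) := fun y => by
      rw [pole, norm_sub_rev, mul_div_assoc]
    have hm := hH.memLp_div k (c := fun _ => x) continuous_const
    have hb := (hH.hardy k (c := fun _ => x) continuous_const).2
    simp only [e] at hm hb
    refine ⟨hm, hb.trans ?_⟩
    have hkin : ∀ a, ∫ y, mulGrad (wexp c δ) φ Dφ k a y ^ 2 ≤ 8 * K := by
      intro a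
      have hD := h.grad_mem k a
      have hDK := h.grad_le k a
      rw [weight_eq_wexp] at hD hDK
      have hle : ∀ y, mulGrad (wexp c δ) φ Dφ k a y ^ 2 ≤
          2 * (wexp c 0 y * Dφ k a y) ^ 2 + 6 * (wexp c 0 y * φ y) ^ 2 := by
        intro y
        have hg := gradMul_wexp_le c hδ.le y
        have h5 : slotDeriv k a (wexp c δ) y ^ 2 ≤ gradMul (wexp c δ) y :=
          (Finset.single_le_sum (f := fun a => slotDeriv k a (wexp c δ) y ^ 2)
            (fun a _ => sq_nonneg _) (Finset.mem_univ a)).trans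
          (Finset.single_le_sum (f := fun q => ∑ a, slotDeriv q a (wexp c δ) y ^ 2)
            (fun q _ => Finset.sum_nonneg fun a _ => sq_nonneg _) (Finset.mem_univ k))
        have hc2 : ∑ i, c i ^ 2 ≤ 2 := by
          simp only [c, Finset.sum_const, Finset.card_univ, Fintype.card_fin, nsmul_eq_mul]
          have : ε ^ 2 ≤ 1 := pow_le_one₀ hε hε1
          push_cast; linarith
        have hw0 : wexp c δ y ^ 2 ≤ wexp c 0 y ^ 2 :=
          pow_le_pow_left₀ (wexp_pos _ _ _).le (wexp_le_zero (fun _ => hε) hδ.le y) 2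
        have h6 : slotDeriv k a (wexp c δ) y ^ 2 ≤ 3 * wexp c 0 y ^ 2 := by
          nlinarith [mul_le_mul_of_nonneg_right hc2 (sq_nonneg (wexp c δ y)),
            sq_nonneg (wexp c 0 y)]
        have h7 := mul_le_mul_of_nonneg_right h6 (sq_nonneg (φ y))
        have h8 := mul_le_mul_of_nonneg_right hw0 (sq_nonneg (Dφ k a y))
        rw [mulGrad]
        nlinarith [sq_nonneg (wexp c δ y * Dφ k a y - slotDeriv k a (wexp c δ) y * φ y)]
      have hgm : MemLp (mulGrad (wexp c δ) φ Dφ k a) 2 := hH.grad_memLp k a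
      refine (integral_mono hgm.integrable_sq
        ((hD.integrable_sq.const_mul 2).add (hmem.integrable_sq.const_mul 6)) hle).trans ?_
      rw [integral_add' (hD.integrable_sq.const_mul 2) (hmem.integrable_sq.const_mul 6),
        integral_const_mul, integral_const_mul]
      linarith
    have := Finset.sum_le_sum fun a (_ : a ∈ (Finset.univ : Finset (Fin 3))) => hkin a
    simp only [Finset.sum_const, Finset.card_univ, Fintype.card_fin, nsmul_eq_mul] at this
    rw [slotKin]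
    push_cast at this
    linarith
  exact memLp_wexp_mul (fun j => (step j).1) fun j => (step j).2

theorem norms_le_weight (hε : 0 < ε) (y : Cfg 2) (k : Fin 2) :
    ‖y k‖ ≤ weight ε 0 y / ε ∧ ‖y k‖ ^ 2 ≤ 4 / ε ^ 2 * weight ε 0 y ∧
      Real.exp (ε * ‖y k‖) ≤ weight ε 0 y := by
  have h1 : ε * ‖y k‖ ≤ ∑ i, ε * expo 0 (y i) :=
    (mul_le_mul_of_nonneg_left ((norm_le_smoothNorm _).trans_eq (expo_zero _).symm) hε.le).trans
      (Finset.single_le_sum (f := fun i => ε * expo 0 (y i))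
        (fun i _ => mul_nonneg hε.le (expo_nonneg le_rfl _)) (Finset.mem_univ k))
  have h2 : Real.exp (ε * ‖y k‖) ≤ weight ε 0 y := by
    rw [weight_eq_wexp]; exact Real.exp_le_exp.2 h1
  refine ⟨?_, ?_, h2⟩
  · rw [le_div_iff₀ hε, mul_comm]
    linarith [Real.add_one_le_exp (ε * ‖y k‖)]
  · have h3 : ε * ‖y k‖ / 2 ≤ Real.exp (ε * ‖y k‖ / 2) := by
      linarith [Real.add_one_le_exp (ε * ‖y k‖ / 2)]
    have h4 := pow_le_pow_left₀ (by positivity) h3 2
    have h5 : Real.exp (ε * ‖y k‖ / 2) ^ 2 = Real.exp (ε * ‖y k‖) := by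
      rw [← Real.exp_nat_mul]; congr 1; push_cast; ring
    rw [h5] at h4
    rw [div_mul_eq_mul_div, le_div_iff₀ (by positivity)]
    nlinarith

theorem one_le_weight (hε : 0 ≤ ε) (y : Cfg 2) : 1 ≤ weight ε 0 y := by
  rw [weight_eq_wexp]; exact one_le_wexp (fun _ => hε) le_rfl y

/-- A distant point sees a charge at `w` as `1 / r` up to second order. -/
theorem inv_dist_sub_le (x w : Space) (hx : x ≠ 0) :
    |1 / ‖x - w‖ - 1 / ‖x‖| ≤ ‖w‖ / ‖x‖ ^ 2 + ‖w‖ ^ 2 / (‖x‖ ^ 2 * ‖x - w‖) := by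
  have hr : 0 < ‖x‖ := norm_pos_iff.2 hx
  rcases (norm_nonneg (x - w)).eq_or_lt with h | hd
  · rw [← h, div_zero, mul_zero, div_zero, add_zero, zero_sub, abs_neg,
      abs_of_nonneg (by positivity)]
    rw [(sub_eq_zero.1 (norm_eq_zero.1 h.symm))] at hr ⊢
    rw [div_le_div_iff₀ hr (by positivity)]
    nlinarith
  · have h1 : |‖x‖ - ‖x - w‖| ≤ ‖w‖ := by
      have := abs_norm_sub_norm_le x (x - w)
      rwa [sub_sub_cancel] at this
    have e1 : 1 / ‖x - w‖ - 1 / ‖x‖ = (‖x‖ - ‖x - w‖) / (‖x‖ * ‖x - w‖) := by field_simp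
    have h2 : ‖x‖ ≤ ‖x - w‖ + ‖w‖ := norm_le_norm_sub_add x w
    rw [e1, abs_div, abs_of_pos (mul_pos hr hd), div_le_iff₀ (mul_pos hr hd)]
    refine h1.trans (le_of_mul_le_mul_right ?_ hr)
    have e2 : (‖w‖ / ‖x‖ ^ 2 + ‖w‖ ^ 2 / (‖x‖ ^ 2 * ‖x - w‖)) * (‖x‖ * ‖x - w‖) * ‖x‖ =
        ‖w‖ * ‖x - w‖ + ‖w‖ ^ 2 := by field_simp
    rw [e2]
    nlinarith [mul_le_mul_of_nonneg_left h2 (norm_nonneg w)]

/-- A point and its mirror image see a nearby charge alike. -/
theorem inv_dist_mirror_le (x w : Space) (hx : x ≠ 0) (hw : ‖w‖ ≤ ‖x‖ / 2) :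
    |1 / ‖x - w‖ - 1 / ‖mirror x - w‖| ≤ 16 * |height x| / ‖x‖ ^ 3 * ‖w‖ := by
  have hr : 0 < ‖x‖ := norm_pos_iff.2 hx
  have hm : ‖mirror x‖ = ‖x‖ := by rw [← One.mirrorIso_apply, One.mirrorIso.norm_map]
  have ha : ‖x‖ / 2 ≤ ‖x - w‖ := by linarith [norm_sub_norm_le x w]
  have hb : ‖x‖ / 2 ≤ ‖mirror x - w‖ := by linarith [norm_sub_norm_le (mirror x) w]
  have hsq : ‖mirror x - w‖ ^ 2 - ‖x - w‖ ^ 2 = 4 * height x * w 2 := by
    rw [norm_sub_sq_real, norm_sub_sq_real, hm]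
    simp only [mirror, inner_sub_left, inner_smul_left, height, unit3,
      EuclideanSpace.inner_single_left, map_mul, map_ofNat, RCLike.conj_to_real, map_one]
    ring
  set a := ‖x - w‖
  set b := ‖mirror x - w‖
  have ha0 : 0 < a := (half_pos hr).trans_le ha
  have hb0 : 0 < b := (half_pos hr).trans_le hb
  have e : 1 / a - 1 / b = 4 * height x * w 2 / (a * b * (a + b)) := by
    rw [← hsq]; field_simp; ring
  rw [e, abs_div, abs_of_pos (mul_pos (mul_pos ha0 hb0) (add_pos ha0 hb0)), abs_mul, abs_mul,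
    abs_of_pos (show (0 : ℝ) < 4 by norm_num)]
  have hden : ‖x‖ ^ 3 / 4 ≤ a * b * (a + b) := by
    calc ‖x‖ ^ 3 / 4 = ‖x‖ / 2 * (‖x‖ / 2) * (‖x‖ / 2 + ‖x‖ / 2) := by ring
      _ ≤ _ := by gcongr
  calc 4 * |height x| * |w 2| / (a * b * (a + b)) ≤ 4 * |height x| * ‖w‖ / (‖x‖ ^ 3 / 4) := by
        gcongr
        exact PiLp.norm_apply_le w 2
    _ = _ := by ring

theorem repel_mirror (x : Space) (y : Cfg 2) :
    repel x (fun k => mirror (y k)) = repel (mirror x) y :=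
  Finset.sum_congr rfl fun k _ => by
    rw [← One.norm_mirror_sub (mirror x) (y k), One.mirror_mirror]

theorem measurable_repel (x : Space) : Measurable (repel x) := by
  unfold repel; fun_prop

/-- The three bounds on an ion state. -/
theorem IonBound.repel_le (h : IonBound ε K φ Dφ) (hε : 0 < ε) (hε1 : ε ≤ 1) (x : Space) :
    (MemLp (fun y => repel x y * φ y) 2 ∧ nrmN (fun y => repel x y * φ y) ≤ 20 * √K) ∧
      (1 ≤ ‖x‖ → nrmN (fun y => (repel x y - 2 / ‖x‖) * φ y) ≤ 200 / ε ^ 2 * √K / ‖x‖ ^ 2) := by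
  have hK := h.const_nonneg
  have hφm := h.inH1.memLp.1
  have i0 := h.mem.integrable_sq
  have i1 := fun k => (h.hardy hε.le hε1 x k).1.integrable_sq
  have hH := fun k => (h.hardy hε.le hε1 x k).2
  refine ⟨memLp_of_sq_le ((measurable_repel x).aestronglyMeasurable.mul hφm)
    (((i1 0).add (i1 1)).const_mul 2) (Eventually.of_forall fun y => ?_) (by positivity) ?_,
    fun hx => ?_⟩
  · have h1 := one_le_weight hε.le y
    have h2 : ∀ k, (1 / ‖x - y k‖ * φ y) ^ 2 ≤ (weight ε 0 y * (φ y / ‖x - y k‖)) ^ 2 := fun k => by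
      rw [one_div_mul_eq_div, mul_pow]
      exact le_mul_of_one_le_left (sq_nonneg _) (one_le_pow₀ h1)
    simp only [repel, Fin.sum_univ_two, Pi.add_apply]
    nlinarith [h2 0, h2 1, sq_nonneg (1 / ‖x - y 0‖ * φ y - 1 / ‖x - y 1‖ * φ y)]
  · rw [integral_const_mul, integral_add' (i1 0) (i1 1), mul_pow, Real.sq_sqrt hK]
    linarith [hH 0, hH 1]
  · have hx0 : x ≠ 0 := by intro h0; rw [h0, norm_zero] at hx; linarith
    set c := 4 / ε ^ 2 / ‖x‖ ^ 2 with hc
    have hc0 : 0 ≤ c := by positivity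
    refine (memLp_of_sq_le (B := 200 / ε ^ 2 * √K / ‖x‖ ^ 2)
      ((((measurable_repel x).sub_const _)).aestronglyMeasurable.mul hφm)
      ((((i0.const_mul 4).add (i1 0)).add (i1 1)).const_mul (3 * c ^ 2))
      (Eventually.of_forall fun y => ?_) (by positivity) ?_).2
    · set W := weight ε 0 y
      have hW : 1 ≤ W := one_le_weight hε.le y
      have h2 : ∀ k, |(1 / ‖x - y k‖ - 1 / ‖x‖) * φ y| ≤
          c * |W * φ y| + c * |W * (φ y / ‖x - y k‖)| := by
        intro k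
        obtain ⟨ha, hb, -⟩ := norms_le_weight hε y k
        have ha' : ‖y k‖ ≤ 4 / ε ^ 2 * W := by
          refine ha.trans ?_
          rw [div_eq_mul_inv, mul_comm]
          refine mul_le_mul_of_nonneg_right ?_ (by linarith)
          rw [inv_eq_one_div, div_le_div_iff₀ hε (by positivity)]
          nlinarith
        rw [abs_mul, abs_mul, abs_mul, abs_div, abs_norm, abs_of_pos (by linarith : (0 : ℝ) < W)]
        calc |1 / ‖x - y k‖ - 1 / ‖x‖| * |φ y|
            ≤ (‖y k‖ / ‖x‖ ^ 2 + ‖y k‖ ^ 2 / (‖x‖ ^ 2 * ‖x - y k‖)) * |φ y| :=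
              mul_le_mul_of_nonneg_right (inv_dist_sub_le x (y k) hx0) (abs_nonneg _)
          _ ≤ (4 / ε ^ 2 * W / ‖x‖ ^ 2 + 4 / ε ^ 2 * W / (‖x‖ ^ 2 * ‖x - y k‖)) * |φ y| := by
              gcongr
          _ = _ := by rw [hc]; ring
      have e : (repel x y - 2 / ‖x‖) * φ y = (1 / ‖x - y 0‖ - 1 / ‖x‖) * φ y +
          (1 / ‖x - y 1‖ - 1 / ‖x‖) * φ y := by
        simp only [repel, Fin.sum_univ_two]; ring
      have h3 : |(repel x y - 2 / ‖x‖) * φ y| ≤ c * (2 * |W * φ y|) +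
          c * |W * (φ y / ‖x - y 0‖)| + c * |W * (φ y / ‖x - y 1‖)| := by
        rw [e]; refine (abs_add_le _ _).trans ?_; linarith [h2 0, h2 1]
      have h4 := pow_le_pow_left₀ (abs_nonneg _) h3 2
      rw [sq_abs] at h4
      refine h4.trans ?_
      simp only [Pi.add_apply]
      rw [← sq_abs (W * φ y), ← sq_abs (W * (φ y / ‖x - y 0‖)), ← sq_abs (W * (φ y / ‖x - y 1‖))]
      generalize |W * φ y| = p
      generalize |W * (φ y / ‖x - y 0‖)| = q
      generalize |W * (φ y / ‖x - y 1‖)| = s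
      nlinarith [mul_nonneg (sq_nonneg c) (sq_nonneg (2 * p - q)),
        mul_nonneg (sq_nonneg c) (sq_nonneg (2 * p - s)),
        mul_nonneg (sq_nonneg c) (sq_nonneg (q - s))]
    · rw [integral_const_mul, integral_add' ((i0.const_mul 4).add (i1 0)) (i1 1),
        integral_add' (i0.const_mul 4) (i1 0), integral_const_mul]
      have e1 : (200 / ε ^ 2 * √K / ‖x‖ ^ 2) ^ 2 = c ^ 2 * (2500 * K) := by
        rw [hc, mul_div_assoc, mul_pow, div_pow √K, Real.sq_sqrt hK]; ring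
      rw [e1]
      nlinarith [mul_le_mul_of_nonneg_left
        (show 4 * (∫ y, (weight ε 0 y * φ y) ^ 2) +
          (∫ y, (weight ε 0 y * (φ y / ‖x - y 0‖)) ^ 2) +
          (∫ y, (weight ε 0 y * (φ y / ‖x - y 1‖)) ^ 2) ≤ 196 * K by
            linarith [h.le, hH 0, hH 1]) (sq_nonneg c), mul_nonneg (sq_nonneg c) hK]

/-- The part of the repulsion odd under the mirror. -/
theorem IonBound.repel_odd (h : IonBound ε K φ Dφ) (hε : 0 < ε) (hε1 : ε ≤ 1)
    (heven : ∀ᵐ y, φ (fun k => mirror (y k)) = φ y) (x : Space) (hx : 1 ≤ ‖x‖) :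
    nrmN (parPart (-1) fun y => repel x y * φ y) ≤ 400 / ε * √K *
      (|height x| / ‖x‖ ^ 3 + Real.exp (-(ε / 2 * ‖x‖))) := by
  have hK := h.const_nonneg
  have hx0 : x ≠ 0 := by intro h0; rw [h0, norm_zero] at hx; linarith
  have hφm := h.inH1.memLp.1
  have i0 := h.mem.integrable_sq
  have i1 := fun p k => (h.hardy hε.le hε1 p k).1.integrable_sq
  set T := fun k y => (weight ε 0 y * φ y) ^ 2 + (weight ε 0 y * (φ y / ‖x - y k‖)) ^ 2 +
    (weight ε 0 y * (φ y / ‖mirror x - y k‖)) ^ 2 with hT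
  set s := 16 / ε * (|height x| / ‖x‖ ^ 3) + Real.exp (-(ε / 2 * ‖x‖)) with hs
  have hs0 : 0 ≤ s := by positivity
  have hTi : ∀ k, Integrable (T k) := fun k => (i0.add (i1 x k)).add (i1 _ k)
  have e : ∀ᵐ y, parPart (-1) (fun y => repel x y * φ y) y =
      (repel x y - repel (mirror x) y) * φ y / 2 := by
    filter_upwards [heven] with y hy
    rw [parPart, repel_mirror, hy]; ring
  have hm : AEStronglyMeasurable fun y : Cfg 2 =>
      (repel x y - repel (mirror x) y) * φ y / 2 :=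
    ((((measurable_repel x).sub (measurable_repel (mirror x))).aestronglyMeasurable.mul
      hφm).aemeasurable.div_const 2).aestronglyMeasurable
  have h2 : ∀ k y, ((1 / ‖x - y k‖ - 1 / ‖mirror x - y k‖) * φ y) ^ 2 ≤ 2 * s ^ 2 * T k y := by
    intro k y
    obtain ⟨ha, -, hc⟩ := norms_le_weight hε y k
    set W := weight ε 0 y
    have hW : 1 ≤ W := one_le_weight hε.le y
    have hT0 : T k y = (W * φ y) ^ 2 + (W * (φ y / ‖x - y k‖)) ^ 2 +
      (W * (φ y / ‖mirror x - y k‖)) ^ 2 := rfl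
    rcases le_or_gt ‖y k‖ (‖x‖ / 2) with hw | hw
    · have h3 : |(1 / ‖x - y k‖ - 1 / ‖mirror x - y k‖) * φ y| ≤ s * |W * φ y| := by
        rw [abs_mul, abs_mul, abs_of_pos (by linarith : (0 : ℝ) < W)]
        calc _ ≤ 16 * |height x| / ‖x‖ ^ 3 * (W / ε) * |φ y| := by
              refine mul_le_mul_of_nonneg_right ((inv_dist_mirror_le x _ hx0 hw).trans ?_)
                (abs_nonneg _)
              gcongr
          _ = 16 / ε * (|height x| / ‖x‖ ^ 3) * (W * |φ y|) := by ring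
          _ ≤ _ := mul_le_mul_of_nonneg_right (le_add_of_nonneg_right (Real.exp_pos _).le)
              (by positivity)
      have h4 := pow_le_pow_left₀ (abs_nonneg _) h3 2
      rw [sq_abs, mul_pow s, sq_abs] at h4
      rw [hT0]
      nlinarith [mul_nonneg (sq_nonneg s) (sq_nonneg (W * (φ y / ‖x - y k‖))),
        mul_nonneg (sq_nonneg s) (sq_nonneg (W * (φ y / ‖mirror x - y k‖))),
        mul_nonneg (sq_nonneg s) (sq_nonneg (W * φ y))]
    · have h5 : 1 ≤ s * W := by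
        calc (1 : ℝ) = Real.exp (-(ε / 2 * ‖x‖)) * Real.exp (ε * (‖x‖ / 2)) := by
              rw [← Real.exp_add]; simp [show -(ε / 2 * ‖x‖) + ε * (‖x‖ / 2) = 0 by ring]
          _ ≤ s * W := mul_le_mul (le_add_of_nonneg_left (by positivity))
              ((Real.exp_le_exp.2 (mul_le_mul_of_nonneg_left hw.le hε.le)).trans hc)
              (Real.exp_pos _).le hs0
      have h6 : ∀ t : ℝ, t ^ 2 ≤ s ^ 2 * (W * t) ^ 2 := fun t => by
        rw [← mul_pow, ← mul_assoc, mul_pow (s * W)]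
        exact le_mul_of_one_le_left (sq_nonneg _) (one_le_pow₀ h5)
      have ha' := h6 (φ y / ‖x - y k‖)
      have hb' := h6 (φ y / ‖mirror x - y k‖)
      rw [sub_mul, one_div_mul_eq_div, one_div_mul_eq_div, hT0]
      nlinarith [sq_nonneg (φ y / ‖x - y k‖ + φ y / ‖mirror x - y k‖),
        mul_nonneg (sq_nonneg s) (sq_nonneg (W * φ y))]
  have hle : ∀ᵐ y, parPart (-1) (fun y => repel x y * φ y) y ^ 2 ≤
      s ^ 2 * T 0 y + s ^ 2 * T 1 y := by
    filter_upwards [e] with y hy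
    rw [hy]
    have := h2 0 y
    have := h2 1 y
    have e2 : (repel x y - repel (mirror x) y) * φ y / 2 =
        ((1 / ‖x - y 0‖ - 1 / ‖mirror x - y 0‖) * φ y +
          (1 / ‖x - y 1‖ - 1 / ‖mirror x - y 1‖) * φ y) / 2 := by
      simp only [repel, Fin.sum_univ_two]; ring
    rw [e2]
    nlinarith [sq_nonneg ((1 / ‖x - y 0‖ - 1 / ‖mirror x - y 0‖) * φ y -
          (1 / ‖x - y 1‖ - 1 / ‖mirror x - y 1‖) * φ y)]
  refine (memLp_of_sq_le (hm.congr (e.mono fun y hy => hy.symm))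
    (((hTi 0).const_mul (s ^ 2)).add ((hTi 1).const_mul (s ^ 2))) hle (by positivity) ?_).2
  rw [integral_add' ((hTi 0).const_mul _) ((hTi 1).const_mul _), integral_const_mul,
    integral_const_mul]
  have hT2 : ∀ k, ∫ y, T k y ≤ 193 * K := fun k => by
    simp only [hT]
    rw [integral_add (i0.fun_add (i1 x k)) (i1 _ k), integral_add i0 (i1 x k)]
    linarith [h.le, (h.hardy hε.le hε1 x k).2, (h.hardy hε.le hε1 (mirror x) k).2]
  have hs2 : s ≤ 16 / ε * (|height x| / ‖x‖ ^ 3 + Real.exp (-(ε / 2 * ‖x‖))) := by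
    rw [hs, mul_add]
    refine add_le_add le_rfl (le_mul_of_one_le_left (Real.exp_pos _).le ?_)
    rw [le_div_iff₀ hε]; linarith
  calc s ^ 2 * (∫ y, T 0 y) + s ^ 2 * (∫ y, T 1 y)
      ≤ (16 / ε * (|height x| / ‖x‖ ^ 3 + Real.exp (-(ε / 2 * ‖x‖)))) ^ 2 * (625 * K) := by
        have hs3 := pow_le_pow_left₀ hs0 hs2 2
        nlinarith [mul_le_mul_of_nonneg_left (hT2 0) (sq_nonneg s),
          mul_le_mul_of_nonneg_left (hT2 1) (sq_nonneg s), mul_le_mul_of_nonneg_right hs3 hK]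
    _ = _ := by
        rw [show (400 / ε * √K * (|height x| / ‖x‖ ^ 3 + Real.exp (-(ε / 2 * ‖x‖)))) ^ 2 =
          (16 / ε * (|height x| / ‖x‖ ^ 3 + Real.exp (-(ε / 2 * ‖x‖)))) ^ 2 * (625 * K) by
            rw [mul_pow, mul_pow, Real.sq_sqrt hK]; ring]

/-- The statement `RepelStmt`. -/
theorem repelStmt : RepelStmt := by
  intro l g u Dg Du eg eu e' hZ C
  obtain ⟨lam₀, ε₀, K, hl, -, hε₀, hd⟩ := mol_decay hZ C
  set ε := min ε₀ 1 with hεdef
  have hε : 0 < ε := lt_min hε₀ one_pos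
  have hε1 : ε ≤ 1 := min_le_right _ _
  set K' := max (√K) (max (20 * √K) (max (200 / ε ^ 2 * √K) (400 / ε * √K)))
  refine ⟨lam₀, ε / 2, K', hl, half_pos hε,
    fun lam hlam E3 f D E2 χ Dχ Es χs Ds Et χt Dt hM => ?_⟩
  obtain ⟨-, h1, h2, h3⟩ := hd lam hlam _ _ _ _ _ _ _ _ _ _ _ _ hM ε ⟨hε, min_le_left _ _⟩
  have hlist : ∀ φ ∈ [χ, χs, χt], ∃ Dφ, IonBound ε K φ Dφ := fun φ hφ => by
    rcases List.mem_cons.1 hφ with rfl | hφ
    · exact ⟨_, h1⟩
    rcases List.mem_cons.1 hφ with rfl | hφ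
    · exact ⟨_, h2⟩
    · rw [List.mem_singleton] at hφ; exact hφ ▸ ⟨_, h3⟩
  refine ⟨fun φ hφ δ hδ => ?_, fun x => ⟨fun φ hφ => ?_, fun hx => ?_⟩⟩
  · obtain ⟨Dφ, hb⟩ := hlist φ hφ
    have hwm : Continuous (weight (ε / 2) δ) := by
      rw [weight_eq_wexp]; exact (contDiff_wexp _ hδ).continuous
    have hle : ∀ y, weight (ε / 2) δ y ≤ weight ε 0 y := fun y => by
      simp only [weight_eq_wexp]
      exact (wexp_le_zero (fun _ => (half_pos hε).le) hδ y).trans
        (wexp_mono (fun _ => by linarith) le_rfl y)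
    obtain ⟨hm, hn⟩ := memLp_of_sq_le (F := fun y => weight (ε / 2) δ y * φ y) (B := √K)
      (hwm.aestronglyMeasurable.mul hb.inH1.memLp.1) hb.mem.integrable_sq
      (Eventually.of_forall fun y => by
        rw [mul_pow, mul_pow]
        exact mul_le_mul_of_nonneg_right
          (pow_le_pow_left₀ (Real.exp_pos _).le (hle y) 2) (sq_nonneg _))
      (Real.sqrt_nonneg _) (by rw [Real.sq_sqrt hb.const_nonneg]; exact hb.le)
    exact ⟨hm, hn.trans (le_max_left _ _)⟩
  · obtain ⟨Dφ, hb⟩ := hlist φ hφ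
    obtain ⟨⟨hm, hn⟩, hf⟩ := hb.repel_le hε hε1 x
    refine ⟨hm, hn.trans ((le_max_left _ _).trans (le_max_right _ _)), fun hx => (hf hx).trans ?_⟩
    exact div_le_div_of_nonneg_right
      ((le_max_left _ _).trans ((le_max_right _ _).trans (le_max_right _ _))) (sq_nonneg _)
  · refine (h1.repel_odd hε hε1 ?_ x hx).trans (mul_le_mul_of_nonneg_right
      ((le_max_right _ _).trans ((le_max_right _ _).trans (le_max_right _ _)))
        (by positivity))
    simpa using hM.ion.parity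

end Vale.Agent.P363.Inter
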