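import Vale.Agent.P363.Inter.Slice.KatoSub
import Vale.Agent.P363.Inter.Slice.Proj
import Vale.Agent.P363.Inter.Slice.Repel
import Vale.Agent.P363.Inter.Ion.Far

/-!
P363, interacting side: the differential inequalities for the norms of the whole slices.
-/

noncomputable section

namespace Vale.Agent.P363.Inter

open MeasureTheory Filter Set
open scoped BigOperators Topology

variable {i : Fin 3} {l lam E : ℝ} {f : Cfg 3 → ℝ} {D : Fin 3 → Fin 3 → Cfg 3 → ℝ}
  {φ : ℕ → Cfg 3 → ℝ} {U : Set Space} {a : Space → ℝ}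

/-- A lower bound of the form on the slices gives the inequality for their norm. -/
theorem norm_subsol (hφ : Approx φ f D) (hs : Solves l lam E f D fun _ => 0) (hU : IsOpen U)
    (ha : ContinuousOn a U)
    (hlow : ∀ k, ∀ x ∈ U, a x * ipN (fun y : Cfg 2 => φ k (i.insertNth x y))
        (fun y => φ k (i.insertNth x y)) ≤
      formQ l lam (fun y => φ k (i.insertNth x y)) +
        lam * ∫ y, repel x y * φ k (i.insertNth x y) ^ 2) :
    WeakSubPoisson U (fun x => nrmN (slice i f x)) fun x =>
      2 * ((a x - attract l x - E) * nrmN (slice i f x)) := by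
  have d : SliceData i l lam E f D (fun _ => 0) φ (fun _ => 1) (fun _ => 0) 0 0 U a fun _ => 0 :=
    { open_U := hU
      approx := hφ
      solves := hs
      R_mem := MemLp.zero'
      mult := ⟨contDiff_const, 1, fun z => by simp, fun i a z => by simp [slotDeriv]⟩
      grad_le := fun y => by simp [gradMul, slotDeriv]
      χ_mem := MemLp.zero'
      χ_norm := by simp
      b_nonneg := le_rfl
      a_cont := ha
      S_mem := LocMemLp.of_memLp MemLp.zero'
      S_nonneg := fun _ => le_rfl
      lower := fun k x hx => by simpa [ipN, sq] using hlow k x hx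
      pair := Eventually.of_forall fun x _ => by simp }
  have h := d.subsol
  have e : slNorm i (fun z => wL i (fun _ : Cfg 2 => (1 : ℝ)) z * f z) =
      fun x => nrmN (slice i f x) := by
    funext x
    simp [slNorm, wL, nrmN_eq_sqrt, slice]
  rw [e] at h
  simpa using h

theorem insertNth_two_swap (x : Space) (y : Cfg 2) :
    ((2 : Fin 3).insertNth x (y ∘ Equiv.swap (0 : Fin 2) 1) : Cfg 3) =
      ((2 : Fin 3).insertNth x y : Cfg 3) ∘ Equiv.swap (0 : Fin 3) 1 := by
  funext j
  have h2 : (Equiv.swap (0 : Fin 3) 1) 2 = 2 := by decide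
  have h0 : (2 : Fin 3).succAbove 0 = 0 := by decide
  have h1 : (2 : Fin 3).succAbove 1 = 1 := by decide
  have a0 : ∀ w : Cfg 2, ((2 : Fin 3).insertNth x w : Cfg 3) 0 = w 0 := fun w => by
    rw [← h0, Fin.insertNth_apply_succAbove]
  have a1 : ∀ w : Cfg 2, ((2 : Fin 3).insertNth x w : Cfg 3) 1 = w 1 := fun w => by
    rw [← h1, Fin.insertNth_apply_succAbove]
  fin_cases j <;>
    simp [Function.comp, a0, a1, h2, Equiv.swap_apply_left, Equiv.swap_apply_right]

/-- The whole up slice and the down slice. -/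
theorem normStmt_of (hF : IonFarStmt) : NormStmt := by
  intro l g u Dg Du eg eu e' hz C
  obtain ⟨lam₀, K, hlam₀, hfar⟩ := hF l g u Dg Du eg eu e' hz C
  refine ⟨lam₀, K, hlam₀, fun lam hlam E3 f D E2 χ Dχ Es χs Ds Et χt Dt hM => ?_⟩
  have hs := hM.three.lowest.solves
  obtain ⟨φ, hφ⟩ := hM.three.lowest.inH1
  obtain ⟨ψ, hψ, hsym⟩ := InH1.exists_sym ⟨φ, hφ⟩
    (T := permL (Equiv.swap (0 : Fin 3) 1)) (fun _ h => h.comp_permL _)
    (fun x => by
      funext j
      simp [permL_apply, Function.comp, Equiv.swap_apply_self])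
    (σ := -1) (by norm_num) (by simpa [permL_apply] using hM.three.anti)
  have hanti : ∀ k x, Anti01 fun y : Cfg 2 => ψ k ((2 : Fin 3).insertNth x y) := fun k x y => by
    show ψ k ((2 : Fin 3).insertNth x (y ∘ Equiv.swap (0 : Fin 2) 1)) =
      -ψ k ((2 : Fin 3).insertNth x y)
    rw [insertNth_two_swap]
    have := hsym k ((2 : Fin 3).insertNth x y)
    rw [permL_apply] at this
    linarith
  have hrep : ∀ {η : Cfg 2 → ℝ} (x : Space), 0 ≤ lam * ∫ y, repel x y * η y ^ 2 := fun {η} x =>
    mul_nonneg hlam.1.le (integral_nonneg fun y => mul_nonneg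
      (Finset.sum_nonneg fun k _ => by positivity) (sq_nonneg _))
  have hsq : ∀ η : Cfg 2 → ℝ, ∫ y, η y ^ 2 = ipN η η := fun η => by simp [ipN, sq]
  have hU : IsOpen {x : Space | 1 < ‖x‖} := isOpen_lt continuous_const continuous_norm
  have hne : ∀ x ∈ {x : Space | 1 < ‖x‖}, ‖x‖ ≠ 0 := fun x hx =>
    (one_pos.trans (show 1 < ‖x‖ from hx)).ne'
  have hac : ∀ c : ℝ,
      ContinuousOn (fun x : Space => c + 2 * lam / ‖x‖ - K * lam / ‖x‖ ^ 2) {x | 1 < ‖x‖} :=
    fun c => ((continuousOn_const.add (continuousOn_const.div continuous_norm.continuousOn hne)).sub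
      (continuousOn_const.div (continuous_norm.pow 2).continuousOn
        fun x hx => pow_ne_zero 2 (hne x hx)))
  refine ⟨?_, ?_, ?_, ?_⟩
  · have h := norm_subsol (i := 0) hφ hs isOpen_univ (continuousOn_const (c := E2)) fun k x _ => by
      refine le_add_of_le_of_nonneg ?_ (hrep x)
      rw [← hsq]
      exact hM.ion.lowest.lower _ ((hφ.c1 k).sliceY 0 x).realTest trivial
    convert h using 2 with x
    · rfl
    · simp only [uTot]; ring
  · have h := norm_subsol (i := 2) hψ hs isOpen_univ (continuousOn_const (c := Et)) fun k x _ => by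
      refine le_add_of_le_of_nonneg ?_ (hrep x)
      rw [← hsq]
      exact hM.triplet.lowest.lower _ ((hψ.c1 k).sliceY 2 x).realTest (hanti k x)
    convert h using 2 with x
    · rfl
    · simp only [uDown]; ring
  · have h := norm_subsol (i := 0) hφ hs hU (hac E2) fun k x hx =>
      (hfar lam hlam E3 f D E2 χ Dχ Es χs Ds Et χt Dt hM x (show 1 < ‖x‖ from hx).le _
        ((hφ.c1 k).sliceY 0 x).realTest).1
    convert h using 2 with x
    · rfl
    · simp only [uTot]; ring
  · have h := norm_subsol (i := 2) hψ hs hU (hac Et) fun k x hx =>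
      (hfar lam hlam E3 f D E2 χ Dχ Es χs Ds Et χt Dt hM x (show 1 < ‖x‖ from hx).le _
        ((hψ.c1 k).sliceY 2 x).realTest).2 (hanti k x)
    convert h using 2 with x
    · rfl
    · simp only [uDown]; ring

/-- The norms of the slices are weak subsolutions, uniformly at weak coupling. -/
theorem normStmt : NormStmt := normStmt_of (ionFar repelStmt)

end Vale.Agent.P363.Inter
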