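import Vale.Agent.P363.Inter.Slice.KatoSub

/-!
P363, interacting side: the excess of the norm of the slices over a barrier which is positive on
the plane, extended by zero below the plane, when the approximants vanish on the plane.
-/

noncomputable section

namespace Vale.Agent.P363.Inter

open MeasureTheory Filter Set
open scoped BigOperators Topology

/-- A smooth step of width `τ`. -/
def ramp (τ s : ℝ) : ℝ := Real.smoothTransition (s / τ)

/-- The primitive of the step. -/
def rampInt (τ s : ℝ) : ℝ := ∫ t in (0 : ℝ)..s, ramp τ t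

theorem contDiff_ramp (τ : ℝ) : ContDiff ℝ 1 (ramp τ) :=
  Real.smoothTransition.contDiff.comp (contDiff_id.div_const τ)

theorem ramp_mem (τ s : ℝ) : 0 ≤ ramp τ s ∧ ramp τ s ≤ 1 :=
  ⟨Real.smoothTransition.nonneg _, Real.smoothTransition.le_one _⟩

theorem ramp_zero {τ s : ℝ} (hτ : 0 ≤ τ) (hs : s ≤ 0) : ramp τ s = 0 :=
  Real.smoothTransition.zero_of_nonpos (div_nonpos_of_nonpos_of_nonneg hs hτ)

theorem deriv_ramp_nonneg {τ : ℝ} (hτ : 0 ≤ τ) (s : ℝ) : 0 ≤ deriv (ramp τ) s :=
  Monotone.deriv_nonneg (fun _ _ h => Real.smoothTransition.monotone (by gcongr)) (x := s)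

theorem exists_ramp_lipschitz {τ : ℝ} (hτ : 0 < τ) :
    ∃ L : ℝ, 0 ≤ L ∧ (∀ s, |deriv (ramp τ) s| ≤ L) ∧ ∀ s t, |ramp τ s - ramp τ t| ≤ L * |s - t| := by
  have hc : Continuous (deriv (ramp τ)) := (contDiff_ramp τ).continuous_deriv le_rfl
  have h0 : ∀ s ∉ Icc (0 : ℝ) τ, deriv (ramp τ) s = 0 := fun s hs => by
    rcases lt_or_ge s 0 with h | h
    · have : ramp τ =ᶠ[𝓝 s] fun _ => 0 := by
        filter_upwards [eventually_lt_nhds h] with t ht using ramp_zero hτ.le ht.le
      rw [this.deriv_eq, deriv_const]
    · have h' : τ < s := lt_of_not_ge fun h' => hs ⟨h, h'⟩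
      have : ramp τ =ᶠ[𝓝 s] fun _ => 1 := by
        filter_upwards [eventually_gt_nhds h'] with t ht
        exact Real.smoothTransition.one_of_one_le ((one_le_div hτ).2 ht.le)
      rw [this.deriv_eq, deriv_const]
  obtain ⟨L, hL⟩ := (HasCompactSupport.intro isCompact_Icc h0).exists_bound_of_continuous hc
  refine ⟨L, (norm_nonneg _).trans (hL 0), fun s => hL s, fun s t => ?_⟩
  exact Convex.norm_image_sub_le_of_norm_deriv_le
    (fun x _ => (contDiff_ramp τ).differentiable one_ne_zero x) (fun x _ => hL x) convex_univ
    (mem_univ t) (mem_univ s)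

theorem hasDerivAt_rampInt (τ s : ℝ) : HasDerivAt (rampInt τ) (ramp τ s) s :=
  ((contDiff_ramp τ).continuous.integral_hasStrictDerivAt 0 s).hasDerivAt

theorem contDiff_rampInt (τ : ℝ) : ContDiff ℝ 1 (rampInt τ) := by
  rw [contDiff_one_iff_deriv]
  refine ⟨fun s => (hasDerivAt_rampInt τ s).differentiableAt, ?_⟩
  rw [funext fun s => (hasDerivAt_rampInt τ s).deriv]
  exact (contDiff_ramp τ).continuous

theorem rampInt_zero {τ s : ℝ} (hτ : 0 ≤ τ) (hs : s ≤ 0) : rampInt τ s = 0 := by
  rw [rampInt, intervalIntegral.integral_congr (g := fun _ => (0 : ℝ)) fun t ht => ?_]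
  · simp
  · rw [uIcc_of_ge hs] at ht
    exact ramp_zero hτ ht.2

theorem abs_rampInt_sub_le (τ s t : ℝ) : |rampInt τ s - rampInt τ t| ≤ |s - t| := by
  have := Convex.norm_image_sub_le_of_norm_deriv_le (C := 1)
    (fun x _ => (hasDerivAt_rampInt τ x).differentiableAt) (fun x _ => by
      rw [(hasDerivAt_rampInt τ x).deriv, Real.norm_eq_abs, abs_of_nonneg (ramp_mem τ x).1]
      exact (ramp_mem τ x).2) convex_univ (mem_univ t) (mem_univ s)
  simpa using this

theorem abs_rampInt_le {τ : ℝ} (s : ℝ) : |rampInt τ s| ≤ |s| := by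
  simpa [rampInt] using abs_rampInt_sub_le τ s 0

theorem abs_rampInt_max_le {τ : ℝ} (hτ : 0 < τ) (s : ℝ) : |rampInt τ s - max s 0| ≤ τ := by
  set g := fun t => t - rampInt τ t
  have hd : ∀ t, HasDerivAt g (1 - ramp τ t) t := fun t =>
    (hasDerivAt_id t).sub (hasDerivAt_rampInt τ t)
  have hgd : Differentiable ℝ g := fun t => (hd t).differentiableAt
  have hm : Monotone g := monotone_of_deriv_nonneg hgd fun t => by
    rw [(hd t).deriv]; linarith [(ramp_mem τ t).2]
  rcases le_or_gt s 0 with hs | hs
  · rw [rampInt_zero hτ.le hs, max_eq_right hs, sub_zero, abs_zero]; exact hτ.le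
  rw [max_eq_left hs.le, abs_sub_comm]
  have g0 : g 0 = 0 := by simp [g, rampInt]
  have l0 : 0 ≤ g s := g0 ▸ hm hs.le
  have hτg : g τ ≤ τ := by
    have hmr : Monotone (rampInt τ) := monotone_of_deriv_nonneg
      (fun t => (hasDerivAt_rampInt τ t).differentiableAt) fun t => by
        rw [(hasDerivAt_rampInt τ t).deriv]; exact (ramp_mem τ t).1
    have := hmr hτ.le
    rw [rampInt_zero hτ.le le_rfl] at this
    simp only [g]; linarith
  rw [abs_of_nonneg l0]
  rcases le_or_gt s τ with h | h
  · exact (hm h).trans hτg
  · refine le_trans (le_of_eq ?_) hτg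
    refine Eq.symm ?_
    refine constant_of_has_deriv_right_zero hgd.continuous.continuousOn (fun x hx => ?_) s
      (right_mem_Icc.2 h.le) |>.symm
    have h1 : ramp τ x = 1 := Real.smoothTransition.one_of_one_le ((one_le_div hτ).2 hx.1)
    simpa [h1] using (hd x).hasDerivWithinAt (s := Ici x)

/-- A function of `f` which vanishes for negative arguments, cut off below the plane. -/
theorem contDiffOn_glue {U : Set Space} (hU : IsOpen U) {f : Space → ℝ}
    (hf : ContDiffOn ℝ 1 f U) (hneg : ∀ x ∈ U, height x = 0 → f x < 0) {F : ℝ → ℝ}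
    (hF : ContDiff ℝ 1 F) (h0 : ∀ s ≤ 0, F s = 0) :
    let g := fun x => if 0 < height x then F (f x) else 0
    ContDiffOn ℝ 1 g U ∧
      ∀ x ∈ U, ∀ q, deriv3 q g x = if 0 < height x then deriv F (f x) * deriv3 q f x else 0 := by
  intro g
  have hh : Continuous height := by unfold height; fun_prop
  have key : ∀ x ∈ U, (0 < height x ∧ g =ᶠ[𝓝 x] fun y => F (f y)) ∨
      (¬0 < height x ∧ g =ᶠ[𝓝 x] fun _ => 0) := by
    intro x hx
    rcases lt_trichotomy (height x) 0 with h | h | h
    · refine Or.inr ⟨h.not_gt, ?_⟩
      filter_upwards [hh.continuousAt.eventually (eventually_lt_nhds h)] with y hy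
      simp [g, hy.not_gt]
    · refine Or.inr ⟨by simp [h], ?_⟩
      filter_upwards [(hf.continuousOn.continuousAt (hU.mem_nhds hx)).eventually
        (eventually_lt_nhds (hneg x hx h))] with y hy
      simp [g, h0 _ hy.le]
    · refine Or.inl ⟨h, ?_⟩
      filter_upwards [hh.continuousAt.eventually (eventually_gt_nhds h)] with y hy
      simp [g, hy]
  have hd : ∀ x ∈ U, DifferentiableAt ℝ f x := fun x hx =>
    (hf.contDiffAt (hU.mem_nhds hx)).differentiableAt one_ne_zero
  refine ⟨fun x hx => ?_, fun x hx q => ?_⟩
  · refine ContDiffAt.contDiffWithinAt ?_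
    rcases key x hx with ⟨-, h⟩ | ⟨-, h⟩
    · exact (hF.contDiffAt.comp x (hf.contDiffAt (hU.mem_nhds hx))).congr_of_eventuallyEq h
    · exact contDiffAt_const.congr_of_eventuallyEq h
  · rcases key x hx with ⟨hp, h⟩ | ⟨hp, h⟩
    · rw [deriv3, h.fderiv_eq, if_pos hp]
      have hc : HasFDerivAt (fun y => F (f y)) (deriv F (f x) • fderiv ℝ f x) x :=
        ((hF.differentiable one_ne_zero (f x)).hasDerivAt).comp_hasFDerivAt x (hd x hx).hasFDerivAt
      rw [hc.fderiv]
      simp [deriv3]
    · rw [deriv3, h.fderiv_eq, if_neg hp]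
      simp

/-- One for positive numbers, zero for the others. -/
def posInd (s : ℝ) : ℝ := if 0 < s then 1 else 0

theorem measurable_posInd : Measurable posInd :=
  Measurable.ite measurableSet_Ioi measurable_const measurable_const

theorem abs_posInd_le (s : ℝ) : |posInd s| ≤ 1 := by
  unfold posInd; split_ifs <;> simp

/-- Test functions with derivatives of the first order only. -/
theorem _root_.Vale.Agent.P363.IsBump.integral_deriv_mul {U : Set Space} {η : Space → ℝ} (hη : IsBump U η) (hU : IsOpen U)
    {g h : Space → ℝ} (hg : ContDiffOn ℝ 1 g U) (hh : ContDiffOn ℝ 1 h U) (q : Fin 3) :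
    ∫ x, deriv3 q (fun y => g y * η y) x * h x = -∫ x, g x * η x * deriv3 q h x := by
  set c := fun y => g y * η y
  have hc : ContDiff ℝ 1 c := hη.contDiff_mul (by simp) hU hg
  have hcs : HasCompactSupport c := hη.compact.mul_left
  have hcU : tsupport c ⊆ U := tsupport_mul_subset_right.trans hη.supp
  have hp : ContDiff ℝ 1 fun y => h y * g y * η y := hη.contDiff_mul (by simp) hU (hh.mul hg)
  have i := integral_deriv3 hp hη.compact.mul_left q
  have e : ∀ x, deriv3 q (fun y => h y * g y * η y) x =
      deriv3 q c x * h x + g x * η x * deriv3 q h x := fun x => by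
    by_cases hx : x ∈ U
    · rw [show (fun y => h y * g y * η y) = fun y => h y * c y from funext fun y => mul_assoc _ _ _,
        deriv3_mul ((hh.contDiffAt (hU.mem_nhds hx)).differentiableAt one_ne_zero)
          (hc.differentiable one_ne_zero x) q]
      ring
    · rw [deriv3_eq_zero_of_notMem q fun h' => hx (hη.supp (tsupport_mul_subset_right h')),
        deriv3_eq_zero_of_notMem q (η := c) fun h' => hx (hcU h'), hη.eq_zero hx]
      ring
  simp only [e] at i
  have i1 : Integrable fun x => deriv3 q c x * h x := by
    have hs : tsupport (deriv3 q c) ⊆ tsupport c := closure_minimal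
      (fun x hx => by_contra fun h' => hx (deriv3_eq_zero_of_notMem q h')) (isClosed_tsupport _)
    refine (integrable_mul_of_tsupport (hh.continuousOn.locallyIntegrableOn hU.measurableSet)
      (continuous_deriv3 hc q) ?_ (hs.trans hcU)).congr (Eventually.of_forall fun x => mul_comm _ _)
    exact hcs.fderiv_apply ℝ (unit3 q)
  have i2 : Integrable fun x => g x * η x * deriv3 q h x :=
    (integrable_mul_of_tsupport ((continuousOn_deriv3 hU hh q).locallyIntegrableOn hU.measurableSet)
      hc.continuous hcs hcU).congr (Eventually.of_forall fun x => mul_comm _ _)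
  rw [integral_add i1 i2] at i
  linarith

variable {i : Fin 3} {l lam E : ℝ} {G : Cfg 3 → ℝ} {DG : Fin 3 → Fin 3 → Cfg 3 → ℝ}
  {R : Cfg 3 → ℝ} {φ : ℕ → Cfg 3 → ℝ} {ω χ : Cfg 2 → ℝ} {κ b : ℝ} {U : Set Space}
  {a S : Space → ℝ} {B : Space → ℝ}

/-- The excess over a barrier above the plane is a weak subsolution. -/
theorem SliceData.subsol_above (d : SliceData i l lam E G DG R φ ω χ κ b U a S)
    (hB : ContDiffOn ℝ 2 B U) (hpos : ∀ x ∈ U, height x = 0 → 0 < B x)
    (hplane : ∀ k x, height x = 0 → slNorm i (fun z => wL i ω z * φ k z) x = 0) :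
    WeakSubPoisson U
      (fun x => if 0 < height x then max (slNorm i (fun z => wL i ω z * G z) x - B x) 0 else 0)
      fun x => if 0 < height x ∧ B x < slNorm i (fun z => wL i ω z * G z) x then
        2 * ((a x - κ - attract l x - E) * slNorm i (fun z => wL i ω z * G z) x - S x -
          b * |slIp i χ (fun z => wL i ω z * G z) x|) - lap B x
      else 0 := by
  classical
  obtain ⟨hH, hA⟩ := d.lim_weight
  set N := slNorm i fun z => wL i ω z * G z with hNdef
  set Nk := fun k => slNorm i fun z => wL i ω z * φ k z with hNkdef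
  have hN : SqLim volume Nk N := hH.slNorm i
  have hB1 : ContDiffOn ℝ 1 B U := hB.of_le one_le_two
  have hBd : ∀ q, ContDiffOn ℝ 1 (deriv3 q B) U := fun q =>
    (hB.fderiv_of_isOpen d.open_U (by norm_num)).clm_apply contDiffOn_const
  have hlB : ContinuousOn (lap B) U :=
    continuousOn_finsetSum _ fun q _ => continuousOn_deriv3 d.open_U (hBd q) q
  set F := fun x => 2 * ((a x - κ - attract l x - E) * N x - S x -
    b * |slIp i χ (fun z => wL i ω z * G z) x|) with hF
  have hFm : LocMemLp 2 U F := d.locallyIntegrableOn_source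
  set P := {x : Space | 0 < height x}
  have hPm : MeasurableSet P := measurableSet_lt measurable_const
    (show Measurable height by unfold height; fun_prop)
  have hw : LocMemLp 2 U fun x => if 0 < height x then max (N x - B x) 0 else 0 := fun Q hQ hQU => by
    have h1 : MemLp (fun x => N x - B x) 2 (volume.restrict Q) :=
      (hN.lim_mem.restrict Q).sub (LocMemLp.of_continuousOn hB.continuousOn Q hQ hQU)
    refine (h1.mono (f := fun x => max (N x - B x) 0)
      ((h1.1.aemeasurable.max aemeasurable_const).aestronglyMeasurable)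
      (Eventually.of_forall fun x => ?_)).indicator hPm |>.ae_eq (Eventually.of_forall fun x => ?_)
    · rw [Real.norm_eq_abs, Real.norm_eq_abs, abs_of_nonneg (le_max_right _ _)]
      exact max_le (le_abs_self _) (abs_nonneg _)
    · simp [indicator, P]
  have hs : LocMemLp 2 U fun x => if 0 < height x ∧ B x < N x then F x - lap B x else 0 :=
    fun Q hQ hQU => by
      have h1 : MemLp (fun x => F x - lap B x) 2 (volume.restrict Q) :=
        (hFm Q hQ hQU).sub (LocMemLp.of_continuousOn hlB Q hQ hQU)
      have h2 : AEStronglyMeasurable (fun x => posInd (N x - B x)) (volume.restrict Q) :=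
        (measurable_posInd.comp_aemeasurable ((hN.lim_mem.1.restrict.aemeasurable).sub
          (LocMemLp.of_continuousOn (p := 2) hB.continuousOn Q hQ hQU).1.aemeasurable)).aestronglyMeasurable
      refine (h1.mono (f := fun x => posInd (N x - B x) * (F x - lap B x)) (h2.mul h1.1)
        (Eventually.of_forall fun x => ?_)).indicator hPm |>.ae_eq
          (Eventually.of_forall fun x => ?_)
      · rw [norm_mul]
        exact mul_le_of_le_one_left (norm_nonneg _) (abs_posInd_le _)
      · by_cases h : 0 < height x <;> by_cases h' : B x < N x <;>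
          simp [indicator, P, posInd, h, h', sub_pos]
  refine ⟨hw.locallyIntegrableOn one_le_two d.open_U, hs.locallyIntegrableOn one_le_two d.open_U,
    fun η hη hη0 => ?_⟩
  set K := tsupport η with hKdef
  have hK : IsCompact K := hη.compact
  have hKU : K ⊆ U := hη.supp
  have hηK : IsBump K η := ⟨hη.smooth, hη.compact, subset_rfl⟩
  have hη1 : ContDiff ℝ 1 η := hη.smooth.of_le (by simp)
  have hz : ∀ x ∉ K, η x = 0 := fun x hx => image_eq_zero_of_notMem_tsupport hx
  set T := K ∩ P
  have hTm : MeasurableSet T := hK.measurableSet.inter hPm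
  obtain ⟨M0, hM0⟩ := hη.compact.exists_bound_of_continuous hη.continuous
  have hM00 : 0 ≤ M0 := (norm_nonneg _).trans (hM0 0)
  have hBK : MemLp (K.indicator B) 2 := (memLp_indicator_iff_restrict hK.measurableSet).2
    (LocMemLp.of_continuousOn hB.continuousOn K hK hKU)
  set lB := K.indicator (lap B)
  have hlBm : MemLp lB 2 := (memLp_indicator_iff_restrict hK.measurableSet).2
    (LocMemLp.of_continuousOn hlB K hK hKU)
  have hlη : MemLp (lap η) 2 := hη.lap.continuous.memLp_of_hasCompactSupport hη.lap.compact
  have h1T : MemLp (T.indicator fun _ : Space => (1 : ℝ)) 2 :=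
    memLp_indicator_const 2 hTm 1
      (Or.inr ((measure_mono inter_subset_left).trans_lt hK.measure_lt_top).ne)
  -- the test and the primitive as functions of the norm
  set cF := fun (e : ℝ) (v : Space → ℝ) (x : Space) =>
    T.indicator (fun x => η x * ramp e (rootE e (v x) - e - K.indicator B x)) x with hcF
  set pF := fun (e : ℝ) (v : Space → ℝ) (x : Space) =>
    T.indicator (fun x => rampInt e (rootE e (v x) - e - K.indicator B x)) x with hpF
  have hcm : ∀ e {v : Space → ℝ}, AEStronglyMeasurable v → AEStronglyMeasurable (cF e v) :=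
    fun e {v} hv => (hη.continuous.aestronglyMeasurable.mul
      ((contDiff_ramp e).continuous.comp_aestronglyMeasurable
        ((((continuous_rootE e).comp_aestronglyMeasurable hv).sub aestronglyMeasurable_const).sub
          hBK.1))).indicator hTm
  have hpm : ∀ e {v : Space → ℝ}, AEStronglyMeasurable v → AEStronglyMeasurable (pF e v) :=
    fun e {v} hv => ((contDiff_rampInt e).continuous.comp_aestronglyMeasurable
        ((((continuous_rootE e).comp_aestronglyMeasurable hv).sub aestronglyMeasurable_const).sub
          hBK.1)).indicator hTm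
  have hcb : ∀ e v x, |cF e v x| ≤ M0 := fun e v x => by
    by_cases h : x ∈ T
    · simp only [hcF, indicator_of_mem h]
      rw [abs_mul]
      exact (mul_le_of_le_one_right (abs_nonneg _) (by
        rw [abs_of_nonneg (ramp_mem _ _).1]; exact (ramp_mem _ _).2)).trans (hM0 x)
    · simpa [hcF, indicator_of_notMem h] using hM00
  have hpb : ∀ e, 0 < e → ∀ x, |pF e N x| ≤ |N x| + |K.indicator B x| := fun e he x => by
    by_cases h : x ∈ T
    · simp only [hpF, indicator_of_mem h]
      refine (abs_rampInt_le _).trans ((abs_sub _ _).trans (add_le_add ?_ le_rfl))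
      obtain ⟨l1, -, l3⟩ := rootE_bounds he (slNorm_nonneg i (fun z => wL i ω z * G z) x)
      rw [abs_of_nonneg (sub_nonneg.2 l1), abs_of_nonneg (slNorm_nonneg _ _ _)]
      linarith
    · simp only [hpF, indicator_of_notMem h, abs_zero]
      positivity
  set es : ℕ → ℝ := fun n => 1 / ((n : ℝ) + 1) with hesdef
  have hes : ∀ n, 0 < es n := fun n => by positivity
  have hes0 : Tendsto es atTop (𝓝 0) := tendsto_one_div_add_atTop_nhds_zero_nat
  set Ln : ℕ → ℝ := fun n => -(1 / 2) *
    ((∫ x, pF (es n) N x * lap η x) + ∫ x, cF (es n) N x * lB x)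
  have hstep : ∀ n, Ln n + ∫ x, cF (es n) N x * ((a x - κ - attract l x - E) * kG (es n) (N x)) ≤
      ∫ x, cF (es n) N x * (S x + b * |slIp i χ (fun z => wL i ω z * G z) x|) := by
    intro n
    set e := es n with hedef
    have he : 0 < e := hes n
    obtain ⟨L, hL0, hLd, hL⟩ := exists_ramp_lipschitz he
    have hlim : SqLim volume (fun k => cF e (Nk k)) (cF e N) := by
      refine hN.of_abs_sub_le (C := M0 * L) (fun k => hcm e (hN.mem k).1) ?_
        fun k => Eventually.of_forall fun x => ?_
      · refine h1T.of_le_mul (c := M0) (hcm e hN.lim_mem.1) (Eventually.of_forall fun x => ?_)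
        by_cases h : x ∈ T
        · simpa [h] using hcb e N x
        · simp [hcF, h]
      · simp only [hcF]
        by_cases h : x ∈ T
        · simp only [indicator_of_mem h]
          rw [← mul_sub, abs_mul, mul_assoc]
          refine mul_le_mul (hM0 x) ((hL _ _).trans (mul_le_mul_of_nonneg_left ?_ hL0))
            (abs_nonneg _) hM00
          rw [sub_sub_sub_cancel_right, sub_sub_sub_cancel_right]
          exact abs_rootE_sub_le he _ _
        · simp only [indicator_of_notMem h, sub_self, abs_zero]; positivity
    have hplim : SqLim volume (fun k => pF e (Nk k)) (pF e N) := by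
      refine hN.of_abs_sub_le (C := 1) (fun k => hpm e (hN.mem k).1) ?_
        fun k => Eventually.of_forall fun x => ?_
      · exact (hN.lim_mem.abs.add hBK.abs).mono (hpm e hN.lim_mem.1)
          (Eventually.of_forall fun x => by
            rw [Real.norm_eq_abs, Real.norm_eq_abs, Pi.add_apply]
            exact (hpb e he x).trans (le_abs_self _))
      · simp only [hpF, one_mul]
        by_cases h : x ∈ T
        · simp only [indicator_of_mem h]
          refine (abs_rampInt_sub_le _ _ _).trans ?_
          rw [sub_sub_sub_cancel_right, sub_sub_sub_cancel_right]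
          exact abs_rootE_sub_le he _ _
        · simp only [indicator_of_notMem h, sub_self, abs_zero]; positivity
    -- smooth versions along the approximants
    set u := fun k => uReg i e fun z => wL i ω z * φ k z
    have hu : ∀ k, ContDiff ℝ 1 (u k) := fun k =>
      (hasFDerivAt_uReg ((d.approx.c1 k).mul_left (contDiff_wL i d.mult.smooth)) he).1
    set s := fun k x => u k x - e - B x
    have hsU : ∀ k, ContDiffOn ℝ 1 (s k) U := fun k =>
      ((hu k).contDiffOn.sub contDiffOn_const).sub hB1
    have hsneg : ∀ k, ∀ x ∈ U, height x = 0 → s k x < 0 := fun k x hx h => by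
      have h' : u k x = e := by
        simp only [u, uReg, hplane k x h]
        simp [Real.sqrt_sq he.le]
      simp only [s, h']
      linarith [hpos x hx h]
    set g := fun k x => if 0 < height x then ramp e (s k x) else 0 with hgdef
    set Φ := fun k x => if 0 < height x then rampInt e (s k x) else 0 with hΦdef
    have hg : ∀ k, ContDiffOn ℝ 1 (g k) U ∧ ∀ x ∈ U, ∀ q, deriv3 q (g k) x =
        if 0 < height x then deriv (ramp e) (s k x) * deriv3 q (s k) x else 0 := fun k =>
      contDiffOn_glue d.open_U (hsU k) (hsneg k) (contDiff_ramp e) fun t ht => ramp_zero he.le ht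
    have hΦ : ∀ k, ContDiffOn ℝ 1 (Φ k) U ∧ ∀ x ∈ U, ∀ q, deriv3 q (Φ k) x =
        if 0 < height x then deriv (rampInt e) (s k x) * deriv3 q (s k) x else 0 := fun k =>
      contDiffOn_glue d.open_U (hsU k) (hsneg k) (contDiff_rampInt e) fun t ht =>
        rampInt_zero he.le ht
    set c := fun k x => g k x * η x with hcdef
    have hc : ∀ k, ContDiff ℝ 1 (c k) := fun k => hη.contDiff_mul (by simp) d.open_U (hg k).1
    have hceq : ∀ k, c k = cF e (Nk k) := fun k => funext fun x => by
      by_cases hx : x ∈ K
      · by_cases h : 0 < height x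
        · simp only [hcdef, hgdef, hcF, if_pos h, indicator_of_mem (show x ∈ T from ⟨hx, h⟩),
            indicator_of_mem hx]
          simp only [s, u, uReg, rootE, Nk]
          ring
        · have hT : x ∉ T := fun hT => h hT.2
          simp [hcdef, hgdef, hcF, h, hT]
      · have hT : x ∉ T := fun hT => hx hT.1
        simp [hcdef, hcF, hT, hz x hx]
    have hΦeq : ∀ k x, Φ k x * lap η x = pF e (Nk k) x * lap η x := fun k x => by
      by_cases hx : x ∈ K
      · by_cases h : 0 < height x
        · simp only [hΦdef, hpF, if_pos h, indicator_of_mem (show x ∈ T from ⟨hx, h⟩),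
            indicator_of_mem hx]
          simp only [s, u, uReg, rootE, Nk]
        · have hT : x ∉ T := fun hT => h hT.2
          simp [hΦdef, hpF, h, hT]
      · simp [hηK.lap.eq_zero hx]
    have hg01 : ∀ k x, 0 ≤ g k x ∧ g k x ≤ 1 := fun k x => by
      simp only [hgdef]; split_ifs
      · exact ramp_mem _ _
      · simp
    have hdc : ∀ k q x, deriv3 q (c k) x =
        if x ∈ U then g k x * deriv3 q η x + deriv3 q (g k) x * η x else 0 := fun k q x => by
      split_ifs with hx
      · rw [hcdef, deriv3_mul ((((hg k).1).contDiffAt (d.open_U.mem_nhds hx)).differentiableAt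
          one_ne_zero) (hη.differentiable x) q]
        ring
      · exact deriv3_eq_zero_of_notMem q fun h' => hx (hη.supp (tsupport_mul_subset_right h'))
    have hsd : ∀ k, ∀ x ∈ U, ∀ q, deriv3 q (s k) x = deriv3 q (u k) x - deriv3 q B x :=
      fun k x hx q => by
        have h1 := ((hu k).differentiable one_ne_zero x).hasFDerivAt
        have h2 := ((hB1.contDiffAt (d.open_U.mem_nhds hx)).differentiableAt one_ne_zero).hasFDerivAt
        have h3 : HasFDerivAt (s k) _ x := (h1.sub_const e).sub h2
        simp [deriv3, h3.fderiv]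
    have hdBη : ∀ q, Continuous fun x => deriv3 q B x * η x := fun q =>
      (hη.contDiff_mul (n := 1) (by simp) d.open_U (hBd q)).continuous
    obtain ⟨Bω, hBω, -⟩ := d.mult.bounded
    obtain ⟨D0, hD0⟩ := (tendsto_finsetSum Finset.univ fun j _ => tendsto_finsetSum Finset.univ
      fun q _ => (d.approx.der j q).integral_sq).bddAbove_range
    set M := M0 + ∑ q, (3 * (∫ x, deriv3 q η x ^ 2) +
      3 * ((L * M0) ^ 2 * (Bω ^ 2 * D0)) + 3 * (L ^ 2 * ∫ x, (deriv3 q B x * η x) ^ 2))
    have hMq : ∀ k q, ∫ x, deriv3 q (c k) x ^ 2 ≤ 3 * (∫ x, deriv3 q η x ^ 2) +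
        3 * ((L * M0) ^ 2 * (Bω ^ 2 * D0)) + 3 * (L ^ 2 * ∫ x, (deriv3 q B x * η x) ^ 2) := by
      intro k q
      obtain ⟨j1, j2, j3⟩ := deriv3_uReg_bound (i := i) (d.approx.c1 k) d.mult hBω he q
      set mg := fun x => marg i (fun z => ∑ a, slotDeriv i a (fun z => wL i ω z * φ k z) z ^ 2) x
      have k1 : Integrable fun x => deriv3 q η x ^ 2 :=
        ((hη.deriv q).continuous.pow 2).integrable_of_hasCompactSupport
          ((hη.deriv q).compact.mono fun x hx => by intro h0; exact hx (by simp [h0]))
      have k2 : Integrable fun x => (deriv3 q B x * η x) ^ 2 :=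
        ((hdBη q).pow 2).integrable_of_hasCompactSupport
          (hη.compact.mono fun x hx => by intro h0; exact hx (by simp [h0]))
      have m1 : Integrable fun x => 3 * deriv3 q η x ^ 2 + 3 * ((L * M0) ^ 2 * mg x) :=
        (k1.const_mul 3).add ((j1.const_mul _).const_mul 3)
      refine (integral_mono_of_nonneg (Eventually.of_forall fun x => sq_nonneg _)
        (m1.add ((k2.const_mul (L ^ 2)).const_mul 3)) (Eventually.of_forall fun x => ?_)).trans ?_
      · simp only [Pi.add_apply, hdc]
        have hmg : 0 ≤ mg x := (sq_nonneg _).trans (j2 x)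
        split_ifs with hx
        · have e1 : (g k x * deriv3 q η x) ^ 2 ≤ deriv3 q η x ^ 2 := by
            rw [mul_pow]
            exact mul_le_of_le_one_left (sq_nonneg _) (pow_le_one₀ (hg01 k x).1 (hg01 k x).2)
          have e2 : |deriv3 q (g k) x| ≤ L * |deriv3 q (u k) x - deriv3 q B x| := by
            rw [(hg k).2 x hx q]
            split_ifs
            · rw [hsd k x hx q, abs_mul]
              exact mul_le_mul_of_nonneg_right (hLd _) (abs_nonneg _)
            · simp only [abs_zero]; positivity
          have e3 : (deriv3 q (g k) x * η x) ^ 2 ≤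
              (L * (deriv3 q (u k) x - deriv3 q B x) * η x) ^ 2 := by
            refine sq_le_sq.2 ?_
            rw [abs_mul, abs_mul, abs_mul, abs_of_nonneg hL0]
            exact mul_le_mul_of_nonneg_right e2 (abs_nonneg _)
          have e4 : η x ^ 2 * deriv3 q (u k) x ^ 2 ≤ M0 ^ 2 * mg x := by
            refine mul_le_mul ?_ (j2 x) (sq_nonneg _) (sq_nonneg _)
            rw [← sq_abs]; exact pow_le_pow_left₀ (abs_nonneg _) (hM0 x) 2
          have e5 := mul_le_mul_of_nonneg_left e4 (sq_nonneg L)
          nlinarith [sq_nonneg (g k x * deriv3 q η x - 1 / 2 * (deriv3 q (g k) x * η x)),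
            sq_nonneg (L * deriv3 q (u k) x * η x + L * (deriv3 q B x * η x))]
        · simp only [zero_pow two_ne_zero]; positivity
      · rw [integral_add' m1 ((k2.const_mul _).const_mul 3), integral_add (k1.const_mul 3)
          ((j1.const_mul _).const_mul 3), integral_const_mul, integral_const_mul, integral_const_mul,
          integral_const_mul, integral_const_mul]
        gcongr
        exact j3.trans (mul_le_mul_of_nonneg_left (hD0 ⟨k, rfl⟩) (sq_nonneg _))
    have hterm : ∀ q, 0 ≤ 3 * (∫ x, deriv3 q η x ^ 2) + 3 * ((L * M0) ^ 2 * (Bω ^ 2 * D0)) +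
        3 * (L ^ 2 * ∫ x, (deriv3 q B x * η x) ^ 2) := fun q =>
      (integral_nonneg fun x => sq_nonneg _).trans (hMq 0 q)
    refine d.limit_ineq he (K := K) hK hKU (c := c) (cl := cF e N) (M := M) hc
      (fun k x hx => by simp [hcdef, hz x hx]) (fun x hx => by
        have hT : x ∉ T := fun hT => hx hT.1
        simp [hcF, hT])
      (fun k x => mul_nonneg (hg01 k x).1 (hη0 x))
      (fun k x => (mul_le_of_le_one_left (hη0 x) (hg01 k x).2).trans
        (((le_abs_self _).trans (hM0 x)).trans (le_add_of_nonneg_right
          (Finset.sum_nonneg fun q _ => hterm q))))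
      (fun k q => (hMq k q).trans ((Finset.single_le_sum (fun q _ => hterm q)
        (Finset.mem_univ q)).trans (le_add_of_nonneg_left hM00)))
      (by rw [show c = fun k => cF e (Nk k) from funext hceq]; exact hlim)
      (L := fun k => -(1 / 2) *
        ((∫ x, pF e (Nk k) x * lap η x) + ∫ x, cF e (Nk k) x * lB x))
      (fun k => ?_)
      (((hplim.integral_mul (SqLim.const hlη)).add
        (hlim.integral_mul (SqLim.const hlBm))).const_mul _)
    -- the gradient term
    have hwΦ := HasWeakGrad.of_contDiffOn d.open_U (hΦ k).1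
    have r1 : ∀ q, ∫ x, deriv3 q η x * deriv3 q (Φ k) x =
        -∫ x, Φ k x * deriv3 q (deriv3 q η) x := fun q => by
      rw [hwΦ.2.2 _ (hη.deriv q) q, neg_neg]
      exact integral_congr_ae (Eventually.of_forall fun x => mul_comm _ _)
    have r2 : ∀ q, ∫ x, deriv3 q (c k) x * deriv3 q B x =
        -∫ x, c k x * deriv3 q (deriv3 q B) x := fun q =>
      hη.integral_deriv_mul d.open_U (hg k).1 (hBd q) q
    have hcU : tsupport (c k) ⊆ U := tsupport_mul_subset_right.trans hη.supp
    have hdcU : ∀ q, tsupport (deriv3 q (c k)) ⊆ U := fun q => by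
      have h1 : Function.support (deriv3 q (c k)) ⊆ tsupport (c k) := fun x hx =>
        by_contra fun h' => hx (deriv3_eq_zero_of_notMem q h')
      exact (closure_minimal h1 (isClosed_tsupport _)).trans hcU
    have i1 : ∀ q, Integrable fun x => deriv3 q η x * deriv3 q (Φ k) x := fun q =>
      ((hη.deriv q).integrable_mul
        ((continuousOn_deriv3 d.open_U (hΦ k).1 q).locallyIntegrableOn d.open_U.measurableSet)).congr
          (Eventually.of_forall fun x => mul_comm _ _)
    have i2 : ∀ q, Integrable fun x => deriv3 q (c k) x * deriv3 q B x := fun q =>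
      (integrable_mul_of_tsupport ((hBd q).continuousOn.locallyIntegrableOn d.open_U.measurableSet)
        (continuous_deriv3 (hc k) q) (hη.compact.mul_left.fderiv_apply ℝ (unit3 q)) (hdcU q)).congr
        (Eventually.of_forall fun x => mul_comm _ _)
    have i3 : ∀ q, Integrable fun x => deriv3 q (c k) x * deriv3 q (u k) x := fun q =>
      ((continuous_deriv3 (hc k) q).mul (continuous_deriv3 (hu k) q)).integrable_of_hasCompactSupport
        (HasCompactSupport.mul_right (hη.compact.mul_left.fderiv_apply ℝ (unit3 q)))
    have i4 : ∀ q, Integrable fun x => Φ k x * deriv3 q (deriv3 q η) x := fun q =>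
      ((hη.deriv q).deriv q).integrable_mul
        ((hΦ k).1.continuousOn.locallyIntegrableOn d.open_U.measurableSet)
    have i5 : ∀ q, Integrable fun x => c k x * deriv3 q (deriv3 q B) x := fun q =>
      (integrable_mul_of_tsupport ((continuousOn_deriv3 d.open_U (hBd q) q).locallyIntegrableOn
        d.open_U.measurableSet) (hc k).continuous hη.compact.mul_left hcU).congr
          (Eventually.of_forall fun x => mul_comm _ _)
    have hpt : ∀ q x, deriv3 q η x * deriv3 q (Φ k) x + deriv3 q (c k) x * deriv3 q B x ≤
        deriv3 q (c k) x * deriv3 q (u k) x := fun q x => by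
      by_cases hx : x ∈ U
      · rw [hdc, if_pos hx, (hg k).2 x hx q, (hΦ k).2 x hx q]
        simp only [hgdef]
        split_ifs with h
        · rw [hsd k x hx q, (hasDerivAt_rampInt e _).deriv]
          nlinarith [mul_nonneg (mul_nonneg (deriv_ramp_nonneg he.le (s k x)) (hη0 x))
            (sq_nonneg (deriv3 q (u k) x - deriv3 q B x))]
        · simp
      · simp [hdc, hx, (hη.deriv q).eq_zero hx]
    have hsum : ∫ x, ∑ q, (deriv3 q η x * deriv3 q (Φ k) x + deriv3 q (c k) x * deriv3 q B x) =
        -((∫ x, pF e (Nk k) x * lap η x) + ∫ x, cF e (Nk k) x * lB x) := by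
      rw [integral_finsetSum _ fun q _ => (i1 q).fun_add (i2 q)]
      simp only [fun q => integral_add (i1 q) (i2 q), r1, r2, Finset.sum_add_distrib,
        Finset.sum_neg_distrib]
      rw [← integral_finsetSum _ fun q _ => i4 q, ← integral_finsetSum _ fun q _ => i5 q, ← neg_add]
      congr 2
      · refine integral_congr_ae (Eventually.of_forall fun x => ?_)
        simp only [← Finset.mul_sum]
        exact hΦeq k x
      · refine integral_congr_ae (Eventually.of_forall fun x => ?_)
        simp only [← Finset.mul_sum, ← hceq k]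
        by_cases hx : x ∈ K
        · simp only [lB, indicator_of_mem hx, lap]
        · simp [hcdef, hz x hx]
    have hle : ∫ x, ∑ q, (deriv3 q η x * deriv3 q (Φ k) x + deriv3 q (c k) x * deriv3 q B x) ≤
        ∫ x, ∑ q, deriv3 q (c k) x * deriv3 q (u k) x :=
      integral_mono (integrable_finsetSum _ fun q _ => (i1 q).fun_add (i2 q))
        (integrable_finsetSum _ fun q _ => i3 q) fun x => Finset.sum_le_sum fun q _ => hpt q x
    rw [integral_const_mul]
    linarith [hsum]
  -- no regularisation
  set w₀ := T.indicator fun x => max (N x - K.indicator B x) 0 with hw₀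
  set c₀ := T.indicator fun x => η x * posInd (N x - K.indicator B x) with hc₀
  have hs0 : ∀ x, Tendsto (fun n => rootE (es n) (N x) - es n - K.indicator B x) atTop
      (𝓝 (N x - K.indicator B x)) := fun x => by
    have hc : Continuous fun e : ℝ => rootE e (N x) - e - K.indicator B x := by
      unfold rootE; fun_prop
    simpa [Function.comp_def, rootE, Real.sqrt_sq (slNorm_nonneg i (fun z => wL i ω z * G z) x),
      hNdef] using (hc.tendsto 0).comp hes0
  have hclim : ∀ x, Tendsto (fun n => cF (es n) N x) atTop (𝓝 (c₀ x)) := fun x => by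
    simp only [hcF, hc₀]
    by_cases hx : x ∈ T
    · simp only [indicator_of_mem hx]
      refine Tendsto.const_mul _ ?_
      by_cases h : 0 < N x - K.indicator B x
      · rw [posInd, if_pos h]
        refine tendsto_const_nhds.congr' ?_
        filter_upwards [(hs0 x).eventually (eventually_gt_nhds (half_lt_self h)),
          hes0.eventually (eventually_lt_nhds (half_pos h))] with n h1 h2
        exact (Real.smoothTransition.one_of_one_le ((one_le_div (hes n)).2 (h2.trans h1).le)).symm
      · rw [posInd, if_neg h]
        refine tendsto_const_nhds.congr fun n => (ramp_zero (hes n).le ?_).symm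
        obtain ⟨-, -, l3⟩ := rootE_bounds (hes n) (slNorm_nonneg i (fun z => wL i ω z * G z) x)
        linarith [not_lt.1 h]
    · simp only [indicator_of_notMem hx]
      exact tendsto_const_nhds
  have hplimn : ∀ x, Tendsto (fun n => pF (es n) N x) atTop (𝓝 (w₀ x)) := fun x => by
    simp only [hpF, hw₀]
    by_cases hx : x ∈ T
    · simp only [indicator_of_mem hx]
      have h1 := ((hs0 x).max (tendsto_const_nhds (x := (0 : ℝ))))
      refine tendsto_of_tendsto_of_tendsto_of_le_of_le
        (g := fun n => max (rootE (es n) (N x) - es n - K.indicator B x) 0 - es n)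
        (h := fun n => max (rootE (es n) (N x) - es n - K.indicator B x) 0 + es n)
        (by simpa using h1.sub hes0) (by simpa using h1.add hes0) (fun n => ?_) fun n => ?_ <;>
      · have := abs_le.1 (abs_rampInt_max_le (hes n)
          (rootE (es n) (N x) - es n - K.indicator B x))
        linarith
    · simp only [indicator_of_notMem hx]
      exact tendsto_const_nhds
  have hLn : Tendsto Ln atTop (𝓝 (-(1 / 2) * ((∫ x, w₀ x * lap η x) + ∫ x, c₀ x * lB x))) := by
    refine (Tendsto.add ?_ ?_).const_mul _
    · refine tendsto_integral_of_dominated_convergence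
        (fun x => (|N x| + |K.indicator B x|) * |lap η x|)
        (fun n => (hpm _ hN.lim_mem.1).mul hlη.1)
        ((hN.lim_mem.abs.add hBK.abs).integrable_mul hlη.abs)
        (fun n => Eventually.of_forall fun x => ?_)
        (Eventually.of_forall fun x => (hplimn x).mul_const _)
      rw [norm_mul, Real.norm_eq_abs, Real.norm_eq_abs]
      exact mul_le_mul_of_nonneg_right (hpb _ (hes n) x) (abs_nonneg _)
    · refine tendsto_integral_of_dominated_convergence
        (fun x => M0 * (T.indicator (fun _ => (1 : ℝ)) x * |lB x|))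
        (fun n => (hcm _ hN.lim_mem.1).mul hlBm.1) ((h1T.integrable_mul hlBm.abs).const_mul _)
        (fun n => Eventually.of_forall fun x => ?_)
        (Eventually.of_forall fun x => (hclim x).mul_const _)
      rw [norm_mul, Real.norm_eq_abs, Real.norm_eq_abs]
      by_cases hx : x ∈ T
      · rw [indicator_of_mem hx, one_mul]
        exact mul_le_mul_of_nonneg_right (hcb _ N x) (abs_nonneg _)
      · simp [hcF, hx]
  have key := d.limit_zero hK hKU hes hes0 (c := fun n => cF (es n) N) (c₀ := c₀) (M := M0)
    (fun n => hcm _ hN.lim_mem.1) (fun n x hx => by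
      have hT : x ∉ T := fun hT => hx hT.1
      simp [hcF, hT]) (fun n x => hcb _ N x) (Eventually.of_forall hclim) hLn hstep
  -- collect
  set Y := fun x => posInd (N x - K.indicator B x)
  have hYm : AEStronglyMeasurable (fun x => T.indicator Y x) :=
    (measurable_posInd.comp_aemeasurable ((hN.lim_mem.1.aemeasurable).sub
      hBK.1.aemeasurable)).aestronglyMeasurable.indicator hTm
  have hbd : ∀ {X : Space → ℝ}, Integrable (fun x => X x * η x) →
      Integrable fun x => c₀ x * X x := fun {X} hX => by
    refine (hX.bdd_mul (c := 1) hYm (Eventually.of_forall fun x => ?_)).congr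
      (Eventually.of_forall fun x => ?_)
    · by_cases hx : x ∈ T
      · rw [indicator_of_mem hx]; exact abs_posInd_le _
      · simp [hx]
    · by_cases hx : x ∈ T <;> simp [hc₀, Y, hx]; ring
  have j1 : Integrable fun x => c₀ x * ((a x - κ - attract l x - E) * N x) := by
    refine hbd (hη.integrable_mul ?_)
    have h1 : LocMemLp 2 U fun x => (a x - κ - E) * N x :=
      (LocMemLp.of_memLp hN.lim_mem).mul_continuousOn
        ((d.a_cont.sub continuousOn_const).sub continuousOn_const)
    have h2 : LocMemLp 2 U fun x => (a x - κ - attract l x - E) * N x := fun Q hQ hQU =>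
      ((h1 Q hQ hQU).sub (hA.lim_mem.restrict Q)).ae_eq (Eventually.of_forall fun x => by
        simp only [Pi.sub_apply, hNdef]; ring)
    exact h2.locallyIntegrableOn one_le_two d.open_U
  have j2 : Integrable fun x => c₀ x * (S x + b * |slIp i χ (fun z => wL i ω z * G z) x|) :=
    hbd (hη.integrable_mul ((d.S_mem.add ((LocMemLp.of_memLp
      (memLp_slIp d.χ_mem hH.lim_mem).abs).const_mul b)).locallyIntegrableOn one_le_two d.open_U))
  have j3 : Integrable fun x => c₀ x * lB x :=
    have h3 : MemLp η 2 := hη.continuous.memLp_of_hasCompactSupport hη.compact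
    hbd (hlBm.integrable_mul h3)
  have ew : ∫ x, (if 0 < height x then max (N x - B x) 0 else 0) * lap η x =
      ∫ x, w₀ x * lap η x := by
    refine integral_congr_ae (Eventually.of_forall fun x => ?_)
    by_cases hx : x ∈ K
    · by_cases h : 0 < height x
      · simp only [hw₀, if_pos h, indicator_of_mem (show x ∈ T from ⟨hx, h⟩), indicator_of_mem hx]
      · have hT : x ∉ T := fun hT => h hT.2
        simp [hw₀, h, hT]
    · simp [hηK.lap.eq_zero hx]
  have eh : ∫ x, (if 0 < height x ∧ B x < N x then F x - lap B x else 0) * η x =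
      2 * ((∫ x, c₀ x * ((a x - κ - attract l x - E) * N x)) -
        ∫ x, c₀ x * (S x + b * |slIp i χ (fun z => wL i ω z * G z) x|)) - ∫ x, c₀ x * lB x := by
    rw [← integral_sub j1 j2, ← integral_const_mul, ← integral_sub ((j1.sub' j2).const_mul 2) j3]
    refine integral_congr_ae (Eventually.of_forall fun x => ?_)
    by_cases hx : x ∈ K
    · by_cases h : 0 < height x
      · simp only [hc₀, lB, indicator_of_mem (show x ∈ T from ⟨hx, h⟩), indicator_of_mem hx,
          posInd, sub_pos, hF]
        by_cases h' : B x < N x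
        · rw [if_pos ⟨h, h'⟩, if_pos h']; ring
        · rw [if_neg (fun H => h' H.2), if_neg h']; ring
      · have hT : x ∉ T := fun hT => h hT.2
        simp [hc₀, h, hT]
    · have hT : x ∉ T := fun hT => hx hT.1
      simp [hc₀, hT, hz x hx]
  rw [ew, eh]
  linarith

end Vale.Agent.P363.Inter
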