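import Vale.Agent.P363.Inter.Slice.ParData
import Vale.Agent.P363.Inter.Slice.KatoOdd

/-!
P363, interacting side: the parts of the excited slices of either parity are subsolutions.
-/

noncomputable section

namespace Vale.Agent.P363.Inter

open MeasureTheory Filter Set
open scoped BigOperators Topology

theorem mirror_of_height_zero {x : Space} (hx : height x = 0) : mirror x = x := by
  simp [mirror, hx]

/-- The repulsion paired with a slice of parity `-1`. -/
theorem repel_pair_odd {ε K : ℝ} {χ : Cfg 2 → ℝ} {Dχ : Fin 2 → Fin 3 → Cfg 2 → ℝ}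
    (hb : IonBound ε K χ Dχ) (hε : 0 < ε) (hε1 : ε ≤ 1)
    (heven : ∀ᵐ y, χ (fun k => mirror (y k)) = χ y) {x : Space} (hx : 1 < ‖x‖) {P : Cfg 2 → ℝ}
    (hP : MemLp P 2) (hpar : ∀ y, parPart (-1) P y = P y) :
    |∫ y, repel x y * χ y * P y| ≤ 400 / ε * √K *
      (|height x| / ‖x‖ ^ 3 + Real.exp (-(ε / 2 * ‖x‖))) * √(∫ y, P y ^ 2) := by
  have hq := hb.inH1.memLp_repel x
  have e : ∫ y, repel x y * χ y * P y =
      ∫ y, parPart (-1) (fun y => repel x y * χ y) y * P y := by
    rw [integral_parPart hq hP]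
    simp only [hpar]
  rw [e]
  refine (abs_integral_mul_le (memLp_parPart hq _) hP).trans
    (mul_le_mul_of_nonneg_right ?_ (Real.sqrt_nonneg _))
  rw [← nrmN_eq_sqrt]
  exact hb.repel_odd hε hε1 heven x hx.le

/-- The repulsion paired with a slice orthogonal to the state. -/
theorem repel_pair_ortho {ε K : ℝ} {χ : Cfg 2 → ℝ} {Dχ : Fin 2 → Fin 3 → Cfg 2 → ℝ}
    (hb : IonBound ε K χ Dχ) (hε : 0 < ε) (hε1 : ε ≤ 1) {x : Space} (hx : 1 < ‖x‖)
    {P : Cfg 2 → ℝ} (hP : MemLp P 2) (h0 : ∫ y, χ y * P y = 0) :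
    |∫ y, repel x y * χ y * P y| ≤ 200 / ε ^ 2 * √K / ‖x‖ ^ 2 * √(∫ y, P y ^ 2) := by
  have hq := hb.inH1.memLp_repel x
  have hv : MemLp (fun y => (repel x y - 2 / ‖x‖) * χ y) 2 :=
    (hq.sub (hb.inH1.memLp.const_mul (2 / ‖x‖))).ae_eq
      (Eventually.of_forall fun y => by simp only [Pi.sub_apply]; ring)
  have i1 : Integrable fun y => (repel x y - 2 / ‖x‖) * χ y * P y := hv.integrable_mul hP
  have i2 : Integrable fun y => 2 / ‖x‖ * (χ y * P y) :=
    (hb.inH1.memLp.integrable_mul hP).const_mul _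
  have e : ∫ y, repel x y * χ y * P y = ∫ y, (repel x y - 2 / ‖x‖) * χ y * P y := by
    have h : ∫ y, repel x y * χ y * P y = (∫ y, (repel x y - 2 / ‖x‖) * χ y * P y) +
        ∫ y, 2 / ‖x‖ * (χ y * P y) := by
      rw [← integral_add i1 i2]
      exact integral_congr_ae (Eventually.of_forall fun y => by ring)
    rw [h, integral_const_mul, h0, mul_zero, add_zero]
  rw [e]
  refine (abs_integral_mul_le hv hP).trans (mul_le_mul_of_nonneg_right ?_ (Real.sqrt_nonneg _))
  rw [← nrmN_eq_sqrt]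
  exact (hb.repel_le hε hε1 x).2 hx.le

variable {l lam C eg eu E3 E2 Es Et : ℝ} {g u : Space → ℝ} {Dg Du : Fin 3 → Space → ℝ}
  {f : Cfg 3 → ℝ} {D : Fin 3 → Fin 3 → Cfg 3 → ℝ} {χ : Cfg 2 → ℝ}
  {Dχ : Fin 2 → Fin 3 → Cfg 2 → ℝ} {χs χt : Cfg 2 → ℝ}
  {Ds Dt : Fin 2 → Fin 3 → Cfg 2 → ℝ}

/-- The excited part is odd under the mirror of all electrons. -/
theorem MolState.perpF_odd (hM : MolState l lam C g u Dg Du eg eu E3 f D E2 χ Dχ Es χs Ds Et χt Dt) :
    ∀ᵐ z : Cfg 3, perpF 0 χ f (fun j => mirror (z j)) = -perpF 0 χ f z := by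
  have hA := ampAt_mirror (0 : Fin 3) (f := f) (σ := -1) hM.ion.parity
    (by simpa using hM.three.odd)
  have e := (mp_ins (0 : Fin 3) (m := 2)).map_eq
  rw [← e, (embedding_ins (0 : Fin 3)).ae_map_iff]
  have hfo := (mp_ins (0 : Fin 3) (m := 2)).quasiMeasurePreserving.ae hM.three.odd
  have hA' := (Measure.quasiMeasurePreserving_fst (μ := (volume : Measure Space))
    (ν := (volume : Measure (Cfg 2)))).ae hA
  have hχ' := (Measure.quasiMeasurePreserving_snd (μ := (volume : Measure Space))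
    (ν := (volume : Measure (Cfg 2)))).ae hM.ion.parity
  filter_upwards [hfo, hA', hχ'] with p h1 h2 h3
  simp only [mirror_ins] at h1
  simp only [mirror_ins, slice_perpF, slice, h1]
  rw [h2, h3]
  ring

/-- Approximants of the part odd in the first electron which vanish on the plane. -/
theorem MolState.exists_odd_approx
    (hM : MolState l lam C g u Dg Du eg eu E3 f D E2 χ Dχ Es χs Ds Et χt Dt) :
    ∃ φ, Approx φ (parF 1 (perpF 0 χ f)) (parD 1 (perpD 0 χ Dχ f D)) ∧
      ∀ k (x : Space), height x = 0 →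
        slNorm 0 (fun z => wL 0 (fun _ : Cfg 2 => (1 : ℝ)) z * φ k z) x = 0 := by
  have hodd := hM.perpF_odd
  have h2 := measurePreserving_parM.quasiMeasurePreserving.ae hodd
  obtain ⟨φ, hφ, hsym⟩ := (inH1_parF (inH1_perpF hM.three.lowest.inH1 hM.ion.lowest.inH1 0) 1).exists_sym
    (T := mirL ![true, false, false]) (fun ψ hψ => hψ.comp_mirL _)
    (fun z => by funext j; fin_cases j <;> simp [mirL_apply, One.mirror_mirror])
    (σ := -1) (by norm_num) (by
      filter_upwards [hodd, h2] with z h1 h2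
      have e1 : mirL ![true, false, false] z = fun j => mirror (parM z j) := by
        funext j; fin_cases j <;> simp [parM, mirL_apply, One.mirror_mirror]
      have e2 : parM (mirL ![true, false, false] z) = fun j => mirror (z j) := by
        funext j; fin_cases j <;> simp [parM, mirL_apply]
      simp only [parF, e2, h1]
      rw [e1, h2]
      ring)
  refine ⟨φ, hφ, fun k x hx => ?_⟩
  have e : ∀ y : Cfg 2, φ k ((0 : Fin 3).insertNth x y) = 0 := fun y => by
    have h := hsym k ((0 : Fin 3).insertNth x y)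
    have e1 : mirL ![true, false, false] ((0 : Fin 3).insertNth x y : Cfg 3) =
        ((0 : Fin 3).insertNth x y : Cfg 3) := by
      funext j
      rcases Fin.eq_self_or_eq_succAbove (0 : Fin 3) j with rfl | ⟨k, rfl⟩
      · simp [mirL_apply, mirror_of_height_zero hx]
      · rw [mirL_apply, Fin.insertNth_apply_succAbove]
        fin_cases k <;> simp
    rw [e1] at h
    linarith
  simp only [slNorm, wL_ins, e, mul_zero, zero_pow two_ne_zero, integral_zero, Real.sqrt_zero]

/-- The parts of either parity are orthogonal to the ground state in almost every slice. -/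
theorem MolState.slIp_parF (hM : MolState l lam C g u Dg Du eg eu E3 f D E2 χ Dχ Es χs Ds Et χt Dt)
    (σ : ℝ) : ∀ᵐ x : Space,
      slIp 0 χ (fun z => wL 0 (fun _ : Cfg 2 => (1 : ℝ)) z * parF σ (perpF 0 χ f) z) x = 0 := by
  have hχ := hM.ion.lowest.inH1
  have hf := hM.three.lowest.inH1
  filter_upwards [memLp_slices 0 (inH1_perpF hf hχ 0).memLp,
    slIp_perpF hf.memLp hχ.memLp hM.ion.lowest.mass_one 0] with x hx ho
  simp only [slIp, wL_ins, one_mul, parF_ins]
  exact integral_even_parPart hχ.memLp hx (by simpa using hM.ion.parity) ho σ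

/-- The parts of the excited slice of either parity. -/
theorem parStmt : ParStmt := by
  intro l g u Dg Du eg eu e' hZ C
  obtain ⟨lam₀, εd, K, hl, hl1, hεd, hd⟩ := mol_decay hZ C
  set ε₀ := min (εd / 2) (1 / 2)
  have hε₀ : 0 < ε₀ := lt_min (half_pos hεd) (by norm_num)
  have hε₁ : 2 * ε₀ ≤ 1 := by linarith [min_le_right (εd / 2) (1 / 2)]
  have hεd' : 2 * ε₀ ≤ εd := by linarith [min_le_left (εd / 2) (1 / 2)]
  set c₀ := max 64 (max (400 / (2 * ε₀) * √K) (200 / (2 * ε₀) ^ 2 * √K)) with hc₀def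
  have hc64 : (64 : ℝ) ≤ c₀ := le_max_left _ _
  refine ⟨lam₀, ε₀, c₀, hl, hε₀,
    fun lam hlam E3 f D E2 χ Dχ Es χs Ds Et χt Dt hM ε hε _ => ?_⟩
  obtain ⟨-, hb2, -, -⟩ := hd lam hlam _ _ _ _ _ _ _ _ _ _ _ _ hM (2 * ε₀) ⟨by linarith, hεd'⟩
  obtain ⟨hm, -, -, -⟩ := hd lam hlam _ _ _ _ _ _ _ _ _ _ _ _ hM (2 * ε)
    ⟨by linarith [hε.1], by linarith [hε.2]⟩
  obtain ⟨-, hb, -, -⟩ := hd lam hlam _ _ _ _ _ _ _ _ _ _ _ _ hM ε
    ⟨hε.1, by linarith [hε.2]⟩
  have hlam0 : 0 ≤ lam := hlam.1.le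
  have hε1 : ε ≤ 1 := by linarith [hε.2]
  have hcε : c₀ ≤ c₀ / ε := le_div_self (by linarith) hε.1 hε1
  have heven : ∀ᵐ y, χ (fun k => mirror (y k)) = χ y := by simpa using hM.ion.parity
  have hgap : eg ≤ eu := hZ.eg_lt.le
  have hr3 : ContinuousOn
      (fun x : Space => |height x| / ‖x‖ ^ 3 + Real.exp (-(ε * ‖x‖))) {x : Space | 1 < ‖x‖} := by
    refine (ContinuousOn.div ?_ (by fun_prop) fun x hx => ?_).add (by fun_prop)
    · exact ((PiLp.continuous_apply 2 (fun _ : Fin 3 => ℝ) 2).abs).continuousOn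
    · have : (1 : ℝ) < ‖x‖ := hx
      positivity
  refine ⟨?_, fun B R hR hB hpos => ?_⟩
  · obtain ⟨φ, hφ⟩ := inH1_parF (inH1_perpF hM.three.lowest.inH1 hM.ion.lowest.inH1 0) (-1)
    have d := par_data (σ := -1) (by norm_num) hlam0 hε.1 hε1 hM hgap hm hb
      (X := fun x => |height x| / ‖x‖ ^ 3 + Real.exp (-(ε * ‖x‖))) hr3
      (fun x => by positivity) hc64 (fun x hx P hP _ hpar => by
        refine (repel_pair_odd hb2 (by linarith) hε₁ heven hx hP hpar).trans
          (mul_le_mul_of_nonneg_right (mul_le_mul ?_ ?_ (by positivity) ?_) (Real.sqrt_nonneg _))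
        · exact ((le_max_left _ _).trans (le_max_right _ _)).trans hcε
        · refine add_le_add le_rfl (Real.exp_le_exp.2 (neg_le_neg ?_))
          exact mul_le_mul_of_nonneg_right (by linarith [hε.2]) (norm_nonneg _)
        · exact div_nonneg (by linarith) hε.1.le)
      (isOpen_lt continuous_const continuous_norm) subset_rfl hφ
    have eG : (slNorm 0 fun z => wL 0 (fun _ : Cfg 2 => (1 : ℝ)) z *
        parF (-1) (perpF 0 χ f) z) = uPar (-1) χ f := by
      rw [uPar_eq_slNorm]; simp only [wL, one_mul]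
    refine d.subsol.congr_ae d.open_U (Eventually.of_forall (congrFun eG)) ?_
    filter_upwards [ae_restrict_of_ae (hM.slIp_parF (-1))] with x hx
    rw [congrFun eG x, hx, abs_zero, mul_zero, sub_zero, sub_zero]
    ring
  · have hU : {x : Space | R < ‖x‖} ⊆ {x : Space | 1 < ‖x‖} := fun x hx => lt_of_le_of_lt hR hx
    obtain ⟨φ, hφ, hplane⟩ := hM.exists_odd_approx
    have hr2 : ContinuousOn (fun x : Space => 1 / ‖x‖ ^ 2) {x : Space | 1 < ‖x‖} :=
      continuousOn_const.div (by fun_prop) fun x hx => by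
        have : (1 : ℝ) < ‖x‖ := hx
        positivity
    have d := par_data (σ := 1) (by norm_num) hlam0 hε.1 hε1 hM hgap hm hb
      (X := fun x => 1 / ‖x‖ ^ 2) hr2
      (fun x => by positivity) hc64 (fun x hx P hP h0 _ => by
        refine (repel_pair_ortho hb2 (by linarith) hε₁ hx hP h0).trans
          (mul_le_mul_of_nonneg_right ?_ (Real.sqrt_nonneg _))
        rw [div_eq_mul_inv _ (‖x‖ ^ 2), one_div]
        exact mul_le_mul_of_nonneg_right
          (((le_max_right _ _).trans (le_max_right _ _)).trans hcε) (by positivity))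
      (isOpen_lt continuous_const continuous_norm) hU hφ
    have eG : (slNorm 0 fun z => wL 0 (fun _ : Cfg 2 => (1 : ℝ)) z *
        parF 1 (perpF 0 χ f) z) = uPar 1 χ f := by
      rw [uPar_eq_slNorm]; simp only [wL, one_mul]
    refine (d.subsol_above hB (fun x hx h0 => hpos x hx h0) hplane).congr_ae d.open_U
      (Eventually.of_forall fun x => by simp only [congrFun eG x]) ?_
    filter_upwards [ae_restrict_of_ae (hM.slIp_parF 1)] with x hx
    simp only [congrFun eG x, hx, abs_zero, mul_zero, sub_zero]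
    refine ite_congr rfl (fun _ => ?_) fun _ => rfl
    ring

end Vale.Agent.P363.Inter
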