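import Vale.Agent.P363.Inter.Slice.Ims
import Vale.Agent.P363.Inter.Slice.Repel

/-!
P363, interacting side: the Caccioppoli inequality on the energy space, multipliers which are
products of a function of one electron and a function of the others, and the weighted repulsion.
-/

noncomputable section

namespace Vale.Agent.P363.Inter

open MeasureTheory Filter Set
open scoped BigOperators Topology

variable {m : ℕ} {f : Cfg (m + 1) → ℝ} {D : Fin (m + 1) → Fin 3 → Cfg (m + 1) → ℝ}
  {R : Cfg (m + 1) → ℝ} {l lam E : ℝ}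

/-- A multiplier acting on a square integrable function. -/
theorem IsMult.memLp_mul {n : ℕ} {w : Cfg n → ℝ} (hw : IsMult w) {g : Cfg n → ℝ}
    (hg : MemLp g 2) : MemLp (fun z => w z * g z) 2 := by
  obtain ⟨B, hB, -⟩ := hw.bounded
  exact ((SqLim.const hg).mul_bdd hw.smooth.continuous.aestronglyMeasurable hB).lim_mem

theorem IsMult.memLp_deriv_mul {n : ℕ} {w : Cfg n → ℝ} (hw : IsMult w) {g : Cfg n → ℝ}
    (hg : MemLp g 2) (i : Fin n) (a : Fin 3) : MemLp (fun z => slotDeriv i a w z * g z) 2 := by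
  obtain ⟨B, -, hB⟩ := hw.bounded
  exact ((SqLim.const hg).mul_bdd
    (measurable_fderiv_apply_const ℝ w _).aestronglyMeasurable (hB i a)).lim_mem

theorem isMult_one {n : ℕ} : IsMult fun _ : Cfg n => (1 : ℝ) :=
  ⟨contDiff_const, 1, fun z => by simp, fun i a z => by simp [slotDeriv]⟩

/-- The gradient in mean square is controlled by the function and the right hand side. -/
theorem Solves.cacc (hf : InH1 f D) (hlam : 0 ≤ lam) (hs : Solves l lam E f D R)
    {w : Cfg (m + 1) → ℝ} (hw : IsMult w) :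
    ∑ i, ∑ a, ∫ z, (w z * D i a z) ^ 2 ≤
      8 * (|E| + 16 * (m + 1)) * (∫ z, (w z * f z) ^ 2) + 6 * (∫ z, gradMul w z * f z ^ 2) +
        8 * |∫ z, R z * (w z ^ 2 * f z)| := by
  obtain ⟨-, hform⟩ := hs.ims hf hw
  obtain ⟨φ, hφ⟩ := hf
  have hfm : MemLp f 2 := hφ.val.lim_mem
  have hco := ((hφ.mult hw).inH1).coercive l hlam
  rw [hform] at hco
  have hDm : ∀ i a, MemLp (D i a) 2 := fun i a => (hφ.der i a).lim_mem
  have h1 : ∀ i a, MemLp (fun z => w z * D i a z) 2 := fun i a => hw.memLp_mul (hDm i a)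
  have h2 : ∀ i a, MemLp (fun z => slotDeriv i a w z * f z) 2 := fun i a =>
    hw.memLp_deriv_mul hfm i a
  have h3 : ∀ i a, MemLp (mulGrad w f D i a) 2 := fun i a => (h1 i a).add (h2 i a)
  have eG : ∫ z, gradMul w z * f z ^ 2 = ∑ i, ∑ a, ∫ z, (slotDeriv i a w z * f z) ^ 2 := by
    simp only [gradMul, Finset.sum_mul, ← mul_pow]
    rw [integral_finsetSum _ fun i _ => integrable_finsetSum _ fun a _ => (h2 i a).integrable_sq]
    exact Finset.sum_congr rfl fun i _ => integral_finsetSum _ fun a _ => (h2 i a).integrable_sq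
  have hle : ∀ i a, ∫ z, (w z * D i a z) ^ 2 ≤
      2 * (∫ z, mulGrad w f D i a z ^ 2) + 2 * ∫ z, (slotDeriv i a w z * f z) ^ 2 := fun i a => by
    rw [← integral_const_mul, ← integral_const_mul,
      ← integral_add ((h3 i a).integrable_sq.const_mul 2) ((h2 i a).integrable_sq.const_mul 2)]
    refine integral_mono (h1 i a).integrable_sq
      (((h3 i a).integrable_sq.const_mul 2).add ((h2 i a).integrable_sq.const_mul 2)) fun z => ?_
    simp only [Pi.add_apply, mulGrad]
    nlinarith [sq_nonneg (w z * D i a z + 2 * (slotDeriv i a w z * f z))]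
  have hsum := Finset.sum_le_sum fun i (_ : i ∈ Finset.univ) =>
    Finset.sum_le_sum fun a (_ : a ∈ (Finset.univ : Finset (Fin 3))) => hle i a
  simp only [Finset.sum_add_distrib, ← Finset.mul_sum, ← eG] at hsum
  have hK : ∑ i, ∑ a, ∫ z, mulGrad w f D i a z ^ 2 = ∑ i, slotKin i (mulGrad w f D) := rfl
  rw [hK] at hsum
  have hA : 0 ≤ ∫ z, (w z * f z) ^ 2 := integral_nonneg fun z => sq_nonneg _
  nlinarith [mul_le_mul_of_nonneg_right (le_abs_self E) hA, le_abs_self (∫ z, R z * (w z ^ 2 * f z))]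

/-- A function of electron `i` times a function of the others. -/
def slotMul (i : Fin (m + 1)) (η : Space → ℝ) (W : Cfg m → ℝ) (z : Cfg (m + 1)) : ℝ :=
  η (z i) * W fun k => z (i.succAbove k)

theorem slotMul_ins (i : Fin (m + 1)) (η : Space → ℝ) (W : Cfg m → ℝ) (x : Space) (y : Cfg m) :
    slotMul i η W (i.insertNth x y) = η x * W y := by
  simp [slotMul]

theorem hasFDerivAt_slotMul (i : Fin (m + 1)) {η : Space → ℝ} {W : Cfg m → ℝ}
    (hη : Differentiable ℝ η) (hW : Differentiable ℝ W) (z : Cfg (m + 1)) :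
    (∀ a, slotDeriv i a (slotMul i η W) z = deriv3 a η (z i) * W fun k => z (i.succAbove k)) ∧
      ∀ k a, slotDeriv (i.succAbove k) a (slotMul i η W) z =
        η (z i) * slotDeriv k a W fun k => z (i.succAbove k) := by
  set y : Cfg m := fun k => z (i.succAbove k)
  have h1 : HasFDerivAt (fun z : Cfg (m + 1) => η (z i))
      ((fderiv ℝ η (z i)).comp (ContinuousLinearMap.proj i)) z :=
    (hη _).hasFDerivAt.comp z
      (ContinuousLinearMap.proj (R := ℝ) (φ := fun _ : Fin (m + 1) => Space) i).hasFDerivAt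
  have h2 : HasFDerivAt (fun z : Cfg (m + 1) => W fun k => z (i.succAbove k))
      ((fderiv ℝ W y).comp (ContinuousLinearMap.pi fun k =>
        ContinuousLinearMap.proj (R := ℝ) (φ := fun _ : Fin (m + 1) => Space) (i.succAbove k))) z :=
    (hW _).hasFDerivAt.comp z (ContinuousLinearMap.pi fun k =>
      ContinuousLinearMap.proj (R := ℝ) (φ := fun _ : Fin (m + 1) => Space)
        (i.succAbove k)).hasFDerivAt
  have h : HasFDerivAt (slotMul i η W) _ z := h1.mul h2
  constructor
  · intro a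
    rw [slotDeriv, h.fderiv]
    have e : (ContinuousLinearMap.pi fun k =>
        ContinuousLinearMap.proj (R := ℝ) (φ := fun _ : Fin (m + 1) => Space) (i.succAbove k))
          (Pi.single i (unit3 a)) = 0 := by
      funext k; simp [Fin.succAbove_ne]
    simp only [add_apply, smul_apply, ContinuousLinearMap.comp_apply,
      smul_eq_mul, e, map_zero, mul_zero, zero_add, ContinuousLinearMap.proj_apply,
      Pi.single_eq_same, deriv3]
    ring
  · intro k a
    rw [slotDeriv, h.fderiv]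
    have e : (ContinuousLinearMap.pi fun k =>
        ContinuousLinearMap.proj (R := ℝ) (φ := fun _ : Fin (m + 1) => Space) (i.succAbove k))
          (Pi.single (i.succAbove k) (unit3 a)) = Pi.single k (unit3 a) := by
      funext j; simp [Pi.single_apply, Fin.succAbove_right_inj]
    simp only [add_apply, smul_apply, ContinuousLinearMap.comp_apply,
      smul_eq_mul, e, ContinuousLinearMap.proj_apply, Pi.single_apply, (Fin.succAbove_ne i k).symm,
      if_false, map_zero, mul_zero, add_zero]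
    rfl

theorem contDiff_slotMul (i : Fin (m + 1)) {η : Space → ℝ} {W : Cfg m → ℝ}
    (hη : ContDiff ℝ 1 η) (hW : ContDiff ℝ 1 W) : ContDiff ℝ 1 (slotMul i η W) :=
  (hη.comp (contDiff_apply ℝ Space i)).mul
    (hW.comp (contDiff_pi.2 fun k => contDiff_apply ℝ Space (i.succAbove k)))

theorem isMult_slotMul (i : Fin (m + 1)) {η : Space → ℝ} (hη : ContDiff ℝ 1 η)
    (hc : HasCompactSupport η) {W : Cfg m → ℝ} (hW : IsMult W) : IsMult (slotMul i η W) := by
  obtain ⟨A, hA⟩ := hc.exists_bound_of_continuous hη.continuous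
  obtain ⟨A', hA'⟩ := (hc.fderiv ℝ).exists_bound_of_continuous (hη.continuous_fderiv one_ne_zero)
  obtain ⟨B, hB, hB'⟩ := hW.bounded
  have hA0 : 0 ≤ A := (norm_nonneg _).trans (hA 0)
  have hA0' : 0 ≤ A' := (norm_nonneg _).trans (hA' 0)
  have hB0 : 0 ≤ B := (abs_nonneg _).trans (hB 0)
  refine ⟨contDiff_slotMul i hη hW.smooth, (A + A') * B, fun z => ?_, fun j a z => ?_⟩
  · rw [slotMul, abs_mul]
    exact mul_le_mul ((hA _).trans (le_add_of_nonneg_right hA0')) (hB _) (abs_nonneg _)
      (add_nonneg hA0 hA0')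
  · obtain ⟨h1, h2⟩ := hasFDerivAt_slotMul i (hη.differentiable one_ne_zero)
      (hW.smooth.differentiable one_ne_zero) z
    rcases Fin.eq_self_or_eq_succAbove i j with rfl | ⟨k, rfl⟩
    · rw [h1, abs_mul]
      refine mul_le_mul (le_trans ?_ (le_add_of_nonneg_left hA0)) (hB _) (abs_nonneg _)
        (add_nonneg hA0 hA0')
      exact (abs_deriv3_le a _).trans (hA' _)
    · rw [h2, abs_mul]
      exact mul_le_mul ((hA _).trans (le_add_of_nonneg_right hA0')) (hB' _ _ _) (abs_nonneg _)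
        (add_nonneg hA0 hA0')

theorem gradMul_slotMul_le (i : Fin (m + 1)) {η : Space → ℝ} (hη : Differentiable ℝ η)
    {W : Cfg m → ℝ} (hW : Differentiable ℝ W) {b : ℝ} (hb : ∀ y, gradMul W y ≤ b * W y ^ 2)
    (z : Cfg (m + 1)) :
    gradMul (slotMul i η W) z ≤
      (∑ a, deriv3 a η (z i) ^ 2 + b * η (z i) ^ 2) * (W fun k => z (i.succAbove k)) ^ 2 := by
  obtain ⟨h1, h2⟩ := hasFDerivAt_slotMul i hη hW z
  rw [gradMul, Fin.sum_univ_succAbove _ i]
  simp only [h1, h2, mul_pow, ← Finset.sum_mul, ← Finset.mul_sum]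
  rw [add_mul]
  refine add_le_add le_rfl ?_
  calc η (z i) ^ 2 * ∑ k, ∑ a, slotDeriv k a W (fun k => z (i.succAbove k)) ^ 2
      ≤ η (z i) ^ 2 * (b * (W fun k => z (i.succAbove k)) ^ 2) :=
        mul_le_mul_of_nonneg_left (hb _) (sq_nonneg _)
    _ = _ := by ring

/-- The integral of a product multiplier, one slice after the other. -/
theorem integral_slotMul (i : Fin (m + 1)) (θ : Space → ℝ) (W : Cfg m → ℝ)
    {F : Cfg (m + 1) → ℝ} (hF : Integrable fun z => slotMul i θ W z * F z) :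
    ∫ z, slotMul i θ W z * F z = ∫ x, θ x * ∫ y, W y * F (i.insertNth x y) := by
  rw [integral_split i hF]
  refine integral_congr_ae (Eventually.of_forall fun x => ?_)
  dsimp only
  rw [← integral_const_mul]
  simp only [slotMul_ins, mul_assoc]

/-- The repulsion of a distant point against an ion state, in the weighted norm, once the
monopole is taken out. -/
theorem IonBound.weight_repel_le {ε K : ℝ} {φ : Cfg 2 → ℝ} {Dφ : Fin 2 → Fin 3 → Cfg 2 → ℝ}
    (h : IonBound (2 * ε) K φ Dφ) (hε : 0 < ε) (hε1 : 2 * ε ≤ 1) {δ : ℝ} (hδ : 0 ≤ δ)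
    (x : Space) :
    ∃ c : ℝ, MemLp (fun y => weight ε δ y * ((repel x y - c) * φ y)) 2 ∧
      nrmN (fun y => weight ε δ y * ((repel x y - c) * φ y)) ≤
        (400 / ε ^ 2 + 40) * √K / (1 + ‖x‖ ^ 2) := by
  have hK := h.const_nonneg
  have h2ε : 0 < 2 * ε := by linarith
  have hφm := h.inH1.memLp.1
  have i0 := h.mem.integrable_sq
  have i1 := fun k => (h.hardy h2ε.le hε1 x k).1.integrable_sq
  have hH := fun k => (h.hardy h2ε.le hε1 x k).2
  have hwc : Continuous (weight ε δ) := by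
    rw [weight_eq_wexp]; exact (contDiff_wexp _ hδ).continuous
  have hwle : ∀ y, weight ε δ y ≤ weight ε 0 y := fun y => by
    simp only [weight_eq_wexp]; exact wexp_le_zero (fun _ => hε.le) hδ y
  have hw0 : ∀ y, 0 ≤ weight ε δ y := fun y => (Real.exp_pos _).le
  have hw2 : ∀ y, weight ε 0 y * weight ε 0 y = weight (2 * ε) 0 y := fun y => by
    simp only [weight, ← Real.exp_add]; congr 1; ring
  have hwm : ∀ y, weight ε 0 y ≤ weight (2 * ε) 0 y := fun y => by
    simp only [weight_eq_wexp]; exact wexp_mono (fun _ => by linarith) le_rfl y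
  by_cases hx : 1 ≤ ‖x‖
  · have hx0 : x ≠ 0 := by intro h0; rw [h0, norm_zero] at hx; linarith
    set c := 4 / ε ^ 2 / ‖x‖ ^ 2 with hc
    refine ⟨2 / ‖x‖, memLp_of_sq_le (B := (400 / ε ^ 2 + 40) * √K / (1 + ‖x‖ ^ 2))
      (hwc.aestronglyMeasurable.mul
        (((measurable_repel x).sub_const _).aestronglyMeasurable.mul hφm))
      ((((i0.const_mul 4).add (i1 0)).add (i1 1)).const_mul (3 * c ^ 2))
      (Eventually.of_forall fun y => ?_) (by positivity) ?_⟩
    · set W := weight (2 * ε) 0 y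
      have hW : 0 < W := Real.exp_pos _
      have hu := one_le_weight hε.le y
      have h2 : ∀ k, |weight ε δ y * ((1 / ‖x - y k‖ - 1 / ‖x‖) * φ y)| ≤
          c * |W * φ y| + c * |W * (φ y / ‖x - y k‖)| := by
        intro k
        obtain ⟨ha, hb, -⟩ := norms_le_weight hε y k
        have ha' : ‖y k‖ ≤ 4 / ε ^ 2 * weight ε 0 y := by
          refine ha.trans ?_
          rw [div_eq_mul_inv, mul_comm]
          refine mul_le_mul_of_nonneg_right ?_ (by linarith)
          rw [inv_eq_one_div, div_le_div_iff₀ hε (by positivity)]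
          nlinarith
        rw [abs_mul, abs_mul, abs_mul, abs_mul, abs_div, abs_norm, abs_of_pos hW,
          abs_of_nonneg (hw0 y)]
        calc weight ε δ y * (|1 / ‖x - y k‖ - 1 / ‖x‖| * |φ y|)
            ≤ weight ε 0 y * ((‖y k‖ / ‖x‖ ^ 2 + ‖y k‖ ^ 2 / (‖x‖ ^ 2 * ‖x - y k‖)) * |φ y|) := by
              refine mul_le_mul (hwle y) (mul_le_mul_of_nonneg_right
                (inv_dist_sub_le x (y k) hx0) (abs_nonneg _)) (by positivity) (by linarith)
          _ ≤ weight ε 0 y * ((4 / ε ^ 2 * weight ε 0 y / ‖x‖ ^ 2 +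
                4 / ε ^ 2 * weight ε 0 y / (‖x‖ ^ 2 * ‖x - y k‖)) * |φ y|) := by
              gcongr
          _ = _ := by simp only [W, ← hw2]; rw [hc]; ring
      have e : weight ε δ y * ((repel x y - 2 / ‖x‖) * φ y) =
          weight ε δ y * ((1 / ‖x - y 0‖ - 1 / ‖x‖) * φ y) +
          weight ε δ y * ((1 / ‖x - y 1‖ - 1 / ‖x‖) * φ y) := by
        simp only [repel, Fin.sum_univ_two]; ring
      have h3 : |weight ε δ y * ((repel x y - 2 / ‖x‖) * φ y)| ≤ c * (2 * |W * φ y|) +
          c * |W * (φ y / ‖x - y 0‖)| + c * |W * (φ y / ‖x - y 1‖)| := by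
        rw [e]; refine (abs_add_le _ _).trans ?_; linarith [h2 0, h2 1]
      have h4 := pow_le_pow_left₀ (abs_nonneg _) h3 2
      rw [sq_abs] at h4
      refine h4.trans ?_
      simp only [Pi.add_apply]
      rw [← sq_abs (W * φ y), ← sq_abs (W * (φ y / ‖x - y 0‖)), ← sq_abs (W * (φ y / ‖x - y 1‖))]
      generalize |W * φ y| = p
      generalize |W * (φ y / ‖x - y 0‖)| = q
      generalize |W * (φ y / ‖x - y 1‖)| = s
      nlinarith [mul_nonneg (sq_nonneg c) (sq_nonneg (2 * p - q)),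
        mul_nonneg (sq_nonneg c) (sq_nonneg (2 * p - s)),
        mul_nonneg (sq_nonneg c) (sq_nonneg (q - s))]
    · rw [integral_const_mul, integral_add' ((i0.const_mul 4).add (i1 0)) (i1 1),
        integral_add' (i0.const_mul 4) (i1 0), integral_const_mul]
      have e1 : c ^ 2 * (2500 * K) ≤ ((400 / ε ^ 2 + 40) * √K / (1 + ‖x‖ ^ 2)) ^ 2 := by
        have h5 : c * (50 * √K) ≤ (400 / ε ^ 2 + 40) * √K / (1 + ‖x‖ ^ 2) := by
          have h6 : 200 / ε ^ 2 / ‖x‖ ^ 2 ≤ (400 / ε ^ 2 + 40) / (1 + ‖x‖ ^ 2) := by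
            have hq : 0 ≤ 1 / ε ^ 2 := by positivity
            rw [div_le_div_iff₀ (by positivity) (by positivity),
              show 200 / ε ^ 2 = 200 * (1 / ε ^ 2) by ring,
              show 400 / ε ^ 2 = 400 * (1 / ε ^ 2) by ring]
            nlinarith [mul_le_mul hx hx zero_le_one (norm_nonneg x)]
          calc c * (50 * √K) = 200 / ε ^ 2 / ‖x‖ ^ 2 * √K := by rw [hc]; ring
            _ ≤ (400 / ε ^ 2 + 40) / (1 + ‖x‖ ^ 2) * √K :=
              mul_le_mul_of_nonneg_right h6 (Real.sqrt_nonneg _)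
            _ = _ := by ring
        refine le_trans (le_of_eq ?_) (pow_le_pow_left₀ (by positivity) h5 2)
        rw [mul_pow, mul_pow, Real.sq_sqrt hK]
        norm_num
      nlinarith [mul_le_mul_of_nonneg_left
        (show 4 * (∫ y, (weight (2 * ε) 0 y * φ y) ^ 2) +
          (∫ y, (weight (2 * ε) 0 y * (φ y / ‖x - y 0‖)) ^ 2) +
          (∫ y, (weight (2 * ε) 0 y * (φ y / ‖x - y 1‖)) ^ 2) ≤ 196 * K by
            linarith [h.le, hH 0, hH 1]) (sq_nonneg c), mul_nonneg (sq_nonneg c) hK]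
  · refine ⟨0, memLp_of_sq_le (B := (400 / ε ^ 2 + 40) * √K / (1 + ‖x‖ ^ 2))
      (hwc.aestronglyMeasurable.mul
        (((measurable_repel x).sub_const _).aestronglyMeasurable.mul hφm))
      (((i1 0).add (i1 1)).const_mul 2) (Eventually.of_forall fun y => ?_) (by positivity) ?_⟩
    · have h2 : ∀ k, (weight ε δ y * (1 / ‖x - y k‖ * φ y)) ^ 2 ≤
          (weight (2 * ε) 0 y * (φ y / ‖x - y k‖)) ^ 2 := fun k => by
        rw [one_div_mul_eq_div, mul_pow, mul_pow]
        exact mul_le_mul_of_nonneg_right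
          (pow_le_pow_left₀ (hw0 y) ((hwle y).trans (hwm y)) 2) (sq_nonneg _)
      simp only [repel, Fin.sum_univ_two, Pi.add_apply, sub_zero]
      nlinarith [h2 0, h2 1, sq_nonneg (weight ε δ y * (1 / ‖x - y 0‖ * φ y) -
        weight ε δ y * (1 / ‖x - y 1‖ * φ y))]
    · rw [integral_const_mul, integral_add' (i1 0) (i1 1)]
      have h5 : 20 * √K ≤ (400 / ε ^ 2 + 40) * √K / (1 + ‖x‖ ^ 2) := by
        rw [le_div_iff₀ (by positivity)]
        have h6 : 1 + ‖x‖ ^ 2 ≤ 2 := by
          nlinarith [norm_nonneg x, not_le.1 hx]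
        have hq : 0 ≤ 400 / ε ^ 2 := by positivity
        nlinarith [mul_le_mul_of_nonneg_left h6 (Real.sqrt_nonneg K),
          mul_nonneg hq (Real.sqrt_nonneg K), Real.sqrt_nonneg K]
      refine le_trans ?_ (pow_le_pow_left₀ (by positivity) h5 2)
      rw [mul_pow, Real.sq_sqrt hK]
      linarith [hH 0, hH 1]

end Vale.Agent.P363.Inter
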