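import Vale.Agent.P363.Inter.Slice.KatoSub
import Vale.Agent.P363.Inter.Slice.Proj
import Vale.Agent.P363.Inter.Slice.Repel
import Vale.Agent.P363.Inter.Slice.Cacc

/-!
P363, interacting side: the slice inequality of the excited part. Off the ion ground state the
ion costs the gap, and the repulsion enters only through its variation over the ion.
-/

noncomputable section

namespace Vale.Agent.P363.Inter

open MeasureTheory Filter Set
open scoped BigOperators Topology

theorem gradMul_one {n : ℕ} (y : Cfg n) : gradMul (fun _ : Cfg n => (1 : ℝ)) y = 0 := by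
  simp [gradMul, slotDeriv]

theorem slNorm_zero_eq_uPerp (χ : Cfg 2 → ℝ) (f : Cfg 3 → ℝ) :
    slNorm 0 (fun z => wL 0 (fun _ : Cfg 2 => (1 : ℝ)) z * perpF 0 χ f z) = uPerp χ f := by
  funext x
  simp only [slNorm, uPerp, nrmN, ipN, wL_ins, one_mul, perpF_ins_zero]
  congr 1
  exact integral_congr_ae (Eventually.of_forall fun y => sq (perp χ f x y))

/-- The repulsion paired with the excited part: only its variation over the ion is seen. -/
theorem perp_pair {χ : Cfg 2 → ℝ} {f : Cfg 3 → ℝ} {lam c B : ℝ} {x : Space} (hlam : 0 ≤ lam)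
    (hχ : MemLp χ 2) (hv : MemLp (fun y => (repel x y - c) * χ y) 2)
    (hB : nrmN (fun y => (repel x y - c) * χ y) ≤ B) (hP : MemLp (perp χ f x) 2)
    (h0 : ipN χ (perp χ f x) = 0) :
    |∫ y, perpR 0 lam χ f ((0 : Fin 3).insertNth x y) * perpF 0 χ f ((0 : Fin 3).insertNth x y)| ≤
      lam * |amp χ f x| * B * uPerp χ f x := by
  set A := amp χ f x with hA
  have i1 : Integrable fun y => χ y * perp χ f x y := hχ.integrable_mul hP
  have i2 : Integrable fun y => (repel x y - c) * χ y * perp χ f x y := hv.integrable_mul hP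
  have e : ∫ y, perpR 0 lam χ f ((0 : Fin 3).insertNth x y) *
      perpF 0 χ f ((0 : Fin 3).insertNth x y) =
      lam * (rAmp 0 χ f x - A * c) * ipN χ (perp χ f x) -
        lam * A * ipN (fun y => (repel x y - c) * χ y) (perp χ f x) := by
    simp only [ipN]
    rw [← integral_const_mul, ← integral_const_mul,
      ← integral_sub (i1.const_mul _) (i2.const_mul _)]
    refine integral_congr_ae (Eventually.of_forall fun y => ?_)
    have hAs : A = slIp 0 χ f x := rfl
    simp only [perpR, tenF_ins, repelN_ins, perpF_ins_zero, ← hAs]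
    ring
  rw [e, h0, mul_zero, zero_sub, abs_neg, abs_mul, abs_mul, abs_of_nonneg hlam, mul_assoc _ B]
  refine mul_le_mul_of_nonneg_left ?_ (by positivity)
  refine (abs_integral_mul_le hv hP).trans ?_
  rw [← nrmN_eq_sqrt, ← nrmN_eq_sqrt]
  exact mul_le_mul_of_nonneg_right hB (nrmN_nonneg _)

/-- The differential inequality of the excited part. -/
theorem perpStmt : PerpStmt := by
  intro l g u Dg Du eg eu e' hZ C
  obtain ⟨lam₀, εR, K, hl₀, -, hrep⟩ := repelStmt l g u Dg Du eg eu e' hZ C
  refine ⟨lam₀, 2 * |K|, hl₀, fun lam hlam E3 f D E2 χ Dχ Es χs Ds Et χt Dt hM => ?_⟩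
  have hR := (hrep lam hlam E3 f D E2 χ Dχ Es χs Ds Et χt Dt hM).2
  have hχ := hM.ion.lowest.inH1
  have hf := hM.three.lowest.inH1
  have h1 : ∫ y, χ y ^ 2 = 1 := hM.ion.lowest.mass_one
  obtain ⟨φ, hφ⟩ := inH1_perpF hf hχ 0
  set b := (eu - eg) / 2 with hb
  set S : Space → ℝ := fun x => 2 * |K| * lam / (1 + ‖x‖ ^ 2) * |amp χ f x| with hS
  have hb0 : 0 ≤ b := by rw [hb]; linarith [hZ.eg_lt]
  have hSc : Continuous fun x : Space => 2 * |K| * lam / (1 + ‖x‖ ^ 2) :=
    continuous_const.div (continuous_const.add (continuous_norm.pow 2)) fun x => by positivity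
  have horth := slIp_perpF hf.memLp hχ.memLp h1 0
  have hd : SliceData 0 l lam E3 (perpF 0 χ f) (perpD 0 χ Dχ f D) (perpR 0 lam χ f) φ
      (fun _ => 1) χ 0 b univ (fun _ => E2 + b) S := {
    open_U := isOpen_univ
    approx := hφ
    solves := solves_perpF hf hM.three.lowest.solves hχ hM.ion.lowest.solves 0
    R_mem := memLp_perpR hf hχ 0 lam
    mult := isMult_one
    grad_le := fun y => by simp [gradMul_one]
    χ_mem := hχ.memLp
    χ_norm := h1.le
    b_nonneg := hb0
    a_cont := continuousOn_const
    S_mem := (LocMemLp.of_memLp (U := univ) (memLp_slIp (i := (0 : Fin 3)) hχ.memLp hf.memLp).abs)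
      |>.mul_continuousOn hSc.continuousOn
    S_nonneg := fun x => by
      have := hlam.1
      positivity
    lower := fun k x _ => by
      simp only [one_mul]
      set ψ : Cfg 2 → ℝ := fun y => φ k ((0 : Fin 3).insertNth x y) with hψ
      have hg := hM.gap ψ ((hφ.c1 k).sliceY 0 x).realTest
      simp only [ipN, ← sq] at hg
      have h2 : 0 ≤ lam * ∫ y, repel x y * ψ y ^ 2 :=
        mul_nonneg hlam.1.le (integral_nonneg fun y => mul_nonneg
          (Finset.sum_nonneg fun _ _ => by positivity) (sq_nonneg _))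
      simp only [hψ, ← hb] at hg h2 ⊢
      linarith
    pair := by
      filter_upwards [horth, memLp_slices 0 (inH1_perpF hf hχ 0).memLp] with x hx0 hx _
      have hP : MemLp (perp χ f x) 2 := by simpa only [perpF_ins_zero] using hx
      have h0 : ipN χ (perp χ f x) = 0 := by
        simpa only [slIp, ipN, perpF_ins_zero] using hx0
      obtain ⟨hm, hn, hfar⟩ := (hR x).1 χ (by simp)
      rw [slNorm_zero_eq_uPerp]
      simp only [one_pow, one_mul, hS]
      rw [show 2 * |K| * lam / (1 + ‖x‖ ^ 2) * |amp χ f x| =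
        lam * |amp χ f x| * (2 * |K| / (1 + ‖x‖ ^ 2)) by ring]
      by_cases h : 1 ≤ ‖x‖
      · refine perp_pair (c := 2 / ‖x‖) hlam.1.le hχ.memLp ?_ ?_ hP h0
        · refine (hm.sub (hχ.memLp.const_mul (2 / ‖x‖))).ae_eq (Eventually.of_forall fun y => ?_)
          simp only [Pi.sub_apply]
          ring
        · refine (hfar h).trans ?_
          have hpos : 0 < ‖x‖ ^ 2 := by positivity
          rw [div_le_div_iff₀ hpos (by positivity)]
          nlinarith [le_abs_self K, abs_nonneg K, one_le_pow₀ h (n := 2)]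
      · refine perp_pair (c := 0) hlam.1.le hχ.memLp (by simpa only [sub_zero] using hm) ?_ hP h0
        simp only [sub_zero]
        refine hn.trans ?_
        rw [le_div_iff₀ (by positivity)]
        nlinarith [le_abs_self K, abs_nonneg K, pow_le_one₀ (norm_nonneg x) (not_le.1 h).le (n := 2)] }
  have hsub := hd.subsol
  rw [slNorm_zero_eq_uPerp] at hsub
  refine hsub.weaken ?_ ?_ isOpen_univ
  · refine hsub.2.1.congr ?_
    rw [Measure.restrict_univ]
    filter_upwards [horth] with x hx
    simp only [slIp, wL_ins, one_mul] at hx ⊢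
    rw [hx, abs_zero]
    simp only [hS, hb]
    ring
  · rw [Measure.restrict_univ]
    filter_upwards [horth] with x hx
    simp only [slIp, wL_ins, one_mul] at hx ⊢
    rw [hx, abs_zero]
    simp only [hS, hb]
    linarith

end Vale.Agent.P363.Inter
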