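import Vale.Agent.P363.Inter.Slice.Cacc

/-!
P363, interacting side: Caccioppoli inequality seen from one electron, and the pairings of the
ion source with the excited part of a slice.
-/

noncomputable section

namespace Vale.Agent.P363.Inter

open MeasureTheory Filter Set
open scoped BigOperators Topology

variable {m : ℕ} {h : Cfg (m + 1) → ℝ} {H : Fin (m + 1) → Fin 3 → Cfg (m + 1) → ℝ}
  {R : Cfg (m + 1) → ℝ} {l lam E : ℝ}

/-- A cut off weighted square, slice by slice. -/
theorem slot_sq (i : Fin (m + 1)) {η : Space → ℝ} (hη : ContDiff ℝ 1 η) (hc : HasCompactSupport η)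
    {W : Cfg m → ℝ} (hW : IsMult W) {g : Cfg (m + 1) → ℝ} (hg : MemLp g 2) :
    MemLp (fun z => slotMul i η W z * g z) 2 ∧
      Integrable (fun x => η x ^ 2 * ∫ y, (W y * g (i.insertNth x y)) ^ 2) ∧
      ∫ z, (slotMul i η W z * g z) ^ 2 = ∫ x, η x ^ 2 * ∫ y, (W y * g (i.insertNth x y)) ^ 2 := by
  have hm := (isMult_slotMul i hη hc hW).memLp_mul hg
  have e : ∀ x, ∫ y, (slotMul i η W (i.insertNth x y) * g (i.insertNth x y)) ^ 2 =
      η x ^ 2 * ∫ y, (W y * g (i.insertNth x y)) ^ 2 := fun x => by
    rw [← integral_const_mul]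
    refine integral_congr_ae (Eventually.of_forall fun y => ?_)
    simp only [slotMul_ins]
    ring
  refine ⟨hm, (integrable_slices i hm.integrable_sq).2.congr (Eventually.of_forall e), ?_⟩
  rw [integral_split i hm.integrable_sq]
  exact integral_congr_ae (Eventually.of_forall e)

/-- The Caccioppoli inequality seen from electron `i`. -/
theorem energy_slot (hh : InH1 h H) (hlam : 0 ≤ lam) (hR : MemLp R 2)
    (hs : Solves l lam E h H R) (i : Fin (m + 1)) {η : Space → ℝ} (hη : IsBump Set.univ η)
    {W : Cfg m → ℝ} (hW : IsMult W) {b : ℝ} (hb : ∀ y, gradMul W y ≤ b * W y ^ 2)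
    {N : Space → ℝ} (hN : Integrable fun x => η x ^ 2 * N x)
    (hT : ∀ᵐ x : Space,
      |∫ y, W y ^ 2 * (R (i.insertNth x y) * h (i.insertNth x y))| ≤ N x) :
    Integrable (fun x => (η x ^ 2 + ∑ a, deriv3 a η x ^ 2) *
        ∫ y, (W y * h (i.insertNth x y)) ^ 2) ∧
      ∫ x, η x ^ 2 * (∑ j, ∑ a, ∫ y, (W y * H j a (i.insertNth x y)) ^ 2) ≤
        (8 * (|E| + 16 * (m + 1)) + 6 * (1 + |b|)) *
          (∫ x, (η x ^ 2 + ∑ a, deriv3 a η x ^ 2) * ∫ y, (W y * h (i.insertNth x y)) ^ 2) +
        8 * ∫ x, η x ^ 2 * N x := by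
  have hη1 : ContDiff ℝ 1 η := hη.contDiff 1
  have hw := isMult_slotMul i hη1 hη.compact hW
  have hfm : MemLp h 2 := hh.memLp
  obtain ⟨hwf, iA, eA⟩ := slot_sq i hη1 hη.compact hW hfm
  set U : Space → ℝ := fun x => ∫ y, (W y * h (i.insertNth x y)) ^ 2
  have hU : ∀ x, 0 ≤ U x := fun x => integral_nonneg fun y => sq_nonneg _
  have iB : ∀ a, Integrable fun x => deriv3 a η x ^ 2 * U x := fun a =>
    (slot_sq i ((hη.deriv a).contDiff 1) (hη.deriv a).compact hW hfm).2.1
  have iBs : Integrable fun x => ∑ a, deriv3 a η x ^ 2 * U x :=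
    integrable_finsetSum _ fun a _ => iB a
  have iT : Integrable fun x => (η x ^ 2 + ∑ a, deriv3 a η x ^ 2) * U x := by
    simp only [add_mul, Finset.sum_mul]
    exact iA.add iBs
  refine ⟨iT, ?_⟩
  have hc := hs.cacc hh hlam hw
  have hD : ∀ j a, MemLp (H j a) 2 := fun j a => hh.grad_memLp j a
  have eL : ∑ j, ∑ a, ∫ z, (slotMul i η W z * H j a z) ^ 2 =
      ∫ x, η x ^ 2 * (∑ j, ∑ a, ∫ y, (W y * H j a (i.insertNth x y)) ^ 2) := by
    simp only [Finset.mul_sum]
    rw [integral_finsetSum _ fun j _ => integrable_finsetSum _ fun a _ =>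
      (slot_sq i hη1 hη.compact hW (hD j a)).2.1]
    refine Finset.sum_congr rfl fun j _ => ?_
    rw [integral_finsetSum _ fun a _ => (slot_sq i hη1 hη.compact hW (hD j a)).2.1]
    exact Finset.sum_congr rfl fun a _ => (slot_sq i hη1 hη.compact hW (hD j a)).2.2
  have hG : ∫ z, gradMul (slotMul i η W) z * h z ^ 2 ≤
      (1 + |b|) * ∫ x, (η x ^ 2 + ∑ a, deriv3 a η x ^ 2) * U x := by
    have sq_a : ∀ a, MemLp (fun z => slotMul i (deriv3 a η) W z * h z) 2 := fun a =>
      (slot_sq i ((hη.deriv a).contDiff 1) (hη.deriv a).compact hW hfm).1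
    have hbound : Integrable fun z => (∑ a, (slotMul i (deriv3 a η) W z * h z) ^ 2) +
        |b| * (slotMul i η W z * h z) ^ 2 :=
      (integrable_finsetSum _ fun a _ => (sq_a a).integrable_sq).add
        (hwf.integrable_sq.const_mul _)
    have hint : Integrable fun z => gradMul (slotMul i η W) z * h z ^ 2 := by
      have h2 : ∀ j a, Integrable fun z => slotDeriv j a (slotMul i η W) z ^ 2 * h z ^ 2 :=
        fun j a => (hw.memLp_deriv_mul hfm j a).integrable_sq.congr
          (Eventually.of_forall fun z => mul_pow _ _ _)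
      simp only [gradMul, Finset.sum_mul]
      exact integrable_finsetSum _ fun j _ => integrable_finsetSum _ fun a _ => h2 j a
    refine (integral_mono hint hbound fun z => ?_).trans ?_
    · refine (mul_le_mul_of_nonneg_right
        (gradMul_slotMul_le i hη.differentiable (hW.smooth.differentiable one_ne_zero) hb z)
        (sq_nonneg _)).trans ?_
      simp only [slotMul, mul_pow, ← Finset.sum_mul]
      nlinarith [le_abs_self b, mul_nonneg (mul_nonneg (sq_nonneg (η (z i)))
        (sq_nonneg (W fun k => z (i.succAbove k)))) (sq_nonneg (h z))]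
    · rw [integral_add (integrable_finsetSum _ fun a _ => (sq_a a).integrable_sq)
        (hwf.integrable_sq.const_mul _), integral_const_mul, eA,
        integral_finsetSum _ fun a _ => (sq_a a).integrable_sq]
      simp only [fun a => (slot_sq i ((hη.deriv a).contDiff 1) (hη.deriv a).compact hW hfm).2.2]
      rw [← integral_finsetSum _ fun a _ => iB a, ← integral_const_mul,
        ← integral_add iBs (iA.const_mul _), ← integral_const_mul]
      refine integral_mono (iBs.add (iA.const_mul _)) (iT.const_mul _) fun x => ?_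
      simp only [Pi.add_apply, U]
      rw [← Finset.sum_mul]
      have hs0 : 0 ≤ ∑ a, deriv3 a η x ^ 2 := Finset.sum_nonneg fun a _ => sq_nonneg _
      nlinarith [mul_nonneg (abs_nonneg b) (mul_nonneg hs0 (hU x)), mul_nonneg (sq_nonneg (η x)) (hU x)]
  have hT' : |∫ z, R z * (slotMul i η W z ^ 2 * h z)| ≤ ∫ x, η x ^ 2 * N x := by
    have hi : Integrable fun z => R z * (slotMul i η W z ^ 2 * h z) := by
      have h1 := hR.integrable_mul (hw.memLp_mul hwf)
      refine h1.congr (Eventually.of_forall fun z => ?_)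
      simp only [Pi.mul_apply]
      ring
    rw [integral_split i hi, ← Real.norm_eq_abs]
    refine norm_integral_le_of_norm_le hN ?_
    filter_upwards [hT] with x hx
    have e : ∫ y, R (i.insertNth x y) * (slotMul i η W (i.insertNth x y) ^ 2 * h (i.insertNth x y)) =
        η x ^ 2 * ∫ y, W y ^ 2 * (R (i.insertNth x y) * h (i.insertNth x y)) := by
      rw [← integral_const_mul]
      refine integral_congr_ae (Eventually.of_forall fun y => ?_)
      simp only [slotMul_ins]
      ring
    rw [Real.norm_eq_abs, e, abs_mul, abs_of_nonneg (sq_nonneg _)]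
    exact mul_le_mul_of_nonneg_left hx (sq_nonneg _)
  have hA : ∫ z, (slotMul i η W z * h z) ^ 2 ≤ ∫ x, (η x ^ 2 + ∑ a, deriv3 a η x ^ 2) * U x := by
    rw [eA]
    refine integral_mono iA iT fun x => mul_le_mul_of_nonneg_right ?_ (hU x)
    exact le_add_of_nonneg_right (Finset.sum_nonneg fun a _ => sq_nonneg _)
  rw [eL] at hc
  refine hc.trans ?_
  nlinarith [mul_le_mul_of_nonneg_left hA (show (0 : ℝ) ≤ 8 * (|E| + 16 * (m + 1)) by positivity)]

variable {χ F q W : Cfg 2 → ℝ} {c : ℝ}

/-- The ion source of the excited part paired with the weighted excited part. Here `q` is the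
repulsion, `c` its monopole, `p` the norm of the excited part and `w` its weighted norm. -/
theorem src_pair_le (hχ : MemLp χ 2) (h1 : ∫ y, χ y ^ 2 = 1) (hF : MemLp F 2)
    (hq : MemLp (fun y => (q y - c) * χ y) 2) (hWχ : MemLp (fun y => W y * χ y) 2)
    (hWq : MemLp (fun y => W y * ((q y - c) * χ y)) 2)
    (hWP : MemLp (fun y => W y * (F y - ipN χ F * χ y)) 2) :
    |∫ y, W y ^ 2 * ((ipN (fun y => q y * χ y) F * χ y - ipN χ F * (q y * χ y)) *
        (F y - ipN χ F * χ y))| ≤
      ((|ipN χ F| + √(∫ y, (F y - ipN χ F * χ y) ^ 2)) *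
          √(∫ y, ((q y - c) * χ y) ^ 2) * √(∫ y, (W y * χ y) ^ 2) +
        |ipN χ F| * √(∫ y, (W y * ((q y - c) * χ y)) ^ 2)) *
        √(∫ y, (W y * (F y - ipN χ F * χ y)) ^ 2) := by
  set A := ipN χ F
  set P : Cfg 2 → ℝ := fun y => F y - A * χ y
  have hP : MemLp P 2 := hF.sub (hχ.const_mul A)
  set s := ∫ y, (q y - c) * χ y * F y
  have hint : ∀ {u v : Cfg 2 → ℝ}, MemLp u 2 → MemLp v 2 → Integrable fun y => u y * v y :=
    fun hu hv => hu.integrable_mul hv
  have hs1 : ipN (fun y => q y * χ y) F = s + c * A := by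
    simp only [s, A, ipN]
    rw [← integral_const_mul, ← integral_add (hint hq hF)
      ((hint hχ hF).const_mul c)]
    exact integral_congr_ae (Eventually.of_forall fun y => by ring)
  have e : ∫ y, W y ^ 2 * ((ipN (fun y => q y * χ y) F * χ y - A * (q y * χ y)) * P y) =
      s * (∫ y, W y * χ y * (W y * P y)) -
        A * ∫ y, W y * ((q y - c) * χ y) * (W y * P y) := by
    rw [hs1, ← integral_const_mul, ← integral_const_mul,
      ← integral_sub ((hint hWχ hWP).const_mul s) ((hint hWq hWP).const_mul A)]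
    exact integral_congr_ae (Eventually.of_forall fun y => by ring)
  have hs : |s| ≤ (|A| + √(∫ y, P y ^ 2)) * √(∫ y, ((q y - c) * χ y) ^ 2) := by
    have e2 : s = (∫ y, (q y - c) * χ y * P y) + A * ∫ y, (q y - c) * χ y * χ y := by
      rw [← integral_const_mul, ← integral_add (hint hq hP) ((hint hq hχ).const_mul A)]
      exact integral_congr_ae (Eventually.of_forall fun y => by simp only [P]; ring)
    rw [e2]
    refine (abs_add_le _ _).trans ?_
    rw [abs_mul]
    have i1 := abs_integral_mul_le hq hP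
    have i2 := abs_integral_mul_le hq hχ
    rw [h1, Real.sqrt_one, mul_one] at i2
    nlinarith [mul_le_mul_of_nonneg_left i2 (abs_nonneg A)]
  rw [e]
  refine (abs_sub _ _).trans ?_
  rw [abs_mul, abs_mul]
  have i1 := abs_integral_mul_le hWχ hWP
  have i2 := abs_integral_mul_le hWq hWP
  have t1 := mul_le_mul hs i1 (abs_nonneg _) (by positivity)
  have t2 := mul_le_mul_of_nonneg_left i2 (abs_nonneg A)
  nlinarith

/-- The ion source paired with the ion part. -/
theorem src_pair_amp_le (hχ : MemLp χ 2) (h1 : ∫ y, χ y ^ 2 = 1) (hF : MemLp F 2)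
    (hq : MemLp (fun y => (q y - c) * χ y) 2) :
    |∫ y, (ipN χ F * (q y * χ y) - ipN (fun y => q y * χ y) F * χ y) * (ipN χ F * χ y)| ≤
      |ipN χ F| * (√(∫ y, ((q y - c) * χ y) ^ 2) * √(∫ y, (F y - ipN χ F * χ y) ^ 2)) := by
  set A := ipN χ F
  set P : Cfg 2 → ℝ := fun y => F y - A * χ y
  have hP : MemLp P 2 := hF.sub (hχ.const_mul A)
  have hint : ∀ {u v : Cfg 2 → ℝ}, MemLp u 2 → MemLp v 2 → Integrable fun y => u y * v y :=
    fun hu hv => hu.integrable_mul hv
  have hs1 : ipN (fun y => q y * χ y) F = (∫ y, (q y - c) * χ y * F y) + c * A := by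
    simp only [A, ipN]
    rw [← integral_const_mul, ← integral_add (hint hq hF)
      ((hint hχ hF).const_mul c)]
    exact integral_congr_ae (Eventually.of_forall fun y => by ring)
  set s := ∫ y, (q y - c) * χ y * F y
  have e : ∫ y, (A * (q y * χ y) - ipN (fun y => q y * χ y) F * χ y) * (A * χ y) =
      -(A * ∫ y, (q y - c) * χ y * P y) := by
    have e2 : ∫ y, (q y - c) * χ y * P y = s - A * ∫ y, (q y - c) * χ y * χ y := by
      rw [← integral_const_mul, ← integral_sub (hint hq hF)
        ((hint hq hχ).const_mul A)]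
      exact integral_congr_ae (Eventually.of_forall fun y => by
        simp only [P]; ring)
    have e3 : ∫ y, (A * (q y * χ y) - ipN (fun y => q y * χ y) F * χ y) * (A * χ y) =
        A * A * (∫ y, (q y - c) * χ y * χ y) + A * (A * c - (s + c * A)) * ∫ y, χ y ^ 2 := by
      rw [hs1, ← integral_const_mul, ← integral_const_mul,
        ← integral_add ((hint hq hχ).const_mul _) (hχ.integrable_sq.const_mul _)]
      exact integral_congr_ae (Eventually.of_forall fun y => by ring)
    rw [e3, e2, h1]
    ring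
  rw [e, abs_neg, abs_mul]
  exact mul_le_mul_of_nonneg_left (abs_integral_mul_le hq hP) (abs_nonneg _)

end Vale.Agent.P363.Inter
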