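import Vale.Agent.P363.Inter.Slice.KatoSub
import Vale.Agent.P363.Inter.Slice.EnergyBase
import Vale.Agent.P363.Inter.Slice.Proj

/-!
P363, interacting side: the weighted excited part of a slice is a subsolution.
-/

noncomputable section

namespace Vale.Agent.P363.Inter

open MeasureTheory Filter Set
open scoped BigOperators Topology

theorem amp_eq_slIp (χ : Cfg 2 → ℝ) (f : Cfg 3 → ℝ) : amp χ f = slIp 0 χ f := rfl

theorem uPerp_eq_slNorm (χ : Cfg 2 → ℝ) (f : Cfg 3 → ℝ) :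
    uPerp χ f = slNorm 0 (perpF 0 χ f) := by
  funext x
  simp only [uPerp, nrmN_eq_sqrt, slNorm, perpF_ins_zero]

theorem uWeight_eq_slNorm (ε δ : ℝ) (χ : Cfg 2 → ℝ) (f : Cfg 3 → ℝ) :
    uWeight ε δ χ f = slNorm 0 fun z => wL 0 (weight ε δ) z * perpF 0 χ f z := by
  funext x
  simp only [uWeight, nrmN_eq_sqrt, slNorm, perpF_ins_zero, wL_ins]

theorem weight_le_of_le {ε ε' δ : ℝ} (hδ : 0 ≤ δ) (h : ε ≤ ε') (y : Cfg 2) :
    weight ε δ y ≤ weight ε' δ y := by
  simp only [weight_eq_wexp]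
  exact wexp_mono (fun _ => h) hδ y

theorem weight_pos (ε δ : ℝ) (y : Cfg 2) : 0 < weight ε δ y := Real.exp_pos _

theorem one_le_weight' {ε δ : ℝ} (hε : 0 ≤ ε) (hδ : 0 ≤ δ) (y : Cfg 2) : 1 ≤ weight ε δ y := by
  rw [weight_eq_wexp]
  exact one_le_wexp (fun _ => hε) hδ y

/-- The norm of a function below another in absolute value. -/
theorem sqrt_integral_sq_mono {n : ℕ} {F G : Cfg n → ℝ} (hF : AEStronglyMeasurable F)
    (hG : MemLp G 2) (h : ∀ y, |F y| ≤ |G y|) :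
    MemLp F 2 ∧ √(∫ y, F y ^ 2) ≤ √(∫ y, G y ^ 2) := by
  have hF' : MemLp F 2 := hG.mono hF (Eventually.of_forall fun y => h y)
  exact ⟨hF', Real.sqrt_le_sqrt
    (integral_mono hF'.integrable_sq hG.integrable_sq fun y => sq_le_sq.2 (h y))⟩

variable {l lam E3 E2 C eg eu : ℝ} {g u : Space → ℝ} {Dg Du : Fin 3 → Space → ℝ}
  {f : Cfg 3 → ℝ} {D : Fin 3 → Fin 3 → Cfg 3 → ℝ} {χ : Cfg 2 → ℝ}
  {Dχ : Fin 2 → Fin 3 → Cfg 2 → ℝ} {Es Et : ℝ} {χs χt : Cfg 2 → ℝ}
  {Ds Dt : Fin 2 → Fin 3 → Cfg 2 → ℝ}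

/-- The gap of the ion, as a lower bound on test functions. -/
theorem MolState.ion_lower (hM : MolState l lam C g u Dg Du eg eu E3 f D E2 χ Dχ Es χs Ds Et χt Dt)
    (hlam : 0 ≤ lam) {θ : Cfg 2 → ℝ} (hθ : IsC1 θ) (x : Space) :
    (E2 + (eu - eg) / 2) * (∫ y, θ y ^ 2) - (eu - eg) / 2 * (∫ y, χ y * θ y) ^ 2 ≤
      formQ l lam θ + lam * ∫ y, repel x y * θ y ^ 2 := by
  have h := hM.gap θ hθ.realTest
  simp only [ipN, ← sq] at h
  have h2 : 0 ≤ lam * ∫ y, repel x y * θ y ^ 2 :=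
    mul_nonneg hlam (integral_nonneg fun y =>
      mul_nonneg (Finset.sum_nonneg fun k _ => by positivity) (sq_nonneg _))
  linarith

/-- The weighted source of the excited part in one slice. -/
theorem weight_pair_le {ε₀ K ε δ : ℝ} (hb : IonBound (2 * ε₀) K χ Dχ) (h1 : ∫ y, χ y ^ 2 = 1)
    (hε₀ : 0 < ε₀) (hε₁ : 2 * ε₀ ≤ 1) (hε : 0 ≤ ε) (hε' : ε ≤ ε₀) (hδ : 0 < δ)
    (hlam : 0 ≤ lam) {x : Space} (hF : MemLp (slice 0 f x) 2) :
    |∫ y, perpR 0 lam χ f (Fin.insertNth 0 x y) *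
        (weight ε δ y ^ 2 * perpF 0 χ f (Fin.insertNth 0 x y))| ≤
      lam * ((√K + 1) * ((400 / ε₀ ^ 2 + 40) * √K / (1 + ‖x‖ ^ 2)) *
          (|amp χ f x| + uPerp χ f x)) *
        slNorm 0 (fun z => wL 0 (weight ε δ) z * perpF 0 χ f z) x := by
  have hK := hb.const_nonneg
  have hχ := hb.inH1.memLp
  set W := weight ε δ with hWdef
  have hW : IsMult W := by
    rw [hWdef, weight_eq_wexp]; exact isMult_wexp _ hδ
  obtain ⟨c, hcm, hcn⟩ := hb.weight_repel_le hε₀ hε₁ hδ.le x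
  have hWle : ∀ y, W y ≤ weight ε₀ δ y := fun y => weight_le_of_le hδ.le hε' y
  have hW1 : ∀ y, 1 ≤ W y := fun y => one_le_weight' hε hδ.le y
  have hq : MemLp (fun y => (repel x y - c) * χ y) 2 ∧
      √(∫ y, ((repel x y - c) * χ y) ^ 2) ≤
        √(∫ y, (weight ε₀ δ y * ((repel x y - c) * χ y)) ^ 2) := by
    refine sqrt_integral_sq_mono
      (((measurable_repel x).sub_const _).aestronglyMeasurable.mul hχ.1) hcm fun y => ?_
    rw [abs_mul (weight ε₀ δ y), abs_of_pos (weight_pos _ _ _)]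
    exact le_mul_of_one_le_left (abs_nonneg _) ((hW1 y).trans (hWle y))
  have hWq : MemLp (fun y => W y * ((repel x y - c) * χ y)) 2 ∧
      √(∫ y, (W y * ((repel x y - c) * χ y)) ^ 2) ≤
        √(∫ y, (weight ε₀ δ y * ((repel x y - c) * χ y)) ^ 2) := by
    refine sqrt_integral_sq_mono (hW.smooth.continuous.aestronglyMeasurable.mul
      (((measurable_repel x).sub_const _).aestronglyMeasurable.mul hχ.1)) hcm fun y => ?_
    rw [abs_mul, abs_mul, abs_mul (weight ε₀ δ y), abs_mul, abs_of_pos (weight_pos _ _ _),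
      abs_of_pos (weight_pos _ _ _)]
    exact mul_le_mul_of_nonneg_right (hWle y) (by positivity)
  have hWχ : MemLp (fun y => W y * χ y) 2 ∧
      √(∫ y, (W y * χ y) ^ 2) ≤ √(∫ y, (weight (2 * ε₀) 0 y * χ y) ^ 2) := by
    refine sqrt_integral_sq_mono (hW.smooth.continuous.aestronglyMeasurable.mul hχ.1) hb.mem
      fun y => ?_
    rw [abs_mul, abs_mul, abs_of_pos (weight_pos _ _ _), abs_of_pos (weight_pos _ _ _)]
    refine mul_le_mul_of_nonneg_right ((hWle y).trans ?_) (abs_nonneg _)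
    refine le_trans ?_ (weight_le_of_le (ε := ε₀) le_rfl (by linarith) y)
    simp only [weight_eq_wexp]
    exact wexp_le_zero (fun _ => hε₀.le) hδ.le y
  have hP : MemLp (fun y => slice 0 f x y - ipN χ (slice 0 f x) * χ y) 2 :=
    hF.sub (hχ.const_mul _)
  have hmain := src_pair_le (W := W) (q := repel x) (c := c) hχ h1 hF hq.1 hWχ.1 hWq.1
    (hW.memLp_mul hP)
  set A := ipN χ (slice 0 f x)
  set B := (400 / ε₀ ^ 2 + 40) * √K / (1 + ‖x‖ ^ 2)
  have hB : √(∫ y, (weight ε₀ δ y * ((repel x y - c) * χ y)) ^ 2) ≤ B := by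
    rw [← nrmN_eq_sqrt]; exact hcn
  have hu : uPerp χ f x = √(∫ y, (slice 0 f x y - A * χ y) ^ 2) := by
    rw [uPerp, nrmN_eq_sqrt]; rfl
  have hn : slNorm 0 (fun z => wL 0 W z * perpF 0 χ f z) x =
      √(∫ y, (W y * (slice 0 f x y - A * χ y)) ^ 2) := by
    rw [← uWeight_eq_slNorm, uWeight, nrmN_eq_sqrt]; rfl
  have e : ∀ y, perpR 0 lam χ f (Fin.insertNth 0 x y) *
      (W y ^ 2 * perpF 0 χ f (Fin.insertNth 0 x y)) =
      lam * (W y ^ 2 * ((ipN (fun y => repel x y * χ y) (slice 0 f x) * χ y -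
        A * (repel x y * χ y)) * (slice 0 f x y - A * χ y))) := fun y => by
    rw [perpF_ins_zero]
    simp only [perpR, tenF_ins, repelN_ins, rAmp_eq]
    rw [show slIp 0 χ f x = A from rfl, show perp χ f x y = slice 0 f x y - A * χ y from rfl]
    ring
  simp only [e]
  rw [integral_const_mul, abs_mul, abs_of_nonneg hlam, hn, hu, show amp χ f x = A from rfl,
    mul_assoc lam]
  refine mul_le_mul_of_nonneg_left (hmain.trans ?_) hlam
  set p := √(∫ y, (slice 0 f x y - A * χ y) ^ 2)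
  refine mul_le_mul_of_nonneg_right ?_ (Real.sqrt_nonneg _)
  have hs : √(∫ y, (weight (2 * ε₀) 0 y * χ y) ^ 2) ≤ √K := Real.sqrt_le_sqrt hb.le
  have hA := abs_nonneg A
  have hp : 0 ≤ p := Real.sqrt_nonneg _
  have hB0 : 0 ≤ B := by positivity
  have t1 : (|A| + p) * √(∫ y, ((repel x y - c) * χ y) ^ 2) * √(∫ y, (W y * χ y) ^ 2) ≤
      (|A| + p) * B * √K :=
    mul_le_mul (mul_le_mul_of_nonneg_left (hq.2.trans hB) (by positivity))
      (hWχ.2.trans hs) (Real.sqrt_nonneg _) (by positivity)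
  have t2 : |A| * √(∫ y, (W y * ((repel x y - c) * χ y)) ^ 2) ≤ |A| * B :=
    mul_le_mul_of_nonneg_left (hWq.2.trans hB) hA
  nlinarith [mul_nonneg hp hB0]

/-- The weighted excited part. -/
theorem weightStmt : WeightStmt := by
  intro l g u Dg Du eg eu e' hZ C
  obtain ⟨lam₀, εd, K, hl, hl1, hεd, hd⟩ := mol_decay hZ C
  have hgap : 0 < eu - eg := sub_pos.2 hZ.eg_lt
  set ε₀ := min (εd / 2) (min (1 / 2) (√((eu - eg) / 4)))
  have hε₀ : 0 < ε₀ := lt_min (half_pos hεd) (lt_min (by norm_num) (Real.sqrt_pos.2 (by linarith)))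
  have hε₁ : 2 * ε₀ ≤ 1 := by
    have : ε₀ ≤ 1 / 2 := (min_le_right _ _).trans (min_le_left _ _)
    linarith
  have hε₂ : ε₀ ^ 2 ≤ (eu - eg) / 4 := by
    have h : ε₀ ≤ √((eu - eg) / 4) := (min_le_right _ _).trans (min_le_right _ _)
    calc ε₀ ^ 2 ≤ √((eu - eg) / 4) ^ 2 := pow_le_pow_left₀ hε₀.le h 2
      _ = _ := Real.sq_sqrt (by linarith)
  set B₀ := (√K + 1) * ((400 / ε₀ ^ 2 + 40) * √K)
  have hB₀ : 0 ≤ B₀ := by positivity
  refine ⟨lam₀, ε₀, B₀ + (eu - eg) / 2 * √K, hl, hε₀,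
    fun lam hlam E3 f D E2 χ Dχ Es χs Ds Et χt Dt hM ε hε δ hδ => ?_⟩
  obtain ⟨-, hb, -, -⟩ := hd lam hlam _ _ _ _ _ _ _ _ _ _ _ _ hM (2 * ε₀)
    ⟨by linarith, by linarith [min_le_left (εd / 2) (min (1 / 2) (√((eu - eg) / 4)))]⟩
  have hlam0 : 0 ≤ lam := hlam.1.le
  have hlam1 : lam ≤ 1 := hlam.2.le.trans hl1
  have hf := hM.three.lowest.inH1
  have hχ := hM.ion.lowest.inH1
  have h1 : ∫ y, χ y ^ 2 = 1 := hM.ion.lowest.mass_one
  obtain ⟨φ, hφ⟩ := inH1_perpF hf hχ 0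
  set W := weight ε δ with hWdef
  have hW : IsMult W := by
    rw [hWdef, weight_eq_wexp]; exact isMult_wexp _ hδ
  have hgrad : ∀ y, gradMul W y ≤ 2 * ε ^ 2 * W y ^ 2 := fun y => by
    rw [hWdef, weight_eq_wexp]
    refine (gradMul_wexp_le _ hδ.le y).trans_eq ?_
    simp
  set ρ : Space → ℝ := fun x => B₀ / (1 + ‖x‖ ^ 2)
  have hρc : Continuous ρ := continuous_const.div (by fun_prop) fun x => by positivity
  set S : Space → ℝ := fun x => lam * ρ x * (|amp χ f x| + uPerp χ f x)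
  have hu0 : ∀ x, 0 ≤ uPerp χ f x := fun x => Real.sqrt_nonneg _
  have hmA : MemLp (amp χ f) 2 := by
    rw [amp_eq_slIp]; exact memLp_slIp hχ.memLp hf.memLp
  have hmP : MemLp (uPerp χ f) 2 := by
    rw [uPerp_eq_slNorm]; exact memLp_slNorm 0 hφ.val.lim_mem
  have hmS : LocMemLp 2 univ S :=
    (LocMemLp.of_memLp (hmA.abs.add hmP)).mul_continuousOn
      (φ := fun x => lam * ρ x) (continuous_const.mul hρc).continuousOn
  have d : SliceData 0 l lam E3 (perpF 0 χ f) (perpD 0 χ Dχ f D) (perpR 0 lam χ f) φ W χ (ε ^ 2)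
      ((eu - eg) / 2) univ (fun _ => E2 + (eu - eg) / 2) S := by
    refine ⟨isOpen_univ, hφ, solves_perpF hf hM.three.lowest.solves hχ hM.ion.lowest.solves 0,
      memLp_perpR hf hχ 0 lam, hW, hgrad, hχ.memLp, h1.le, by linarith,
      continuousOn_const, hmS,
      fun x => mul_nonneg (mul_nonneg hlam0 (by positivity)) (add_nonneg (abs_nonneg _) (hu0 x)),
      fun k x _ => hM.ion_lower hlam0 (((hφ.c1 k).sliceY 0 x).mul_left hW.smooth) x, ?_⟩
    filter_upwards [memLp_slices 0 hf.memLp] with x hx _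
    refine (weight_pair_le hb h1 hε₀ hε₁ hε.1.le hε.2 hδ hlam0 hx).trans (le_of_eq ?_)
    simp only [S, ρ, B₀]
    ring
  have key := d.subsol
  rw [← uWeight_eq_slNorm] at key
  have hb' : ∀ᵐ x : Space, |slIp 0 χ (fun z => wL 0 W z * perpF 0 χ f z) x| ≤
      √K * uPerp χ f x := by
    filter_upwards [memLp_slices 0 hφ.val.lim_mem] with x hx
    have hWχ := sqrt_integral_sq_mono (F := fun y => W y * χ y)
      (hW.smooth.continuous.aestronglyMeasurable.mul hχ.memLp.1) hb.mem fun y => by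
        rw [abs_mul, abs_mul, abs_of_pos (weight_pos _ _ _), abs_of_pos (weight_pos _ _ _)]
        refine mul_le_mul_of_nonneg_right ?_ (abs_nonneg _)
        refine le_trans ?_ (weight_le_of_le (ε := ε) le_rfl (by linarith [hε.2]) y)
        simp only [weight_eq_wexp]
        exact wexp_le_zero (fun _ => hε.1.le) hδ.le y
    have e : slIp 0 χ (fun z => wL 0 W z * perpF 0 χ f z) x =
        ∫ y, W y * χ y * perpF 0 χ f (Fin.insertNth 0 x y) := by
      simp only [slIp, wL_ins]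
      congr 1; funext y; ring
    rw [e]
    refine (abs_integral_mul_le hWχ.1 hx).trans (mul_le_mul (hWχ.2.trans (Real.sqrt_le_sqrt hb.le))
      (le_of_eq ?_) (Real.sqrt_nonneg _) (Real.sqrt_nonneg _))
    rw [uPerp_eq_slNorm]
    rfl
  refine key.weaken ?_ ?_ isOpen_univ
  · have hmW : MemLp (uWeight ε δ χ f) 2 := by
      rw [uWeight_eq_slNorm]; exact memLp_slNorm 0 d.lim_weight.1.lim_mem
    have hatt : MemLp (fun x => attract l x * uWeight ε δ χ f x) 2 := by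
      rw [uWeight_eq_slNorm]; exact d.lim_weight.2.lim_mem
    have h2 : LocMemLp 2 univ fun x => lam / (1 + ‖x‖ ^ 2) * |amp χ f x| :=
      (LocMemLp.of_memLp hmA.abs).mul_continuousOn
        (continuous_const.div (by fun_prop) fun x => by positivity).continuousOn
    refine LocMemLp.locallyIntegrableOn (fun Q hQ hQU => ?_) one_le_two isOpen_univ
    refine ((((hmW.const_mul (E2 + (eu - eg) / 4 - E3)).sub hatt).restrict Q |>.sub
      (((hmP.restrict Q).add (h2 Q hQ hQU)).const_mul (B₀ + (eu - eg) / 2 * √K))).const_mul 2).ae_eq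
        (Eventually.of_forall fun x => ?_)
    simp only [Pi.sub_apply, Pi.add_apply]; ring
  · filter_upwards [ae_restrict_of_ae hb'] with x hx
    have hw : 0 ≤ uWeight ε δ χ f x := Real.sqrt_nonneg _
    have hr1 : lam / (1 + ‖x‖ ^ 2) ≤ 1 :=
      (div_le_one (by positivity)).2 (by nlinarith [sq_nonneg ‖x‖])
    have eS : S x = B₀ * (lam / (1 + ‖x‖ ^ 2) * |amp χ f x| +
        lam / (1 + ‖x‖ ^ 2) * uPerp χ f x) := by
      simp only [S, ρ]; ring
    have h3 : ε ^ 2 ≤ (eu - eg) / 4 :=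
      (pow_le_pow_left₀ hε.1.le hε.2 2).trans hε₂
    rw [eS]
    have hr0 : 0 ≤ lam / (1 + ‖x‖ ^ 2) * |amp χ f x| := by positivity
    nlinarith [mul_nonneg (sub_nonneg.2 h3) hw, mul_le_mul_of_nonneg_left hx hgap.le,
      mul_le_mul_of_nonneg_right hr1 (mul_nonneg hB₀ (hu0 x)),
      mul_nonneg (mul_nonneg hgap.le (Real.sqrt_nonneg K)) hr0]

end Vale.Agent.P363.Inter
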