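import Vale.Agent.P363.Exist.One.L2Seq

/-!
P363, interacting side: mean square tools on an arbitrary measure space, for the slice estimates.
-/

noncomputable section

namespace Vale.Agent.P363.Inter

open MeasureTheory Filter
open scoped BigOperators Topology RealInnerProductSpace ENNReal

variable {X : Type*} [MeasurableSpace X] {μ : Measure X}

/-- The Cauchy-Schwarz inequality for integrals. -/
theorem abs_integral_mul_le {f g : X → ℝ} (hf : MemLp f 2 μ) (hg : MemLp g 2 μ) :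
    |∫ x, f x * g x ∂μ| ≤ √(∫ x, f x ^ 2 ∂μ) * √(∫ x, g x ^ 2 ∂μ) := by
  rw [← One.inner_toLp hf hg, ← One.norm_toLp_sq hf, ← One.norm_toLp_sq hg,
    Real.sqrt_sq (norm_nonneg _), Real.sqrt_sq (norm_nonneg _)]
  exact abs_real_inner_le_norm _ _

/-- Products of mean square convergent sequences converge in the mean. -/
theorem tendsto_mul_integral {f g : ℕ → X → ℝ} {F G : X → ℝ} (hf : ∀ k, MemLp (f k) 2 μ)
    (hF : MemLp F 2 μ) (hg : ∀ k, MemLp (g k) 2 μ) (hG : MemLp G 2 μ)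
    (h : Tendsto (fun k => ∫ x, (f k x - F x) ^ 2 ∂μ) atTop (𝓝 0))
    (h' : Tendsto (fun k => ∫ x, (g k x - G x) ^ 2 ∂μ) atTop (𝓝 0)) :
    Tendsto (fun k => ∫ x, f k x * g k x ∂μ) atTop (𝓝 (∫ x, F x * G x ∂μ)) := by
  have := ((One.tendsto_toLp_iff hf hF).1 h).inner (𝕜 := ℝ) ((One.tendsto_toLp_iff hg hG).1 h')
  simpa only [One.inner_toLp] using this

/-- A nonnegative limit almost everywhere of functions with bounded integrals is integrable. -/
theorem integrable_of_tendsto_bound {F : ℕ → X → ℝ} {f : X → ℝ} {K : ℕ → ℝ} {L : ℝ}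
    (hF : ∀ j, Integrable (F j) μ) (h0 : ∀ j, 0 ≤ᵐ[μ] F j)
    (hlim : ∀ᵐ x ∂μ, Tendsto (fun j => F j x) atTop (𝓝 (f x)))
    (hK : ∀ j, ∫ x, F j x ∂μ ≤ K j) (hL : Tendsto K atTop (𝓝 L)) :
    Integrable f μ ∧ ∫ x, f x ∂μ ≤ L := by
  have hf0 : 0 ≤ᵐ[μ] f := by
    filter_upwards [hlim, ae_all_iff.2 h0] with x hx hx0
    exact ge_of_tendsto hx (Eventually.of_forall hx0)
  have hm : AEStronglyMeasurable f μ :=
    aestronglyMeasurable_of_tendsto_ae atTop (fun j => (hF j).1) hlim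
  have hb : ∫⁻ x, ENNReal.ofReal (f x) ∂μ ≤ ENNReal.ofReal L := by
    calc ∫⁻ x, ENNReal.ofReal (f x) ∂μ
        = ∫⁻ x, atTop.liminf (fun j => ENNReal.ofReal (F j x)) ∂μ := by
          refine lintegral_congr_ae ?_
          filter_upwards [hlim] with x hx
          exact (ENNReal.tendsto_ofReal hx).liminf_eq.symm
      _ ≤ atTop.liminf fun j => ∫⁻ x, ENNReal.ofReal (F j x) ∂μ :=
          lintegral_liminf_le' fun j => (hF j).1.aemeasurable.ennreal_ofReal
      _ ≤ atTop.liminf fun j => ENNReal.ofReal (K j) := by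
          refine liminf_le_liminf (Eventually.of_forall fun j => ?_)
          change _ ≤ ENNReal.ofReal (K j)
          rw [← ofReal_integral_eq_lintegral_ofReal (hF j) (h0 j)]
          exact ENNReal.ofReal_le_ofReal (hK j)
      _ = ENNReal.ofReal L := (ENNReal.tendsto_ofReal hL).liminf_eq
  have hint : Integrable f μ := by
    refine ⟨hm, ?_⟩
    rw [hasFiniteIntegral_iff_ofReal hf0]
    exact hb.trans_lt ENNReal.ofReal_lt_top
  refine ⟨hint, ?_⟩
  have hL0 : 0 ≤ L := ge_of_tendsto hL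
    (Eventually.of_forall fun j => (integral_nonneg_of_ae (h0 j)).trans (hK j))
  rw [← ENNReal.ofReal_le_ofReal_iff hL0, ofReal_integral_eq_lintegral_ofReal hint hf0]
  exact hb

/-- A sequence converging in mean square has a subsequence converging almost everywhere. -/
theorem exists_ae_subseq {f : ℕ → X → ℝ} {F : X → ℝ} (hf : ∀ k, MemLp (f k) 2 μ)
    (hF : MemLp F 2 μ) (h : Tendsto (fun k => ∫ x, (f k x - F x) ^ 2 ∂μ) atTop (𝓝 0)) :
    ∃ ns : ℕ → ℕ, StrictMono ns ∧ ∀ᵐ x ∂μ, Tendsto (fun j => f (ns j) x) atTop (𝓝 (F x)) := by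
  have h1 : Tendsto (fun k => (hf k).toLp (f k)) atTop (𝓝 (hF.toLp F)) :=
    (One.tendsto_toLp_iff hf hF).1 h
  have h2 := (tendstoInMeasure_of_tendsto_eLpNorm (p := 2) (by norm_num) (fun k => (hf k).1) hF.1
    ((Lp.tendsto_Lp_iff_tendsto_eLpNorm'' _ hf F hF).1 h1)).exists_seq_tendsto_ae
  exact h2

end Vale.Agent.P363.Inter
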