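import Vale.Agent.P363.Inter.Slice.H1

/-!
P363, interacting side: configuration space as position of one electron times the others: slices,
iterated integrals and partial integrals of test functions.
-/

noncomputable section

namespace Vale.Agent.P363.Inter

open MeasureTheory Filter Set
open scoped BigOperators Topology

variable {m : ℕ}

/-- Inserting the position of electron `i`. -/
def insL (i : Fin (m + 1)) : Space × Cfg m →L[ℝ] Cfg (m + 1) :=
  ContinuousLinearMap.pi (Fin.insertNth i (ContinuousLinearMap.fst ℝ Space (Cfg m))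
    fun k => (ContinuousLinearMap.proj k).comp (ContinuousLinearMap.snd ℝ Space (Cfg m)))

theorem insL_apply (i : Fin (m + 1)) (x : Space) (y : Cfg m) :
    insL i (x, y) = i.insertNth x y := by
  funext j
  rcases Fin.eq_self_or_eq_succAbove i j with rfl | ⟨l, rfl⟩
  · simp [insL]
  · simp [insL]

theorem hasFDerivAt_ins_x (i : Fin (m + 1)) (x : Space) (y : Cfg m) :
    HasFDerivAt (fun x : Space => (i.insertNth x y : Cfg (m + 1)))
      (ContinuousLinearMap.single ℝ (fun _ => Space) i) x := by
  have h : HasFDerivAt (fun x : Space => insL i (x, y))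
      ((insL i).comp ((ContinuousLinearMap.id ℝ Space).prod 0)) x :=
    (insL i).hasFDerivAt.comp x ((hasFDerivAt_id x).prodMk (hasFDerivAt_const y x))
  simp only [insL_apply] at h
  refine h.congr_fderiv ?_
  refine ContinuousLinearMap.ext fun w => ?_
  funext j
  rcases Fin.eq_self_or_eq_succAbove i j with rfl | ⟨l, rfl⟩ <;>
    simp [insL_apply, Fin.succAbove_ne]

theorem hasFDerivAt_ins_y (i : Fin (m + 1)) (x : Space) (y : Cfg m) :
    HasFDerivAt (fun y : Cfg m => (i.insertNth x y : Cfg (m + 1)))
      ((insL i).comp ((0 : Cfg m →L[ℝ] Space).prod (ContinuousLinearMap.id ℝ (Cfg m)))) y := by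
  have h : HasFDerivAt (fun y : Cfg m => insL i (x, y))
      ((insL i).comp ((0 : Cfg m →L[ℝ] Space).prod (ContinuousLinearMap.id ℝ (Cfg m)))) y :=
    (insL i).hasFDerivAt.comp y ((hasFDerivAt_const x y).prodMk (hasFDerivAt_id y))
  simpa only [insL_apply] using h

theorem ins_unitN (i : Fin (m + 1)) (k : Fin m) (a : Fin 3) :
    (i.insertNth (0 : Space) (unitN k a) : Cfg (m + 1)) = unitN (i.succAbove k) a := by
  funext j
  rcases Fin.eq_self_or_eq_succAbove i j with rfl | ⟨l, rfl⟩
  · simp [unitN, (Fin.succAbove_ne j k).symm]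
  · simp [unitN, Pi.single_apply, Fin.succAbove_right_inj]

theorem mp_ins (i : Fin (m + 1)) :
    MeasurePreserving (fun z : Space × Cfg m => (i.insertNth z.1 z.2 : Cfg (m + 1)))
      ((volume : Measure Space).prod volume) volume := by
  have h := (volume_preserving_piFinSuccAbove (fun _ : Fin (m + 1) => Space) i).symm _
  rwa [Measure.volume_eq_prod] at h

theorem embedding_ins (i : Fin (m + 1)) :
    MeasurableEmbedding (fun z : Space × Cfg m => (i.insertNth z.1 z.2 : Cfg (m + 1))) :=
  (MeasurableEquiv.piFinSuccAbove (fun _ : Fin (m + 1) => Space) i).symm.measurableEmbedding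

theorem integrable_prod_ins (i : Fin (m + 1)) {g : Cfg (m + 1) → ℝ} (hg : Integrable g) :
    Integrable (fun z : Space × Cfg m => g (i.insertNth z.1 z.2))
      ((volume : Measure Space).prod volume) :=
  ((mp_ins i).integrable_comp_emb (embedding_ins i)).2 hg

/-- An integral over configuration space as an iterated integral. -/
theorem integral_split (i : Fin (m + 1)) {g : Cfg (m + 1) → ℝ} (hg : Integrable g) :
    ∫ z, g z = ∫ x : Space, ∫ y : Cfg m, g (i.insertNth x y) := by
  rw [← (mp_ins i).integral_comp (embedding_ins i) g]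
  exact integral_prod _ (integrable_prod_ins i hg)

/-- Almost every slice of an integrable function is integrable. -/
theorem integrable_slices (i : Fin (m + 1)) {g : Cfg (m + 1) → ℝ} (hg : Integrable g) :
    (∀ᵐ x : Space, Integrable fun y : Cfg m => g (i.insertNth x y)) ∧
      Integrable fun x : Space => ∫ y : Cfg m, g (i.insertNth x y) :=
  ⟨(integrable_prod_ins i hg).prod_right_ae, (integrable_prod_ins i hg).integral_prod_left⟩

/-- Almost every slice of a square integrable function is square integrable. -/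
theorem memLp_slices (i : Fin (m + 1)) {g : Cfg (m + 1) → ℝ} (hg : MemLp g 2) :
    ∀ᵐ x : Space, MemLp (fun y : Cfg m => g (i.insertNth x y)) 2 := by
  have hm : ∀ᵐ x : Space, AEStronglyMeasurable fun y : Cfg m => g (i.insertNth x y) :=
    (hg.1.comp_measurePreserving (mp_ins i)).prodMk_left
  filter_upwards [hm, (integrable_slices i hg.integrable_sq).1] with x hx hx'
  exact (memLp_two_iff_integrable_sq hx).2 hx'

theorem exists_bound_ins (i : Fin (m + 1)) {φ : Cfg (m + 1) → ℝ} (hc : HasCompactSupport φ) :
    ∃ S : Set (Cfg m), IsCompact S ∧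
      ∀ (x : Space) (y : Cfg m), y ∉ S → i.insertNth x y ∉ tsupport φ := by
  refine ⟨(fun z : Cfg (m + 1) => Fin.removeNth i z) '' tsupport φ,
    hc.isCompact.image (continuous_pi fun k => continuous_apply _), fun x y hy h => ?_⟩
  exact hy ⟨_, h, Fin.removeNth_insertNth ..⟩

theorem continuous_ins (i : Fin (m + 1)) :
    Continuous fun z : Space × Cfg m => (i.insertNth z.1 z.2 : Cfg (m + 1)) := by
  have e : (fun z : Space × Cfg m => (i.insertNth z.1 z.2 : Cfg (m + 1))) = insL i :=
    funext fun z => (insL_apply i z.1 z.2).symm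
  rw [e]
  exact (insL i).continuous

namespace IsC1

variable {φ : Cfg (m + 1) → ℝ}

theorem sliceY (h : IsC1 φ) (i : Fin (m + 1)) (x : Space) :
    IsC1 fun y : Cfg m => φ (i.insertNth x y) := by
  obtain ⟨S, hS, hS0⟩ := exists_bound_ins i h.compact
  refine ⟨h.smooth.comp ?_, HasCompactSupport.intro hS fun y hy =>
    image_eq_zero_of_notMem_tsupport (hS0 x y hy)⟩
  have h' : ContDiff ℝ 1 fun y : Cfg m => insL i (x, y) :=
    (insL i).contDiff.comp (contDiff_const.prodMk contDiff_id)
  simpa only [insL_apply] using h'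

theorem slot_sliceY (h : IsC1 φ) (i : Fin (m + 1)) (x : Space) (y : Cfg m) (k : Fin m)
    (a : Fin 3) : slotDeriv k a (fun y => φ (i.insertNth x y)) y =
      slotDeriv (i.succAbove k) a φ (i.insertNth x y) := by
  have hd : HasFDerivAt (fun y : Cfg m => φ (i.insertNth x y)) _ y :=
    (h.differentiable _).hasFDerivAt.comp y (hasFDerivAt_ins_y i x y)
  rw [slotDeriv_eq, slotDeriv_eq, hd.fderiv]
  simp [insL_apply, ins_unitN]

theorem slot_sliceX (h : IsC1 φ) (i : Fin (m + 1)) (x : Space) (y : Cfg m) (a : Fin 3) :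
    deriv3 a (fun x => φ (i.insertNth x y)) x = slotDeriv i a φ (i.insertNth x y) := by
  have hd : HasFDerivAt (fun x : Space => φ (i.insertNth x y)) _ x :=
    (h.differentiable _).hasFDerivAt.comp x (hasFDerivAt_ins_x i x y)
  rw [deriv3, hd.fderiv]
  rfl

theorem sliceX (h : IsC1 φ) (i : Fin (m + 1)) (y : Cfg m) :
    ContDiff ℝ 1 (fun x : Space => φ (i.insertNth x y)) ∧
      HasCompactSupport (fun x : Space => φ (i.insertNth x y)) := by
  refine ⟨h.smooth.comp ?_, HasCompactSupport.intro
    (h.compact.isCompact.image (continuous_apply i)) fun x hx => ?_⟩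
  · have h' : ContDiff ℝ 1 fun x : Space => insL i (x, y) :=
      (insL i).contDiff.comp (contDiff_id.prodMk contDiff_const)
    simpa only [insL_apply] using h'
  · exact image_eq_zero_of_notMem_tsupport fun h' =>
      hx ⟨_, h', Fin.insertNth_apply_same _ _ _⟩

theorem integrable_ins (h : IsC1 φ) (i : Fin (m + 1)) (x : Space) :
    Integrable fun y : Cfg m => φ (i.insertNth x y) :=
  (h.sliceY i x).continuous.integrable_of_hasCompactSupport (h.sliceY i x).compact

end IsC1

/-- The integral over all electrons but `i`. -/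
def marg (i : Fin (m + 1)) (g : Cfg (m + 1) → ℝ) (x : Space) : ℝ :=
  ∫ y : Cfg m, g (i.insertNth x y)

/-- Partial integrals of test functions are test functions. -/
theorem IsC1.marg {φ : Cfg (m + 1) → ℝ} (h : IsC1 φ) (i : Fin (m + 1)) :
    ContDiff ℝ 1 (marg i φ) ∧ HasCompactSupport (marg i φ) ∧
      ∀ a x, deriv3 a (Inter.marg i φ) x = Inter.marg i (slotDeriv i a φ) x := by
  obtain ⟨S, hS, hS0⟩ := exists_bound_ins i h.compact
  set F' : Space → Cfg m → Space →L[ℝ] ℝ := fun x y =>
    (fderiv ℝ φ (i.insertNth x y)).comp (ContinuousLinearMap.single ℝ (fun _ => Space) i)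
    with hF'
  have hF'c : Continuous (Function.uncurry F') :=
    ((h.smooth.continuous_fderiv one_ne_zero).comp (continuous_ins i)).clm_comp continuous_const
  have h0 : ∀ x y, y ∉ S → F' x y = 0 := fun x y hy => by
    simp [hF', fderiv_of_notMem_tsupport ℝ (hS0 x y hy)]
  obtain ⟨B, hB⟩ := (h.compact.fderiv ℝ).exists_bound_of_continuous
    (h.smooth.continuous_fderiv one_ne_zero)
  set C := B * ‖ContinuousLinearMap.single ℝ (fun _ : Fin (m + 1) => Space) i‖
  have hbound : ∀ x y, ‖F' x y‖ ≤ S.indicator (fun _ => C) y := fun x y => by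
    by_cases hy : y ∈ S
    · rw [indicator_of_mem hy]
      exact (ContinuousLinearMap.opNorm_comp_le _ _).trans
        (mul_le_mul_of_nonneg_right (hB _) (norm_nonneg _))
    · simp [h0 x y hy, hy]
  have hd : ∀ x, HasFDerivAt (Inter.marg i φ) (∫ y, F' x y) x := fun x =>
    hasFDerivAt_integral_of_dominated_of_fderiv_le (𝕜 := ℝ)
      (μ := (volume : Measure (Cfg m))) (F := fun x y => φ (i.insertNth x y))
      (F' := F') (s := univ) (bound := S.indicator fun _ => C) univ_mem
      (Eventually.of_forall fun z => (h.integrable_ins i z).1) (h.integrable_ins i x)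
      (hF'c.uncurry_left x).aestronglyMeasurable
      (Eventually.of_forall fun y z _ => hbound z y)
      ((integrable_indicator_iff hS.measurableSet).2 (integrableOn_const hS.measure_lt_top.ne))
      (Eventually.of_forall fun y z _ =>
        (h.differentiable _).hasFDerivAt.comp z (hasFDerivAt_ins_x i z y))
  have hcont : Continuous fun x => ∫ y, F' x y := by
    have := continuous_parametric_integral_of_continuous (μ := (volume : Measure (Cfg m))) hF'c hS
    refine this.congr fun x => ?_
    exact setIntegral_eq_integral_of_forall_compl_eq_zero fun y hy => h0 x y hy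
  refine ⟨contDiff_one_iff_hasFDerivAt.2 ⟨_, hcont, hd⟩,
    HasCompactSupport.intro (h.compact.isCompact.image (continuous_apply i)) fun x hx => ?_,
    fun a x => ?_⟩
  · refine integral_eq_zero_of_ae (Eventually.of_forall fun y => ?_)
    exact image_eq_zero_of_notMem_tsupport fun h' =>
      hx ⟨_, h', Fin.insertNth_apply_same _ _ _⟩
  · have hi : Integrable (F' x) := by
      refine ((integrable_indicator_iff hS.measurableSet).2
        (integrableOn_const (C := C) hS.measure_lt_top.ne)).mono'
        (hF'c.uncurry_left x).aestronglyMeasurable (Eventually.of_forall fun y => hbound x y)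
    rw [deriv3, (hd x).fderiv, ContinuousLinearMap.integral_apply hi]
    rfl

/-- A mean square convergent sequence has a subsequence whose slices converge in mean square for
almost every position of electron `i`. -/
theorem SqLim.exists_slices (i : Fin (m + 1)) {f : ℕ → Cfg (m + 1) → ℝ} {F : Cfg (m + 1) → ℝ}
    (h : SqLim volume f F) :
    ∃ ns : ℕ → ℕ, StrictMono ns ∧ ∀ᵐ x : Space, SqLim volume
      (fun j (y : Cfg m) => f (ns j) (i.insertNth x y)) fun y => F (i.insertNth x y) := by
  set G : ℕ → Space → ℝ := fun k x => ∫ y : Cfg m, (f k (i.insertNth x y) - F (i.insertNth x y)) ^ 2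
  have hint : ∀ k, Integrable fun z => (f k z - F z) ^ 2 := fun k =>
    ((h.mem k).sub h.lim_mem).integrable_sq
  have hG : ∀ k, Integrable (G k) := fun k => (integrable_slices i (hint k)).2
  have h1 : Tendsto (fun k => eLpNorm (G k - 0) 1 volume) atTop (𝓝 0) := by
    have e : ∀ k, eLpNorm (G k - 0) 1 volume = ENNReal.ofReal (∫ z, (f k z - F z) ^ 2) := fun k => by
      rw [sub_zero, eLpNorm_one_eq_lintegral_enorm, ← ofReal_integral_norm_eq_lintegral_enorm (hG k)]
      congr 1
      rw [integral_split i (hint k)]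
      exact integral_congr_ae (Eventually.of_forall fun x =>
        Real.norm_of_nonneg (integral_nonneg fun y => sq_nonneg _))
    simp only [e]
    simpa using ENNReal.tendsto_ofReal h.tendsto
  obtain ⟨ns, hns, hlim⟩ := (tendstoInMeasure_of_tendsto_eLpNorm (p := 1) one_ne_zero
    (fun k => (hG k).1) aestronglyMeasurable_zero h1).exists_seq_tendsto_ae
  refine ⟨ns, hns, ?_⟩
  filter_upwards [hlim, memLp_slices i h.lim_mem,
    ae_all_iff.2 fun k => memLp_slices i (h.mem k)] with x hx hF hf
  exact ⟨fun j => hf _, hF, hx⟩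

/-- Almost every slice of a member of the energy space is in the energy space. -/
theorem Approx.exists_slices (i : Fin (m + 1)) {φ : ℕ → Cfg (m + 1) → ℝ} {f : Cfg (m + 1) → ℝ}
    {D : Fin (m + 1) → Fin 3 → Cfg (m + 1) → ℝ} (h : Approx φ f D) :
    ∃ ns : ℕ → ℕ, StrictMono ns ∧ ∀ᵐ x : Space,
      Approx (fun j (y : Cfg m) => φ (ns j) (i.insertNth x y)) (fun y => f (i.insertNth x y))
        fun k a y => D (i.succAbove k) a (i.insertNth x y) := by
  obtain ⟨ns, hns, h0⟩ := h.val.exists_slices i
  have main : ∀ s : Finset (Fin m × Fin 3), ∃ ms : ℕ → ℕ, StrictMono ms ∧ ∀ q ∈ s,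
      ∀ᵐ x : Space, SqLim volume
        (fun j (y : Cfg m) => slotDeriv (i.succAbove q.1) q.2 (φ (ns (ms j))) (i.insertNth x y))
        fun y => D (i.succAbove q.1) q.2 (i.insertNth x y) := by
    intro s
    induction s using Finset.induction with
    | empty => exact ⟨id, strictMono_id, by simp⟩
    | insert q s _ ih =>
      obtain ⟨ms, hms, h1⟩ := ih
      obtain ⟨ps, hps, h2⟩ := (((h.der (i.succAbove q.1) q.2).subseq hns).subseq hms).exists_slices i
      refine ⟨ms ∘ ps, hms.comp hps, fun r hr => ?_⟩
      rcases Finset.mem_insert.1 hr with rfl | hr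
      · exact h2
      · exact (h1 r hr).mono fun x hx => hx.subseq hps
  obtain ⟨ms, hms, h1⟩ := main Finset.univ
  refine ⟨ns ∘ ms, hns.comp hms, ?_⟩
  filter_upwards [h0, ae_all_iff.2 fun q => h1 q (Finset.mem_univ q)] with x hx hq
  refine ⟨fun j => (h.c1 _).sliceY i x, hx.subseq hms, fun k a => (hq (k, a)).congr
    (fun j => Eventually.of_forall fun y => ((h.c1 _).slot_sliceY i x y k a).symm) .rfl⟩

theorem InH1.slices (i : Fin (m + 1)) {f : Cfg (m + 1) → ℝ}
    {D : Fin (m + 1) → Fin 3 → Cfg (m + 1) → ℝ} (h : InH1 f D) :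
    ∀ᵐ x : Space, InH1 (fun y : Cfg m => f (i.insertNth x y))
      fun k a y => D (i.succAbove k) a (i.insertNth x y) := by
  obtain ⟨φ, hφ⟩ := h
  obtain ⟨ns, -, hx⟩ := hφ.exists_slices i
  exact hx.mono fun x hx => hx.inH1

end Vale.Agent.P363.Inter
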