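import Vale.Agent.P363.Exist.Spec
import Vale.Agent.P363.Inter.Slice.L2

/-!
P363, interacting side: continuously differentiable test functions on configuration space and
their density among Lipschitz test functions in the energy norm.
-/

noncomputable section

namespace Vale.Agent.P363.Inter

open MeasureTheory Filter Set Metric
open scoped BigOperators Topology ContDiff NNReal Convolution

variable {n : ℕ}

/-- The unit vector in coordinate `a` of electron `i`. -/
def unitN (i : Fin n) (a : Fin 3) : Cfg n := Pi.single i (unit3 a)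

theorem slotDeriv_eq (i : Fin n) (a : Fin 3) (φ : Cfg n → ℝ) (x : Cfg n) :
    slotDeriv i a φ x = fderiv ℝ φ x (unitN i a) := rfl

/-- Continuously differentiable functions with compact support. -/
structure IsC1 (φ : Cfg n → ℝ) : Prop where
  smooth : ContDiff ℝ 1 φ
  compact : HasCompactSupport φ

namespace IsC1

variable {φ ψ : Cfg n → ℝ}

theorem continuous (h : IsC1 φ) : Continuous φ := h.smooth.continuous

theorem differentiable (h : IsC1 φ) : Differentiable ℝ φ := h.smooth.differentiable one_ne_zero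

theorem realTest (h : IsC1 φ) : IsRealTest φ :=
  ⟨h.smooth.lipschitzWith_of_hasCompactSupport h.compact one_ne_zero, h.compact⟩

theorem memLp (h : IsC1 φ) : MemLp φ 2 := h.continuous.memLp_of_hasCompactSupport h.compact

theorem continuous_slot (h : IsC1 φ) (i : Fin n) (a : Fin 3) : Continuous (slotDeriv i a φ) :=
  (h.smooth.continuous_fderiv one_ne_zero).clm_apply continuous_const

theorem compact_slot (h : IsC1 φ) (i : Fin n) (a : Fin 3) :
    HasCompactSupport (slotDeriv i a φ) :=
  h.compact.fderiv_apply ℝ (unitN i a)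

theorem memLp_slot (h : IsC1 φ) (i : Fin n) (a : Fin 3) : MemLp (slotDeriv i a φ) 2 :=
  (h.continuous_slot i a).memLp_of_hasCompactSupport (h.compact_slot i a)

theorem add (h : IsC1 φ) (h' : IsC1 ψ) : IsC1 fun x => φ x + ψ x :=
  ⟨h.smooth.add h'.smooth, h.compact.add h'.compact⟩

theorem smul (h : IsC1 φ) (t : ℝ) : IsC1 fun x => t * φ x :=
  ⟨contDiff_const.mul h.smooth, h.compact.mul_left⟩

theorem sub (h : IsC1 φ) (h' : IsC1 ψ) : IsC1 fun x => φ x - ψ x :=
  ⟨h.smooth.sub h'.smooth, h.compact.sub h'.compact⟩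

theorem mul_left (h : IsC1 φ) {w : Cfg n → ℝ} (hw : ContDiff ℝ 1 w) :
    IsC1 fun x => w x * φ x :=
  ⟨hw.mul h.smooth, h.compact.mul_left⟩

theorem comp_linear (h : IsC1 φ) (T : Cfg n ≃L[ℝ] Cfg n) : IsC1 fun x => φ (T x) :=
  ⟨h.smooth.comp T.contDiff, h.compact.comp_homeomorph T.toHomeomorph⟩

theorem slot_add (h : IsC1 φ) (h' : IsC1 ψ) (i : Fin n) (a : Fin 3) (x : Cfg n) :
    slotDeriv i a (fun y => φ y + ψ y) x = slotDeriv i a φ x + slotDeriv i a ψ x := by
  simp [slotDeriv, fderiv_fun_add (h.differentiable x) (h'.differentiable x)]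

theorem slot_sub (h : IsC1 φ) (h' : IsC1 ψ) (i : Fin n) (a : Fin 3) (x : Cfg n) :
    slotDeriv i a (fun y => φ y - ψ y) x = slotDeriv i a φ x - slotDeriv i a ψ x := by
  simp [slotDeriv, fderiv_fun_sub (h.differentiable x) (h'.differentiable x)]

theorem slot_smul (h : IsC1 φ) (t : ℝ) (i : Fin n) (a : Fin 3) (x : Cfg n) :
    slotDeriv i a (fun y => t * φ y) x = t * slotDeriv i a φ x := by
  simp [slotDeriv, fderiv_const_mul (h.differentiable x)]

theorem slot_mul (h : IsC1 φ) {w : Cfg n → ℝ} {x : Cfg n} (hw : DifferentiableAt ℝ w x)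
    (i : Fin n) (a : Fin 3) :
    slotDeriv i a (fun y => w y * φ y) x = w x * slotDeriv i a φ x + slotDeriv i a w x * φ x := by
  simp [slotDeriv, fderiv_fun_mul hw (h.differentiable x)]
  ring

end IsC1

instance negInvariant_cfg : (volume : Measure (Cfg n)).IsNegInvariant :=
  ⟨(measurePreserving_pi (fun _ : Fin n => (volume : Measure Space))
    (fun _ => (volume : Measure Space)) fun _ => Measure.measurePreserving_neg volume).map_eq⟩

/-- A mollifier on configuration space of radius `1 / (k + 1)`. -/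
def cfgBump (n k : ℕ) : ContDiffBump (0 : Cfg n) where
  rIn := 1 / (2 * ((k : ℝ) + 1))
  rOut := 1 / ((k : ℝ) + 1)
  rIn_pos := by positivity
  rIn_lt_rOut := by
    apply one_div_lt_one_div_of_lt (by positivity)
    linarith [(Nat.cast_nonneg k : (0 : ℝ) ≤ k)]

/-- The mollified function. -/
def cfgMoll (k : ℕ) (φ : Cfg n → ℝ) : Cfg n → ℝ :=
  (cfgBump n k).normed volume ⋆[ContinuousLinearMap.lsmul ℝ ℝ, volume] φ

theorem cfgMoll_eq (k : ℕ) (φ : Cfg n → ℝ) (x : Cfg n) :
    cfgMoll k φ x = ∫ t, (cfgBump n k).normed volume t * φ (x - t) := by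
  simp [cfgMoll, convolution_def]

theorem contDiff_cfgMoll (k : ℕ) {φ : Cfg n → ℝ} (hφ : LocallyIntegrable φ) :
    ContDiff ℝ ∞ (cfgMoll k φ) :=
  (cfgBump n k).hasCompactSupport_normed.contDiff_convolution_left _
    (cfgBump n k).contDiff_normed hφ

theorem abs_cfgMoll_le (k : ℕ) {φ : Cfg n → ℝ} {B : ℝ} (hB : ∀ x, |φ x| ≤ B) (x : Cfg n) :
    |cfgMoll k φ x| ≤ B := by
  rw [cfgMoll_eq, ← Real.norm_eq_abs]
  refine (norm_integral_le_of_norm_le (((cfgBump n k).integrable_normed).mul_const B)
    (Eventually.of_forall fun t => ?_)).trans_eq ?_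
  · rw [norm_mul, Real.norm_eq_abs, Real.norm_eq_abs,
      abs_of_nonneg ((cfgBump n k).nonneg_normed t)]
    exact mul_le_mul_of_nonneg_left (hB _) ((cfgBump n k).nonneg_normed t)
  · rw [integral_mul_const, (cfgBump n k).integral_normed, one_mul]

theorem cfgMoll_eq_zero (k : ℕ) {φ : Cfg n → ℝ} {K : Set (Cfg n)} (hK : ∀ x ∉ K, φ x = 0)
    {x : Cfg n} (hx : x ∉ cthickening 1 K) : cfgMoll k φ x = 0 := by
  rw [cfgMoll_eq]
  refine integral_eq_zero_of_ae (Eventually.of_forall fun t => ?_)
  by_contra hne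
  obtain ⟨h1, h2⟩ := mul_ne_zero_iff.1 hne
  have ht : t ∈ Function.support ((cfgBump n k).normed volume) := h1
  rw [(cfgBump n k).support_normed_eq, mem_ball_zero_iff] at ht
  refine hx (mem_cthickening_of_dist_le x (x - t) 1 K (by_contra fun h => h2 (hK _ h)) ?_)
  rw [dist_eq_norm, sub_sub_cancel]
  refine ht.le.trans ?_
  change 1 / ((k : ℝ) + 1) ≤ 1
  rw [div_le_one (by positivity)]
  linarith [(Nat.cast_nonneg k : (0 : ℝ) ≤ k)]

theorem compact_cfgMoll (k : ℕ) {φ : Cfg n → ℝ} (hc : HasCompactSupport φ) :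
    HasCompactSupport (cfgMoll k φ) :=
  HasCompactSupport.intro hc.isCompact.cthickening
    fun _ hx => cfgMoll_eq_zero k (fun _ h => image_eq_zero_of_notMem_tsupport h) hx

/-- Mollification commutes with the derivative of a Lipschitz function. -/
theorem fderiv_cfgMoll (k : ℕ) {φ : Cfg n → ℝ} {K : ℝ≥0} (hK : LipschitzWith K φ)
    (x v : Cfg n) : fderiv ℝ (cfgMoll k φ) x v = cfgMoll k (fun y => fderiv ℝ φ y v) x := by
  set ρ := (cfgBump n k).normed volume with hρ
  have hρc : Continuous ρ := (cfgBump n k).continuous_normed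
  have hd : ∀ᵐ t : Cfg n, DifferentiableAt ℝ φ (x - t) :=
    (quasiMeasurePreserving_sub_left volume x).ae hK.ae_differentiableAt
  have hm : Measurable fun t : Cfg n => fderiv ℝ φ (x - t) :=
    (measurable_fderiv ℝ φ).comp (measurable_const.sub measurable_id)
  have hlip : ∀ t, LipschitzWith (Real.nnabs (ρ t * (K : ℝ))) fun z => ρ t * φ (z - t) := fun t =>
    LipschitzWith.of_dist_le_mul fun z w => by
      rw [Real.dist_eq, ← mul_sub, abs_mul, Real.coe_nnabs, abs_mul, NNReal.abs_eq,
        mul_assoc, ← Real.dist_eq]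
      refine mul_le_mul_of_nonneg_left ?_ (abs_nonneg _)
      simpa using hK.dist_le_mul (z - t) (w - t)
  have hdiff : ∀ᵐ t : Cfg n, HasFDerivAt (fun z => ρ t * φ (z - t))
      (ρ t • fderiv ℝ φ (x - t)) x := hd.mono fun t ht => by
    have h2 : HasFDerivAt (fun z => φ (z - t)) (fderiv ℝ φ (x - t)) x :=
      (ht.hasFDerivAt.comp x ((hasFDerivAt_id x).sub_const t)).congr_fderiv
        (ContinuousLinearMap.comp_id _)
    exact h2.const_mul (ρ t)
  obtain ⟨hi, hfd⟩ := hasFDerivAt_integral_of_dominated_loc_of_lip (𝕜 := ℝ)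
    (μ := (volume : Measure (Cfg n))) (F := fun z t => ρ t * φ (z - t))
    (F' := fun t => ρ t • fderiv ℝ φ (x - t)) (bound := fun t => ρ t * (K : ℝ)) (s := univ)
    (x₀ := x) univ_mem
    (Eventually.of_forall fun z => (hρc.mul (hK.continuous.comp
      (continuous_const.sub continuous_id))).aestronglyMeasurable)
    ((hρc.mul (hK.continuous.comp (continuous_const.sub continuous_id))).integrable_of_hasCompactSupport
      (cfgBump n k).hasCompactSupport_normed.mul_right)
    (hρc.measurable.smul hm).aestronglyMeasurable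
    (Eventually.of_forall fun t => (hlip t).lipschitzOnWith)
    ((cfgBump n k).integrable_normed.mul_const _) hdiff
  rw [show cfgMoll k φ = fun z => ∫ t, ρ t * φ (z - t) from funext fun z => cfgMoll_eq k φ z,
    hfd.fderiv, ContinuousLinearMap.integral_apply hi, cfgMoll_eq]
  congr

theorem abs_fderiv_apply_le {φ : Cfg n → ℝ} {K : ℝ≥0} (hK : LipschitzWith K φ) (x v : Cfg n) :
    |fderiv ℝ φ x v| ≤ K * ‖v‖ :=
  ((fderiv ℝ φ x).le_opNorm v).trans
    (mul_le_mul_of_nonneg_right (norm_fderiv_le_of_lipschitz ℝ hK) (norm_nonneg _))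

/-- A bounded compactly supported family converging almost everywhere converges in mean square. -/
theorem tendsto_sq_of_dominated {F : ℕ → Cfg n → ℝ} {f : Cfg n → ℝ} {S : Set (Cfg n)}
    (hS : IsCompact S) {B : ℝ} (hm : ∀ k, AEStronglyMeasurable (F k))
    (hf : AEStronglyMeasurable f) (hB : ∀ k x, |F k x - f x| ≤ B)
    (h0 : ∀ k, ∀ x ∉ S, F k x = f x)
    (hlim : ∀ᵐ x, Tendsto (fun k => F k x) atTop (𝓝 (f x))) :
    Tendsto (fun k => ∫ x, (F k x - f x) ^ 2) atTop (𝓝 0) := by
  rw [← integral_zero (Cfg n) ℝ]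
  refine tendsto_integral_of_dominated_convergence (S.indicator fun _ => B ^ 2)
    (fun k => ((hm k).sub hf).pow 2)
    ((integrable_indicator_iff hS.measurableSet).2 (integrableOn_const hS.measure_lt_top.ne))
    (fun k => Eventually.of_forall fun x => ?_) ?_
  · by_cases hx : x ∈ S
    · rw [indicator_of_mem hx, norm_pow, Real.norm_eq_abs]
      exact pow_le_pow_left₀ (abs_nonneg _) (hB k x) 2
    · simp [h0 k x hx, hx]
  · filter_upwards [hlim] with x hx
    simpa using (hx.sub_const (f x)).pow 2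

/-- Lipschitz test functions are limits of smooth ones in the energy norm. -/
theorem exists_smooth_approx {φ : Cfg n → ℝ} (h : IsRealTest φ) :
    ∃ ψ : ℕ → Cfg n → ℝ, (∀ k, ContDiff ℝ ∞ (ψ k) ∧ HasCompactSupport (ψ k)) ∧
      Tendsto (fun k => ∫ x, (ψ k x - φ x) ^ 2) atTop (𝓝 0) ∧
      ∀ i a, Tendsto (fun k => ∫ x, (slotDeriv i a (ψ k) x - slotDeriv i a φ x) ^ 2)
        atTop (𝓝 0) := by
  obtain ⟨K, hK⟩ := h.lipschitz
  obtain ⟨B, hB⟩ := h.compact.exists_bound_of_continuous hK.continuous
  have hli : LocallyIntegrable φ := hK.continuous.locallyIntegrable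
  have hlim : ∀ {g : Cfg n → ℝ}, LocallyIntegrable g →
      ∀ᵐ x, Tendsto (fun k => cfgMoll k g x) atTop (𝓝 (g x)) := fun {g} hg =>
    ContDiffBump.ae_convolution_tendsto_right_of_locallyIntegrable (K := 2)
      (φ := fun k : ℕ => cfgBump n k) tendsto_one_div_add_atTop_nhds_zero_nat
      (Eventually.of_forall fun k => le_of_eq (by
        simp only [cfgBump]; field_simp)) hg
  have hS : IsCompact (cthickening 1 (tsupport φ)) := h.compact.isCompact.cthickening
  have hsub : ∀ x ∉ cthickening 1 (tsupport φ), x ∉ tsupport φ := fun x hx hx' =>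
    hx (self_subset_cthickening _ hx')
  refine ⟨fun k => cfgMoll k φ,
    fun k => ⟨contDiff_cfgMoll k hli, compact_cfgMoll k h.compact⟩,
    tendsto_sq_of_dominated hS (B := B + B)
      (fun k => (contDiff_cfgMoll k hli).continuous.aestronglyMeasurable)
      hK.continuous.aestronglyMeasurable
      (fun k x => (abs_sub _ _).trans (add_le_add (abs_cfgMoll_le k hB x) (hB x)))
      (fun k x hx => by
        rw [cfgMoll_eq_zero k (fun _ => image_eq_zero_of_notMem_tsupport) hx,
          image_eq_zero_of_notMem_tsupport (hsub x hx)]) (hlim hli), fun i a => ?_⟩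
  set g := fun y => fderiv ℝ φ y (unitN i a) with hg
  have hgb : ∀ x, |g x| ≤ K * ‖unitN i a‖ := fun x => abs_fderiv_apply_le hK x _
  have hgm : Measurable g := measurable_fderiv_apply_const ℝ φ _
  have hg0 : ∀ x ∉ tsupport φ, g x = 0 := fun x hx => by
    simp [hg, fderiv_of_notMem_tsupport ℝ hx]
  have hgi : LocallyIntegrable g :=
    (IntegrableOn.integrable_of_forall_notMem_eq_zero (Measure.integrableOn_of_bounded
      h.compact.measure_lt_top.ne hgm.aestronglyMeasurable
      (M := K * ‖unitN i a‖) (Eventually.of_forall fun x => hgb x)) hg0).locallyIntegrable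
  have e : ∀ k, slotDeriv i a (cfgMoll k φ) = cfgMoll k g := fun k =>
    funext fun x => fderiv_cfgMoll k hK x _
  simp only [e]
  exact tendsto_sq_of_dominated hS (B := K * ‖unitN i a‖ + K * ‖unitN i a‖)
    (fun k => (contDiff_cfgMoll k hgi).continuous.aestronglyMeasurable)
    hgm.aestronglyMeasurable
    (fun k x => (abs_sub _ _).trans (add_le_add (abs_cfgMoll_le k hgb x) (hgb x)))
    (fun k x hx => (cfgMoll_eq_zero k hg0 hx).trans (hg0 x (hsub x hx)).symm) (hlim hgi)

end Vale.Agent.P363.Inter
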