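import Vale.Agent.P363.Inter.Slice.Lim
import Vale.Agent.P363.Inter.Slice.Smooth
import Vale.Agent.P363.Exist.One.Centres

/-!
P363, interacting side: the energy space on configuration space as the closure of smooth compactly
supported functions; symmetries and multipliers.
-/

noncomputable section

namespace Vale.Agent.P363.Inter

open MeasureTheory Filter Set
open scoped BigOperators Topology ContDiff

variable {n : ℕ}

/-- `φ` approximates `f`, with gradient `D`, in the energy norm by `C¹` test functions. -/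
structure Approx (φ : ℕ → Cfg n → ℝ) (f : Cfg n → ℝ) (D : Fin n → Fin 3 → Cfg n → ℝ) :
    Prop where
  c1 : ∀ k, IsC1 (φ k)
  val : SqLim volume φ f
  der : ∀ i a, SqLim volume (fun k => slotDeriv i a (φ k)) (D i a)

/-- `f` is in the energy space, with gradient `D`. -/
def InH1 (f : Cfg n → ℝ) (D : Fin n → Fin 3 → Cfg n → ℝ) : Prop := ∃ φ, Approx φ f D

variable {f f' : Cfg n → ℝ} {D D' : Fin n → Fin 3 → Cfg n → ℝ} {φ ψ : ℕ → Cfg n → ℝ}

theorem InH1.memLp (h : InH1 f D) : MemLp f 2 := h.choose_spec.val.lim_mem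

theorem InH1.grad_memLp (h : InH1 f D) (i : Fin n) (a : Fin 3) : MemLp (D i a) 2 :=
  (h.choose_spec.der i a).lim_mem

theorem IsC1.inH1 {φ : Cfg n → ℝ} (h : IsC1 φ) : InH1 φ fun i a => slotDeriv i a φ :=
  ⟨fun _ => φ, fun _ => h, SqLim.const h.memLp, fun i a => SqLim.const (h.memLp_slot i a)⟩

/-- Form limits of test functions are in the energy space. -/
theorem inH1_of_isFormLim {P : (Cfg n → ℝ) → Prop} (h : IsFormLim P f D) : InH1 f D := by
  obtain ⟨hf, hD, φ, hφ, h0, h1⟩ := h
  choose ψ hψ hψ0 hψ1 using fun k => exists_smooth_approx (hφ k).1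
  have hev : ∀ k : ℕ, ∃ j : ℕ, (∫ x, (ψ k j x - φ k x) ^ 2) ≤ 1 / ((k : ℝ) + 1) ∧
      ∀ p : Fin n × Fin 3,
        (∫ x, (slotDeriv p.1 p.2 (ψ k j) x - slotDeriv p.1 p.2 (φ k) x) ^ 2) ≤
          1 / ((k : ℝ) + 1) := by
    intro k
    have hp : (0 : ℝ) < 1 / ((k : ℝ) + 1) := by positivity
    exact (((hψ0 k).eventually_le_const hp).and
      (eventually_all.2 fun p : Fin n × Fin 3 => (hψ1 k p.1 p.2).eventually_le_const hp)).exists
  choose j hj0 hj1 using hev
  have hc : ∀ k, IsC1 (ψ k (j k)) := fun k => ⟨(hψ k _).1.of_le (by simp), (hψ k _).2⟩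
  have ht : ∀ (A B : ℕ → Cfg n → ℝ) (F : Cfg n → ℝ), (∀ k, MemLp (A k) 2) →
      (∀ k, MemLp (B k) 2) → MemLp F 2 → (∀ k, ∫ x, (A k x - B k x) ^ 2 ≤ 1 / ((k : ℝ) + 1)) →
      Tendsto (fun k => ∫ x, (B k x - F x) ^ 2) atTop (𝓝 0) → SqLim volume A F := by
    intro A B F hA hB hF h2 h3
    refine ⟨hA, hF, squeeze_zero (fun k => integral_nonneg fun x => sq_nonneg _) (fun k => ?_)
      (by simpa using (tendsto_one_div_add_atTop_nhds_zero_nat.const_mul 2).add (h3.const_mul 2))⟩
    have i1 : Integrable fun x => 2 * (A k x - B k x) ^ 2 :=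
      ((hA k).sub (hB k)).integrable_sq.const_mul 2
    have i2 : Integrable fun x => 2 * (B k x - F x) ^ 2 :=
      ((hB k).sub hF).integrable_sq.const_mul 2
    refine (integral_mono ((hA k).sub hF).integrable_sq (i1.add i2) fun x => ?_).trans ?_
    · simp only [Pi.add_apply, Pi.sub_apply]
      nlinarith [sq_nonneg (A k x - B k x - (B k x - F x))]
    · refine (integral_add i1 i2).trans_le ?_
      rw [integral_const_mul, integral_const_mul]
      exact add_le_add (mul_le_mul_of_nonneg_left (by simpa using h2 k) zero_le_two) le_rfl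
  refine ⟨fun k => ψ k (j k), hc, ht _ φ f (fun k => (hc k).memLp) (fun k => ?_) hf hj0 h0,
    fun i a => ht _ (fun k => slotDeriv i a (φ k)) _ (fun k => (hc k).memLp_slot i a)
      (fun k => ?_) (hD i a) (fun k => hj1 k (i, a)) (h1 i a)⟩
  · obtain ⟨K, hK⟩ := (hφ k).1.lipschitz
    exact hK.continuous.memLp_of_hasCompactSupport (hφ k).1.compact
  · obtain ⟨K, hK⟩ := (hφ k).1.lipschitz
    refine (memLp_indicator_const 2 (isClosed_tsupport (φ k)).measurableSet
      ((K : ℝ) * ‖unitN i a‖) (Or.inr (hφ k).1.compact.measure_lt_top.ne)).mono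
      (measurable_fderiv_apply_const ℝ (φ k) _).aestronglyMeasurable
      (Eventually.of_forall fun x => ?_)
    by_cases hx : x ∈ tsupport (φ k)
    · rw [indicator_of_mem hx, Real.norm_eq_abs, Real.norm_eq_abs,
        abs_of_nonneg (by positivity : (0 : ℝ) ≤ K * ‖unitN i a‖)]
      exact abs_fderiv_apply_le hK x _
    · simp [slotDeriv, fderiv_of_notMem_tsupport ℝ hx, hx]

/-- Integration by parts. -/
theorem IsC1.integral_slot_mul {φ ψ : Cfg n → ℝ} (h : IsC1 φ) (h' : IsC1 ψ) (i : Fin n)
    (a : Fin 3) : ∫ x, slotDeriv i a φ x * ψ x = -∫ x, φ x * slotDeriv i a ψ x := by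
  have h1 := integral_mul_fderiv_eq_neg_fderiv_mul_of_integrable (μ := (volume : Measure (Cfg n)))
    (f := φ) (g := ψ) (v := unitN i a) ((h.memLp_slot i a).integrable_mul h'.memLp)
    (h.memLp.integrable_mul (h'.memLp_slot i a)) (h.memLp.integrable_mul h'.memLp)
    (fun x _ => h.differentiable x) (fun x _ => h'.differentiable x)
  simp only [slotDeriv_eq]
  linarith

/-- The gradient of a member of the energy space is unique. -/
theorem InH1.grad_unique (h : InH1 f D) (h' : InH1 f' D') (he : f =ᵐ[volume] f') (i : Fin n)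
    (a : Fin 3) : D i a =ᵐ[volume] D' i a := by
  obtain ⟨φ, hφ⟩ := h
  obtain ⟨ψ, hψ⟩ := h'
  have key := ae_eq_of_integral_contDiff_smul_eq
    ((hφ.der i a).lim_mem.locallyIntegrable (by norm_num))
    ((hψ.der i a).lim_mem.locallyIntegrable (by norm_num)) (μ := (volume : Measure (Cfg n)))
  refine key fun g hg hgc => ?_
  have hg1 : IsC1 g := ⟨hg.of_le (by simp), hgc⟩
  have e : ∀ {F : Cfg n → ℝ} {G : Fin n → Fin 3 → Cfg n → ℝ} {χ : ℕ → Cfg n → ℝ},
      Approx χ F G → ∫ x, g x * G i a x = -∫ x, slotDeriv i a g x * F x := fun {F G χ} hχ => by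
    refine tendsto_nhds_unique ((SqLim.const hg1.memLp).integral_mul (hχ.der i a)) ?_
    have := ((SqLim.const (hg1.memLp_slot i a)).integral_mul hχ.val).neg
    refine this.congr fun k => ?_
    rw [hg1.integral_slot_mul (hχ.c1 k)]
    simp
  simp only [smul_eq_mul]
  rw [e hφ, e hψ]
  congr 1
  exact integral_congr_ae (he.mono fun x hx => by simp [hx])

namespace Approx

theorem inH1 (h : Approx φ f D) : InH1 f D := ⟨φ, h⟩

theorem add (h : Approx φ f D) (h' : Approx ψ f' D') :
    Approx (fun k x => φ k x + ψ k x) (fun x => f x + f' x)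
      fun i a x => D i a x + D' i a x :=
  ⟨fun k => (h.c1 k).add (h'.c1 k), h.val.add h'.val, fun i a =>
    ((h.der i a).add (h'.der i a)).congr
      (fun k => Eventually.of_forall fun x => ((h.c1 k).slot_add (h'.c1 k) i a x).symm) .rfl⟩

theorem sub (h : Approx φ f D) (h' : Approx ψ f' D') :
    Approx (fun k x => φ k x - ψ k x) (fun x => f x - f' x)
      fun i a x => D i a x - D' i a x :=
  ⟨fun k => (h.c1 k).sub (h'.c1 k), h.val.sub h'.val, fun i a =>
    ((h.der i a).sub (h'.der i a)).congr
      (fun k => Eventually.of_forall fun x => ((h.c1 k).slot_sub (h'.c1 k) i a x).symm) .rfl⟩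

theorem smul (h : Approx φ f D) (t : ℝ) :
    Approx (fun k x => t * φ k x) (fun x => t * f x) fun i a x => t * D i a x :=
  ⟨fun k => (h.c1 k).smul t, h.val.smul t, fun i a => ((h.der i a).smul t).congr
    (fun k => Eventually.of_forall fun x => ((h.c1 k).slot_smul t i a x).symm) .rfl⟩

/-- A bounded multiplier with bounded derivatives. -/
theorem mul (h : Approx φ f D) {w : Cfg n → ℝ} (hw : ContDiff ℝ 1 w) {B : ℝ}
    (hB : ∀ x, |w x| ≤ B) (hB' : ∀ i a x, |slotDeriv i a w x| ≤ B) :
    Approx (fun k x => w x * φ k x) (fun x => w x * f x)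
      fun i a x => w x * D i a x + slotDeriv i a w x * f x :=
  ⟨fun k => (h.c1 k).mul_left hw, h.val.mul_bdd hw.continuous.aestronglyMeasurable hB,
    fun i a => (((h.der i a).mul_bdd hw.continuous.aestronglyMeasurable hB).add
      (h.val.mul_bdd (measurable_fderiv_apply_const ℝ w _).aestronglyMeasurable
        (hB' i a))).congr (fun k => Eventually.of_forall fun x =>
          ((h.c1 k).slot_mul (hw.differentiable one_ne_zero x) i a).symm) .rfl⟩

theorem subseq (h : Approx φ f D) {ns : ℕ → ℕ} (hns : StrictMono ns) :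
    Approx (fun j => φ (ns j)) f D :=
  ⟨fun j => h.c1 _, h.val.subseq hns, fun i a => (h.der i a).subseq hns⟩

/-- Changing the limit on a null set does not change the gradient. -/
theorem congr_limit (h : Approx φ f D) (h' : InH1 f' D') (he : f =ᵐ[volume] f') :
    Approx φ f' D' :=
  ⟨h.c1, h.val.congr (fun _ => .rfl) he,
    fun i a => (h.der i a).congr (fun _ => .rfl) (h.inH1.grad_unique h' he i a)⟩

end Approx

/-- Mirror of the electrons selected by `s`. -/
def mirL (s : Fin n → Bool) : Cfg n ≃L[ℝ] Cfg n :=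
  ContinuousLinearEquiv.piCongrRight fun j =>
    if s j then One.mirrorIso.toContinuousLinearEquiv else ContinuousLinearEquiv.refl ℝ Space

/-- Permutation of the electrons. -/
def permL (p : Equiv.Perm (Fin n)) : Cfg n ≃L[ℝ] Cfg n :=
  LinearEquiv.toContinuousLinearEquiv (LinearEquiv.funCongrLeft ℝ Space p)

theorem mirL_apply (s : Fin n → Bool) (x : Cfg n) (j : Fin n) :
    mirL s x j = if s j then mirror (x j) else x j := by
  cases h : s j <;> simp [mirL, h, One.mirrorIso_apply]

theorem permL_apply (p : Equiv.Perm (Fin n)) (x : Cfg n) : permL p x = x ∘ p := rfl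

theorem measurePreserving_mirL (s : Fin n → Bool) :
    MeasurePreserving (mirL s : Cfg n → Cfg n) volume volume := by
  have h : ∀ j, MeasurePreserving (fun y : Space => if s j then mirror y else y) volume volume :=
    fun j => by
      cases s j
      · exact MeasurePreserving.id _
      · simpa using One.measurePreserving_mirror
  have e : (mirL s : Cfg n → Cfg n) = fun x j => if s j then mirror (x j) else x j :=
    funext fun x => funext fun j => mirL_apply s x j
  rw [e]
  exact measurePreserving_pi _ _ h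

theorem measurePreserving_permL (p : Equiv.Perm (Fin n)) :
    MeasurePreserving (permL p : Cfg n → Cfg n) volume volume := by
  have h := volume_measurePreserving_piCongrLeft (fun _ : Fin n => Space) p
  convert (h.symm _) using 1
  funext x j
  simp [permL_apply, MeasurableEquiv.piCongrLeft, Equiv.piCongrLeft, Equiv.piCongrLeft']

/-- The sign of coordinate `a` under the selected mirrors. -/
def mirSign (s : Bool) (a : Fin 3) : ℝ := if s = true ∧ a = 2 then -1 else 1

theorem mirL_unitN (s : Fin n → Bool) (i : Fin n) (a : Fin 3) :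
    mirL s (unitN i a) = mirSign (s i) a • unitN i a := by
  funext j
  rw [mirL_apply, Pi.smul_apply]
  rcases eq_or_ne j i with rfl | hj
  · cases hs : s j
    · simp [mirSign, unitN]
    · ext b
      fin_cases a <;> fin_cases b <;>
        simp [mirSign, unitN, One.mirror_apply, unit3]
  · have : mirror (0 : Space) = 0 := by simp [mirror, height]
    cases hs : s j <;> simp [unitN, Pi.single_eq_of_ne hj, this]

theorem permL_unitN (p : Equiv.Perm (Fin n)) (i : Fin n) (a : Fin 3) :
    permL p (unitN i a) = unitN (p.symm i) a := by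
  funext j
  simp [permL_apply, unitN, Pi.single_apply, Equiv.eq_symm_apply]

theorem Approx.comp_mirL (h : Approx φ f D) (s : Fin n → Bool) :
    Approx (fun k x => φ k (mirL s x)) (fun x => f (mirL s x))
      fun i a x => mirSign (s i) a * D i a (mirL s x) := by
  have hT := measurePreserving_mirL s
  have he := (mirL s).toHomeomorph.measurableEmbedding
  refine ⟨fun k => (h.c1 k).comp_linear _, h.val.comp hT he, fun i a =>
    (((h.der i a).comp hT he).smul (mirSign (s i) a)).congr
      (fun k => Eventually.of_forall fun x => ?_) .rfl⟩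
  simp only [slotDeriv_eq]
  have hd : HasFDerivAt (fun z => φ k (mirL s z)) _ x :=
    ((h.c1 k).differentiable _).hasFDerivAt.comp x (mirL s).hasFDerivAt
  rw [hd.fderiv]
  simp [mirL_unitN]

theorem Approx.comp_permL (h : Approx φ f D) (p : Equiv.Perm (Fin n)) :
    Approx (fun k x => φ k (permL p x)) (fun x => f (permL p x))
      fun i a x => D (p.symm i) a (permL p x) := by
  have hT := measurePreserving_permL p
  have he := (permL p).toHomeomorph.measurableEmbedding
  refine ⟨fun k => (h.c1 k).comp_linear _, h.val.comp hT he, fun i a =>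
    ((h.der (p.symm i) a).comp hT he).congr (fun k => Eventually.of_forall fun x => ?_) .rfl⟩
  simp only [slotDeriv_eq]
  have hd : HasFDerivAt (fun z => φ k (permL p z)) _ x :=
    ((h.c1 k).differentiable _).hasFDerivAt.comp x (permL p).hasFDerivAt
  rw [hd.fderiv]
  simp [permL_unitN]

/-- A symmetry of the limit can be imposed on the approximants. -/
theorem InH1.exists_sym (h : InH1 f D) {T : Cfg n ≃L[ℝ] Cfg n} {D₁ : Fin n → Fin 3 → Cfg n → ℝ}
    (hT : ∀ φ, Approx φ f D → Approx (fun k x => φ k (T x)) (fun x => f (T x)) D₁)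
    (hTT : ∀ x, T (T x) = x) {σ : ℝ} (hσ : σ ^ 2 = 1)
    (hf : ∀ᵐ x, f (T x) = σ * f x) :
    ∃ ψ, Approx ψ f D ∧ ∀ k x, ψ k (T x) = σ * ψ k x := by
  obtain ⟨φ, hφ⟩ := h
  refine ⟨fun k x => (1 / 2) * (φ k x + σ * φ k (T x)),
    ((hφ.add ((hT φ hφ).smul σ)).smul (1 / 2)).congr_limit ⟨φ, hφ⟩ ?_, fun k x => ?_⟩
  · filter_upwards [hf] with x hx
    rw [hx]
    linear_combination (f x / 2) * hσ
  · simp only [hTT]
    linear_combination (-(φ k (T x)) / 2) * hσ

end Vale.Agent.P363.Inter
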