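import Vale.Agent.P363.Inter.Slice.Ims
import Vale.Agent.P363.Exist.Mol
import Vale.Agent.P363.Exist.Proj

/-!
P363, interacting side: the form seen from one electron, and lower bounds from one electron
energies.
-/

noncomputable section

namespace Vale.Agent.P363.Inter

open MeasureTheory Filter Set
open scoped BigOperators Topology

variable {m : ℕ}

/-- Repulsion between electron `i` and the others. -/
def repelN (i : Fin (m + 1)) (z : Cfg (m + 1)) : ℝ :=
  ∑ k, 1 / ‖z i - z (i.succAbove k)‖

theorem repelN_nonneg (i : Fin (m + 1)) (z : Cfg (m + 1)) : 0 ≤ repelN i z :=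
  Finset.sum_nonneg fun _ _ => by positivity

theorem two_pairs {n : ℕ} (y : Cfg n) :
    ∑ i, ∑ k, 1 / ‖y i - y k‖ = 2 * ∑ i, ∑ k ∈ Finset.Ioi i, 1 / ‖y i - y k‖ := by
  have h1 : ∀ i k : Fin n, 1 / ‖y i - y k‖ =
      (if i < k then 1 / ‖y i - y k‖ else 0) + (if k < i then 1 / ‖y i - y k‖ else 0) := by
    intro i k
    rcases lt_trichotomy i k with h | h | h
    · simp [h, not_lt.2 h.le]
    · simp [h]
    · simp [h, not_lt.2 h.le]
  have e : ∀ i : Fin n, ∑ k ∈ Finset.Ioi i, 1 / ‖y i - y k‖ =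
      ∑ k, if i < k then 1 / ‖y i - y k‖ else 0 := fun i => by
    rw [← Finset.sum_filter]; congr 1; ext k; simp
  rw [two_mul]
  simp only [e]
  conv_lhs => arg 2; ext i; arg 2; ext k; rw [h1 i k]
  simp only [Finset.sum_add_distrib]
  congr 1
  rw [Finset.sum_comm]
  exact Finset.sum_congr rfl fun i _ => Finset.sum_congr rfl fun k _ => by rw [norm_sub_rev]

theorem molPot_ins (l lam : ℝ) (i : Fin (m + 1)) (x : Space) (y : Cfg m) :
    molPot l lam (i.insertNth x y : Cfg (m + 1)) =
      -attract l x + molPot l lam y + lam * repelN i (i.insertNth x y) := by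
  set z : Cfg (m + 1) := i.insertNth x y
  have hz : ∀ k, z (i.succAbove k) = y k := fun k => Fin.insertNth_apply_succAbove _ _ _ _
  have h1 : ∑ j, attract l (z j) = attract l x + ∑ k, attract l (y k) := by
    rw [Fin.sum_univ_succAbove _ i]; simp [z]
  have h2 : ∑ a, ∑ b, 1 / ‖z a - z b‖ =
      2 * repelN i z + ∑ a, ∑ b, 1 / ‖y a - y b‖ := by
    have hrow : ∀ k, ∑ b, 1 / ‖z (i.succAbove k) - z b‖ =
        1 / ‖z i - y k‖ + ∑ b, 1 / ‖y k - y b‖ := fun k => by
      rw [Fin.sum_univ_succAbove _ i]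
      simp only [hz]
      rw [norm_sub_rev]
    rw [Fin.sum_univ_succAbove _ i, Fin.sum_univ_succAbove _ i,
      Finset.sum_congr rfl fun k _ => hrow k, Finset.sum_add_distrib]
    simp only [ hz, repelN, sub_self, norm_zero, div_zero, zero_add]
    ring
  rw [two_pairs, two_pairs] at h2
  simp only [molPot, h1]
  linear_combination (lam / 2) * h2

/-- The energy of electron `i` alone. -/
def slotOne (l : ℝ) (i : Fin (m + 1)) (f : Cfg (m + 1) → ℝ)
    (D : Fin (m + 1) → Fin 3 → Cfg (m + 1) → ℝ) : ℝ :=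
  (1 / 2) * slotKin i D - ∫ z, attract l (z i) * f z ^ 2

variable {φ : Cfg (m + 1) → ℝ}

theorem InH1.integrable_attract {f : Cfg (m + 1) → ℝ}
    {D : Fin (m + 1) → Fin 3 → Cfg (m + 1) → ℝ} (h : InH1 f D) (l : ℝ) (i : Fin (m + 1)) :
    Integrable fun z => attract l (z i) * f z ^ 2 := by
  have hp : ∀ p : Space, Integrable fun z => f z / ‖z i - p‖ * f z := fun p => by
    simpa only [pole, Pi.mul_def] using
      (h.memLp_div i (c := fun _ => p) continuous_const).integrable_mul h.memLp
  refine ((hp (nuc l)).add (hp (-nuc l))).congr (Eventually.of_forall fun z => ?_)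
  simp only [attract, Pi.add_apply, sub_neg_eq_add]
  ring

theorem InH1.integrable_repelN {f : Cfg (m + 1) → ℝ}
    {D : Fin (m + 1) → Fin 3 → Cfg (m + 1) → ℝ} (h : InH1 f D) (i : Fin (m + 1)) :
    Integrable fun z => repelN i z * f z ^ 2 := by
  have hp : ∀ k, Integrable fun z => f z / ‖z i - z (i.succAbove k)‖ * f z := fun k => by
    simpa only [pole, Fin.removeNth, Pi.mul_def] using
      (h.memLp_div i (c := fun y => y k) (continuous_apply k)).integrable_mul h.memLp
  refine (integrable_finsetSum Finset.univ fun k _ => hp k).congr (Eventually.of_forall fun z => ?_)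
  simp only [repelN, Finset.sum_mul]
  exact Finset.sum_congr rfl fun k _ => by ring

/-- The form as the energy of electron `i`, of the others, and their repulsion. -/
theorem IsC1.formQ_split (h : IsC1 φ) (l lam : ℝ) (i : Fin (m + 1)) :
    Integrable (fun x => formQ l lam fun y => φ (i.insertNth x y)) ∧
    formQ l lam φ = slotOne l i φ (fun i a => slotDeriv i a φ) +
      (∫ x, formQ l lam fun y => φ (i.insertNth x y)) + lam * ∫ z, repelN i z * φ z ^ 2 := by
  have hH := h.inH1
  have i1 : Integrable fun z => (1 / 2 : ℝ) * ∑ a, slotDeriv i a φ z ^ 2 :=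
    (integrable_finsetSum _ fun a _ => (h.memLp_slot i a).integrable_sq).const_mul _
  have i2 := hH.integrable_attract l i
  have i3 := (hH.integrable_repelN i).const_mul lam
  have i0 : Integrable fun z => (1 / 2 : ℝ) * ∑ j, ∑ a, slotDeriv j a φ z ^ 2 +
      molPot l lam z * φ z ^ 2 := by
    refine (integrable_bform hH hH l lam 0).congr (Eventually.of_forall fun z => ?_)
    simp only [sub_zero, sq]; ring
  set R : Cfg (m + 1) → ℝ := fun z => ((1 / 2 : ℝ) * ∑ j, ∑ a, slotDeriv j a φ z ^ 2 +
    molPot l lam z * φ z ^ 2) - ((1 / 2 : ℝ) * ∑ a, slotDeriv i a φ z ^ 2 -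
      attract l (z i) * φ z ^ 2) - lam * (repelN i z * φ z ^ 2) with hR
  have iR : Integrable R := (i0.sub (i1.sub i2)).sub i3
  have hRy : ∀ x, ∫ y, R (i.insertNth x y) = formQ l lam fun y => φ (i.insertNth x y) := fun x => by
    refine integral_congr_ae (Eventually.of_forall fun y => ?_)
    simp only [hR, molPot_ins, Fin.insertNth_apply_same, h.slot_sliceY,
      Fin.sum_univ_succAbove _ i]
    ring
  refine ⟨(integrable_slices i iR).2.congr (Eventually.of_forall hRy), ?_⟩
  have hRi : ∫ z, R z = ∫ x, formQ l lam fun y => φ (i.insertNth x y) := by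
    rw [integral_split i iR]
    exact integral_congr_ae (Eventually.of_forall hRy)
  have hRv : ∫ z, R z = formQ l lam φ - slotOne l i φ (fun i a => slotDeriv i a φ) -
      lam * ∫ z, repelN i z * φ z ^ 2 := by
    simp only [hR]
    have i12 : Integrable fun z => (1 / 2 : ℝ) * ∑ a, slotDeriv i a φ z ^ 2 -
        attract l (z i) * φ z ^ 2 := i1.sub i2
    have i012 : Integrable fun z => ((1 / 2 : ℝ) * ∑ j, ∑ a, slotDeriv j a φ z ^ 2 +
        molPot l lam z * φ z ^ 2) - ((1 / 2 : ℝ) * ∑ a, slotDeriv i a φ z ^ 2 -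
          attract l (z i) * φ z ^ 2) := i0.sub i12
    rw [integral_sub i012 i3, integral_sub i0 i12, integral_sub i1 i2,
      integral_const_mul lam, integral_const_mul (1 / 2 : ℝ),
      integral_finsetSum _ fun a _ => (h.memLp_slot i a).integrable_sq]
    rfl
  linarith

/-- A lower bound for one electron gives one for electron `i`. -/
theorem IsC1.slotOne_ge (h : IsC1 φ) {l e : ℝ}
    (he : ∀ ψ : Space → ℝ, IsRealTest ψ → e * (∫ x, ψ x ^ 2) ≤ formOne l ψ) (i : Fin (m + 1)) :
    e * ∫ z, φ z ^ 2 ≤ slotOne l i φ fun i a => slotDeriv i a φ := by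
  have i1 : Integrable fun z => (1 / 2 : ℝ) * ∑ a, slotDeriv i a φ z ^ 2 :=
    (integrable_finsetSum _ fun a _ => (h.memLp_slot i a).integrable_sq).const_mul _
  have i2 := h.inH1.integrable_attract l i
  have i12 : Integrable fun z => (1 / 2 : ℝ) * ∑ a, slotDeriv i a φ z ^ 2 -
      attract l (z i) * φ z ^ 2 := i1.sub i2
  have i4 := h.memLp.integrable_sq.const_mul e
  have e1 : slotOne l i φ (fun i a => slotDeriv i a φ) = ∫ y : Cfg m, ∫ x : Space,
      ((1 / 2 : ℝ) * ∑ a, slotDeriv i a φ (i.insertNth x y) ^ 2 -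
        attract l x * φ (i.insertNth x y) ^ 2) := by
    rw [slotOne, slotKin, ← integral_finsetSum _ fun a _ => (h.memLp_slot i a).integrable_sq,
      ← integral_const_mul, ← integral_sub i1 i2, integral_insertNth i i12]
    simp
  rw [e1, ← integral_const_mul, integral_insertNth i i4]
  refine integral_mono (integrable_prod_ins i i4).integral_prod_right
    (((integrable_prod_ins i i12).integral_prod_right).congr
      (Eventually.of_forall fun y => by simp)) fun y => ?_
  simp only [integral_const_mul, ← h.slot_sliceX i _ y]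
  exact he _ ⟨(h.sliceX i y).1.lipschitzWith_of_hasCompactSupport (h.sliceX i y).2 one_ne_zero,
    (h.sliceX i y).2⟩

/-- A lower bound for the others gives one in terms of electron `i` alone. -/
theorem IsC1.formQ_ge_slot (h : IsC1 φ) {l lam c : ℝ} (hlam : 0 ≤ lam)
    (hc : ∀ ψ : Cfg m → ℝ, IsC1 ψ → c * (∫ y, ψ y ^ 2) ≤ formQ l lam ψ) (i : Fin (m + 1)) :
    c * (∫ z, φ z ^ 2) + slotOne l i φ (fun i a => slotDeriv i a φ) ≤ formQ l lam φ := by
  obtain ⟨hi, he⟩ := h.formQ_split l lam i
  have h4 := h.memLp.integrable_sq.const_mul c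
  have h1 : c * (∫ z, φ z ^ 2) ≤ ∫ x, formQ l lam fun y => φ (i.insertNth x y) := by
    rw [← integral_const_mul, integral_split i h4]
    refine integral_mono (integrable_slices i h4).2 hi fun x => ?_
    simp only [integral_const_mul]
    exact hc _ (h.sliceY i x)
  have h2 : 0 ≤ lam * ∫ z, repelN i z * φ z ^ 2 :=
    mul_nonneg hlam (integral_nonneg fun z => mul_nonneg (repelN_nonneg i z) (sq_nonneg _))
  linarith

/-- Every electron has energy at least the lowest one electron level. -/
theorem formQ_ge_count {l lam e : ℝ} (hlam : 0 ≤ lam)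
    (he : ∀ ψ : Space → ℝ, IsRealTest ψ → e * (∫ x, ψ x ^ 2) ≤ formOne l ψ) :
    ∀ (n : ℕ) (ψ : Cfg n → ℝ), IsC1 ψ → (n : ℝ) * e * (∫ y, ψ y ^ 2) ≤ formQ l lam ψ := by
  intro n
  induction n with
  | zero =>
    intro ψ _
    simp [formQ, molPot]
  | succ n ih =>
    intro ψ hψ
    have h1 := hψ.formQ_ge_slot hlam ih 0
    have h2 := hψ.slotOne_ge he 0
    push_cast
    linarith

theorem orbitals_ortho {l eg eu e' : ℝ} {g u : Space → ℝ} {Dg Du : Fin 3 → Space → ℝ}
    (h : ZeroOrder l g u Dg Du eg eu e') :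
    Exist.IsOrtho ![g, u] := by
  refine Exist.ortho_pair h.g_lim.1 h.u_lim.1 h.g_mass h.u_mass ?_
  have e1 : Exist.ip g u = ∫ x, g (mirror x) * u (mirror x) :=
    (One.integral_comp_mirror fun x => g x * u x).symm
  have e2 : ∫ x, g (mirror x) * u (mirror x) = -Exist.ip g u := by
    rw [Exist.ip, ← integral_neg]
    refine integral_congr_ae ?_
    filter_upwards [h.g_even, h.u_odd] with x h1 h2
    rw [h1, h2]; ring
  linarith [e1.trans e2]

/-- The lowest level bounds the one electron form. -/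
theorem formOne_ge {l eg eu e' : ℝ} {g u : Space → ℝ} {Dg Du : Fin 3 → Space → ℝ}
    (h : ZeroOrder l g u Dg Du eg eu e') (ψ : Space → ℝ) (hψ : IsRealTest ψ) :
    eg * (∫ x, ψ x ^ 2) ≤ formOne l ψ := by
  have hb := Exist.bessel (orbitals_ortho h) (Exist.memLp_test hψ)
  simp only [Fin.sum_univ_two, Matrix.cons_val_zero, Matrix.cons_val_one, Exist.ip,
    Exist.mass] at hb
  have := h.gap ψ hψ
  nlinarith [mul_le_mul_of_nonneg_left hb (sub_nonneg.2 (h.eg_lt.trans h.eu_lt).le),
    mul_nonneg (sub_nonneg.2 h.eg_lt.le) (sq_nonneg (∫ x, u x * ψ x))]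

end Vale.Agent.P363.Inter
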