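import Vale.Agent.P363.Inter.Slice.Ims
import Vale.Agent.P363.Inter.Defs

/-!
P363, interacting side: regularised exponential weights and their derivatives.
-/

noncomputable section

namespace Vale.Agent.P363.Inter

open MeasureTheory Filter Set
open scoped BigOperators Topology RealInnerProductSpace

/-- The smoothed distance to the origin. -/
def smoothNorm (x : Space) : ℝ := √(1 + ‖x‖ ^ 2)

theorem one_le_smoothNorm (x : Space) : 1 ≤ smoothNorm x := by
  unfold smoothNorm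
  exact Real.one_le_sqrt.2 (by linarith [sq_nonneg ‖x‖])

theorem smoothNorm_pos (x : Space) : 0 < smoothNorm x :=
  one_pos.trans_le (one_le_smoothNorm x)

theorem norm_le_smoothNorm (x : Space) : ‖x‖ ≤ smoothNorm x :=
  Real.le_sqrt_of_sq_le (by linarith)

theorem smoothNorm_le (x : Space) : smoothNorm x ≤ 1 + ‖x‖ :=
  Real.sqrt_le_iff.2 ⟨by positivity, by nlinarith [norm_nonneg x]⟩

theorem hasFDerivAt_smoothNorm (x : Space) :
    HasFDerivAt smoothNorm ((smoothNorm x)⁻¹ • innerSL ℝ x) x := by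
  have h := ((hasFDerivAt_id x).norm_sq.const_add 1).sqrt
    (ne_of_gt (by positivity : (0 : ℝ) < 1 + ‖id x‖ ^ 2))
  refine h.congr_fderiv ?_
  ext v
  simp [smoothNorm]
  ring

theorem contDiff_smoothNorm : ContDiff ℝ 1 smoothNorm :=
  (contDiff_const.add (contDiff_id.norm_sq ℝ)).sqrt fun x =>
    ne_of_gt (by positivity : (0 : ℝ) < 1 + ‖id x‖ ^ 2)

/-- The regularised exponent. -/
def expo (δ : ℝ) (x : Space) : ℝ := smoothNorm x / (1 + δ * smoothNorm x)

variable {δ : ℝ}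

theorem expo_den_pos (hδ : 0 ≤ δ) (x : Space) : 0 < 1 + δ * smoothNorm x := by
  have := smoothNorm_pos x
  positivity

theorem expo_nonneg (hδ : 0 ≤ δ) (x : Space) : 0 ≤ expo δ x :=
  div_nonneg (smoothNorm_pos x).le (expo_den_pos hδ x).le

theorem expo_zero (x : Space) : expo 0 x = smoothNorm x := by simp [expo]

theorem expo_le (hδ : 0 ≤ δ) (x : Space) : expo δ x ≤ smoothNorm x :=
  div_le_self (smoothNorm_pos x).le (by nlinarith [smoothNorm_pos x])

theorem expo_le_inv (hδ : 0 < δ) (x : Space) : expo δ x ≤ 1 / δ := by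
  rw [expo, div_le_div_iff₀ (expo_den_pos hδ.le x) hδ]
  linarith

theorem contDiff_expo (hδ : 0 ≤ δ) : ContDiff ℝ 1 (expo δ) :=
  contDiff_smoothNorm.div (contDiff_const.add (contDiff_const.mul contDiff_smoothNorm))
    fun x => (expo_den_pos hδ x).ne'

theorem hasFDerivAt_expo (hδ : 0 ≤ δ) (x : Space) :
    HasFDerivAt (expo δ) ((((1 + δ * smoothNorm x) ^ 2)⁻¹ * (smoothNorm x)⁻¹) • innerSL ℝ x) x := by
  have hs := hasFDerivAt_smoothNorm x
  have hd := (expo_den_pos hδ x).ne'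
  refine (hs.mul ((hasDerivAt_inv hd).comp_hasFDerivAt x ((hs.const_mul δ).const_add 1))).congr_fderiv ?_
  ext v
  have := (smoothNorm_pos x).ne'
  simp
  field_simp
  ring

theorem sum_deriv3_expo_sq_le (hδ : 0 ≤ δ) (x : Space) : ∑ a, deriv3 a (expo δ) x ^ 2 ≤ 1 := by
  have hd := expo_den_pos hδ x
  have hs := smoothNorm_pos x
  have e : ∀ a, deriv3 a (expo δ) x = ((1 + δ * smoothNorm x) ^ 2)⁻¹ * (smoothNorm x)⁻¹ * x a := by
    intro a
    rw [deriv3, (hasFDerivAt_expo hδ x).fderiv]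
    simp [unit3, EuclideanSpace.inner_single_right]
  simp only [e, mul_pow, ← Finset.mul_sum, ← EuclideanSpace.real_norm_sq_eq]
  have h1 : ((1 + δ * smoothNorm x) ^ 2)⁻¹ ≤ 1 :=
    inv_le_one_of_one_le₀ (one_le_pow₀ (le_add_of_nonneg_right (by positivity)))
  have h2 : ‖x‖ * (smoothNorm x)⁻¹ ≤ 1 := by
    rw [← div_eq_mul_inv, div_le_one hs]; exact norm_le_smoothNorm x
  have h3 : ((1 + δ * smoothNorm x) ^ 2)⁻¹ * (‖x‖ * (smoothNorm x)⁻¹) ≤ 1 := by
    refine mul_le_one₀ h1 (by positivity) h2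
  calc (((1 + δ * smoothNorm x) ^ 2)⁻¹) ^ 2 * ((smoothNorm x)⁻¹) ^ 2 * ‖x‖ ^ 2
      = (((1 + δ * smoothNorm x) ^ 2)⁻¹ * (‖x‖ * (smoothNorm x)⁻¹)) ^ 2 := by ring
    _ ≤ 1 := pow_le_one₀ (by positivity) h3

variable {n : ℕ}

/-- The exponential weight with rate `c i` in electron `i`. -/
def wexp (c : Fin n → ℝ) (δ : ℝ) (z : Cfg n) : ℝ := Real.exp (∑ i, c i * expo δ (z i))

theorem weight_eq_wexp (ε δ : ℝ) : weight ε δ = wexp (fun _ => ε) δ := by
  funext y
  simp only [weight, wexp, expo, smoothNorm, Finset.mul_sum]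

theorem wexp_pos (c : Fin n → ℝ) (δ : ℝ) (z : Cfg n) : 0 < wexp c δ z := Real.exp_pos _

theorem one_le_wexp {c : Fin n → ℝ} (hc : ∀ i, 0 ≤ c i) (hδ : 0 ≤ δ) (z : Cfg n) :
    1 ≤ wexp c δ z :=
  Real.one_le_exp (Finset.sum_nonneg fun i _ => mul_nonneg (hc i) (expo_nonneg hδ _))

theorem wexp_le_zero {c : Fin n → ℝ} (hc : ∀ i, 0 ≤ c i) (hδ : 0 ≤ δ) (z : Cfg n) :
    wexp c δ z ≤ wexp c 0 z :=
  Real.exp_le_exp.2 (Finset.sum_le_sum fun i _ =>
    mul_le_mul_of_nonneg_left ((expo_le hδ _).trans_eq (expo_zero _).symm) (hc i))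

theorem wexp_mono {c c' : Fin n → ℝ} (h : ∀ i, c i ≤ c' i) (hδ : 0 ≤ δ) (z : Cfg n) :
    wexp c δ z ≤ wexp c' δ z :=
  Real.exp_le_exp.2 (Finset.sum_le_sum fun i _ =>
    mul_le_mul_of_nonneg_right (h i) (expo_nonneg hδ _))

theorem contDiff_wexp (c : Fin n → ℝ) (hδ : 0 ≤ δ) : ContDiff ℝ 1 (wexp c δ) :=
  (ContDiff.sum fun i _ => contDiff_const.mul
    ((contDiff_expo hδ).comp (contDiff_apply ℝ Space i))).exp

theorem slotDeriv_wexp (c : Fin n → ℝ) (hδ : 0 ≤ δ) (i : Fin n) (a : Fin 3) (z : Cfg n) :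
    slotDeriv i a (wexp c δ) z = wexp c δ z * (c i * deriv3 a (expo δ) (z i)) := by
  have hd : ∀ j, HasFDerivAt (fun z : Cfg n => c j * expo δ (z j))
      (c j • (fderiv ℝ (expo δ) (z j)).comp (ContinuousLinearMap.proj j)) z := fun j =>
    ((((contDiff_expo hδ).differentiable one_ne_zero _).hasFDerivAt).comp z
      (ContinuousLinearMap.proj (R := ℝ) (φ := fun _ : Fin n => Space) j).hasFDerivAt).const_mul (c j)
  have h : HasFDerivAt (wexp c δ) _ z :=
    (HasFDerivAt.fun_sum (u := Finset.univ) fun j _ => hd j).exp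
  rw [slotDeriv, h.fderiv]
  simp only [smul_apply, sum_apply, ContinuousLinearMap.comp_apply,
    ContinuousLinearMap.proj_apply, smul_eq_mul]
  have e : ∑ j, c j * fderiv ℝ (expo δ) (z j) ((Pi.single i (unit3 a) : Cfg n) j) =
      c i * fderiv ℝ (expo δ) (z i) (unit3 a) := by
    rw [Finset.sum_eq_single i (fun j _ hj => by simp [hj]) (by simp)]
    simp
  rw [e]
  rfl

theorem gradMul_wexp_le (c : Fin n → ℝ) (hδ : 0 ≤ δ) (z : Cfg n) :
    gradMul (wexp c δ) z ≤ (∑ i, c i ^ 2) * wexp c δ z ^ 2 := by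
  rw [gradMul, Finset.sum_mul]
  refine Finset.sum_le_sum fun i _ => ?_
  simp only [slotDeriv_wexp c hδ, mul_pow, ← Finset.mul_sum]
  have := sum_deriv3_expo_sq_le hδ (z i)
  nlinarith [mul_le_mul_of_nonneg_left this (mul_nonneg (sq_nonneg (wexp c δ z)) (sq_nonneg (c i)))]

theorem isMult_wexp (c : Fin n → ℝ) (hδ : 0 < δ) : IsMult (wexp c δ) := by
  set B := Real.exp (∑ i, |c i| * (1 / δ))
  have hB : ∀ z, |wexp c δ z| ≤ B := fun z => by
    rw [abs_of_pos (wexp_pos c δ z)]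
    refine Real.exp_le_exp.2 (Finset.sum_le_sum fun i _ => ?_)
    exact mul_le_mul (le_abs_self _) (expo_le_inv hδ _) (expo_nonneg hδ.le _) (abs_nonneg _)
  refine ⟨contDiff_wexp c hδ.le, B + B * ∑ i, |c i|, fun z => ?_, fun i a z => ?_⟩
  · exact (hB z).trans (le_add_of_nonneg_right (by positivity))
  · refine le_add_of_nonneg_of_le (Real.exp_pos _).le ?_
    rw [slotDeriv_wexp c hδ.le, abs_mul, abs_mul]
    refine mul_le_mul (hB z) ?_ (by positivity) (Real.exp_pos _).le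
    have h1 : |deriv3 a (expo δ) (z i)| ≤ 1 := by
      have h2 := (Finset.single_le_sum (f := fun a => deriv3 a (expo δ) (z i) ^ 2)
        (fun a _ => sq_nonneg _) (Finset.mem_univ a)).trans (sum_deriv3_expo_sq_le hδ.le (z i))
      exact (sq_le_one_iff_abs_le_one _).1 h2
    calc |c i| * |deriv3 a (expo δ) (z i)| ≤ |c i| * 1 :=
          mul_le_mul_of_nonneg_left h1 (abs_nonneg _)
      _ ≤ ∑ j, |c j| := by
          rw [mul_one]
          exact Finset.single_le_sum (f := fun j => |c j|) (fun j _ => abs_nonneg _)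
            (Finset.mem_univ i)

theorem tendsto_wexp (c : Fin n → ℝ) (z : Cfg n) :
    Tendsto (fun j : ℕ => wexp c (1 / ((j : ℝ) + 1)) z) atTop (𝓝 (wexp c 0 z)) := by
  refine (Real.continuous_exp.tendsto _).comp (tendsto_finsetSum _ fun i _ =>
    Tendsto.const_mul _ ?_)
  have h0 : (0 : ℝ) < 1 + 0 * smoothNorm (z i) := by simp
  exact tendsto_const_nhds.div (((tendsto_one_div_add_atTop_nhds_zero_nat (𝕜 := ℝ)).mul_const
    _).const_add 1) h0.ne'

/-- A bound uniform in the regularisation gives the bound for the exact weight. -/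
theorem memLp_wexp_mul {c : Fin n → ℝ} {g : Cfg n → ℝ} {K : ℝ}
    (hm : ∀ j : ℕ, MemLp (fun z => wexp c (1 / ((j : ℝ) + 1)) z * g z) 2)
    (hK : ∀ j : ℕ, ∫ z, (wexp c (1 / ((j : ℝ) + 1)) z * g z) ^ 2 ≤ K) :
    MemLp (fun z => wexp c 0 z * g z) 2 ∧ ∫ z, (wexp c 0 z * g z) ^ 2 ≤ K := by
  obtain ⟨hi, hle⟩ := integrable_of_tendsto_bound
    (F := fun j z => (wexp c (1 / ((j : ℝ) + 1)) z * g z) ^ 2)
    (fun j => (hm j).integrable_sq) (fun j => Eventually.of_forall fun z => sq_nonneg _)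
    (Eventually.of_forall fun z => ((tendsto_wexp c z).mul_const (g z)).pow 2) hK tendsto_const_nhds
  refine ⟨(memLp_two_iff_integrable_sq (aestronglyMeasurable_of_tendsto_ae atTop
    (fun j => (hm j).1) (Eventually.of_forall fun z => (tendsto_wexp c z).mul_const (g z)))).2 hi,
    hle⟩

end Vale.Agent.P363.Inter
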