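import Vale.Agent.P363.Inter.Slice.Lower
import Vale.Agent.P363.Inter.Slice.Wexp

/-!
P363, interacting side: exponential decay in the position of each electron for solutions below
the threshold, with the gradient, uniformly in the coupling.
-/

noncomputable section

namespace Vale.Agent.P363.Inter

open MeasureTheory Filter Set
open scoped BigOperators Topology

variable {m : ℕ}

theorem attract_far_le (l : ℝ) {R : ℝ} (hR : |l| < R) {x : Space} (hx : R ≤ ‖x‖) :
    attract l x ≤ 2 / (R - |l|) := by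
  have hn : ‖nuc l‖ = |l| := by simp [nuc, norm_smul, One.norm_unit3]
  have h0 : 0 < R - |l| := sub_pos.2 hR
  have h1 : R - |l| ≤ ‖x - nuc l‖ := by
    linarith [norm_sub_norm_le x (nuc l)]
  have h2 : R - |l| ≤ ‖x + nuc l‖ := by
    have := norm_sub_norm_le x (-nuc l)
    rw [norm_neg, sub_neg_eq_add] at this
    linarith
  calc attract l x ≤ 1 / (R - |l|) + 1 / (R - |l|) :=
        add_le_add (one_div_le_one_div_of_le h0 h1) (one_div_le_one_div_of_le h0 h2)
    _ = _ := by ring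

/-- Electron `i` costs energy outside a ball. -/
theorem IsC1.slotOne_ge_ball {φ : Cfg (m + 1) → ℝ} (h : IsC1 φ) (i : Fin (m + 1)) (l : ℝ) {R : ℝ}
    (hR : |l| < R) :
    -(16 * ∫ z, ({z : Cfg (m + 1) | ‖z i‖ < R}.indicator 1 z * φ z) ^ 2) -
        2 / (R - |l|) * ∫ z, φ z ^ 2 ≤ slotOne l i φ fun i a => slotDeriv i a φ := by
  set S := {z : Cfg (m + 1) | ‖z i‖ < R}
  have hS : MeasurableSet S :=
    (continuous_apply i).norm.measurable measurableSet_Iio
  have hp : ∀ p : Space, Integrable (fun z => (φ z / ‖z i - p‖) ^ 2) ∧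
      ∫ z, (φ z / ‖z i - p‖) ^ 2 ≤ 4 * slotKin i fun i a => slotDeriv i a φ := fun p => by
    simpa only [pole] using h.inH1.hardy i (c := fun _ => p) continuous_const
  have hi : Integrable fun z => (S.indicator 1 z * φ z) ^ 2 := by
    refine (h.memLp.integrable_sq.indicator hS).congr (Eventually.of_forall fun z => ?_)
    by_cases hz : z ∈ S <;> simp [hz]
  have hA : ∀ z, attract l (z i) * φ z ^ 2 ≤
      (1 / 32) * ((φ z / ‖z i - nuc l‖) ^ 2 + (φ z / ‖z i - -nuc l‖) ^ 2) +
        16 * (S.indicator 1 z * φ z) ^ 2 + 2 / (R - |l|) * φ z ^ 2 := by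
    intro z
    have hc : 0 ≤ 2 / (R - |l|) * φ z ^ 2 :=
      mul_nonneg (div_nonneg zero_le_two (sub_pos.2 hR).le) (sq_nonneg _)
    by_cases hz : z ∈ S
    · rw [indicator_of_mem hz, Pi.one_apply, one_mul]
      have h1 := mul_div_le (φ z) (norm_nonneg (z i - nuc l)) (α := 1 / 32) (by norm_num)
      have h2 := mul_div_le (φ z) (norm_nonneg (z i - -nuc l)) (α := 1 / 32) (by norm_num)
      norm_num at h1 h2
      simp only [attract, add_mul, one_div_mul_eq_div, sub_neg_eq_add] at h1 h2 ⊢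
      linarith
    · rw [indicator_of_notMem hz, zero_mul, zero_pow two_ne_zero, mul_zero, add_zero]
      refine le_add_of_nonneg_of_le (by positivity) ?_
      exact mul_le_mul_of_nonneg_right (attract_far_le l hR (not_lt.1 hz)) (sq_nonneg _)
  have i1 : Integrable fun z =>
      (1 / 32 : ℝ) * ((φ z / ‖z i - nuc l‖) ^ 2 + (φ z / ‖z i - -nuc l‖) ^ 2) :=
    ((hp (nuc l)).1.add (hp (-nuc l)).1).const_mul _
  have i12 : Integrable fun z => (1 / 32 : ℝ) * ((φ z / ‖z i - nuc l‖) ^ 2 +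
      (φ z / ‖z i - -nuc l‖) ^ 2) + 16 * (S.indicator 1 z * φ z) ^ 2 := i1.add (hi.const_mul _)
  have i3 := h.memLp.integrable_sq.const_mul (2 / (R - |l|))
  have := integral_mono (h.inH1.integrable_attract l i) (i12.add i3) hA
  rw [integral_add' i12 i3, integral_add i1 (hi.const_mul _), integral_const_mul,
    integral_const_mul, integral_const_mul, integral_add (hp _).1 (hp _).1] at this
  have := (hp (nuc l)).2
  have := (hp (-nuc l)).2
  have hK : 0 ≤ slotKin i fun i a => slotDeriv i a φ :=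
    Finset.sum_nonneg fun a _ => integral_nonneg fun z => sq_nonneg _
  rw [slotOne]
  linarith

theorem wexp_single (i : Fin (m + 1)) (ε δ : ℝ) (z : Cfg (m + 1)) :
    wexp (Pi.single i ε) δ z = Real.exp (ε * expo δ (z i)) := by
  rw [wexp, Finset.sum_eq_single i (fun j _ hj => by simp [hj]) (by simp), Pi.single_eq_same]

theorem sum_single_sq (i : Fin (m + 1)) (ε : ℝ) :
    ∑ j, (Pi.single i ε : Fin (m + 1) → ℝ) j ^ 2 = ε ^ 2 := by
  rw [Finset.sum_eq_single i (fun j _ hj => by simp [hj]) (by simp), Pi.single_eq_same]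

variable {l eg eu e' lam E κ ε δ R : ℝ} {g u : Space → ℝ} {Dg Du : Fin 3 → Space → ℝ}
  {f : Cfg (m + 1) → ℝ} {D : Fin (m + 1) → Fin 3 → Cfg (m + 1) → ℝ}

/-- Decay in one electron, with a regularised weight. -/
theorem decay_step (hZ : ZeroOrder l g u Dg Du eg eu e') (hlam : 0 ≤ lam) (hf : InH1 f D)
    (hs : Solves l lam E f D fun _ => 0) (h1 : ∫ z, f z ^ 2 = 1) (hE : E ≤ m * eg - κ)
    (hε : 0 ≤ ε) (hεκ : ε ^ 2 ≤ κ / 2) (hR : |l| < R) (hRκ : 2 / (R - |l|) ≤ κ / 4)
    (hδ : 0 < δ) (i : Fin (m + 1)) :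
    (κ / 2) * (∫ z, (wexp (Pi.single i ε) δ z * f z) ^ 2) ≤
        16 * Real.exp (ε * (1 + R)) ^ 2 ∧
      (1 / 4) * ∑ j, slotKin j (mulGrad (wexp (Pi.single i ε) δ) f D) ≤
        (|E| + κ + 16 * (m + 1)) * ∫ z, (wexp (Pi.single i ε) δ z * f z) ^ 2 := by
  set w := wexp (Pi.single i ε : Fin (m + 1) → ℝ) δ with hwdef
  have hw : IsMult w := isMult_wexp _ hδ
  set S := {z : Cfg (m + 1) | ‖z i‖ < R}
  have hS : MeasurableSet S := (continuous_apply i).norm.measurable measurableSet_Iio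
  obtain ⟨φ, hφ⟩ := hf
  have hwφ := hφ.mult hw
  have hls := hwφ.val.mul_bdd (w := S.indicator 1) (B := 1)
    ((measurable_one.indicator hS).aestronglyMeasurable) fun z => by
      by_cases hz : z ∈ S <;> simp [hz]
  set n := ∫ z, (w z * f z) ^ 2
  have hlow : (m * eg - 2 / (R - |l|)) * n - 16 * ∫ z, (S.indicator 1 z * (w z * f z)) ^ 2 ≤
      formH l lam (fun z => w z * f z) (mulGrad w f D) := by
    refine le_of_tendsto_of_tendsto' ((hwφ.val.integral_sq.const_mul _).sub
      (hls.integral_sq.const_mul 16)) (hwφ.tendsto_formQ l lam) fun k => ?_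
    have h1 := (hwφ.c1 k).formQ_ge_slot hlam (formQ_ge_count hlam (formOne_ge hZ) m) i
    have h2 := (hwφ.c1 k).slotOne_ge_ball i l hR
    linarith
  obtain ⟨hI, he⟩ := hs.ims ⟨φ, hφ⟩ hw
  simp only [zero_mul, integral_zero, add_zero] at he
  have hg : ∫ z, gradMul w z * f z ^ 2 ≤ ε ^ 2 * n := by
    rw [← integral_const_mul]
    refine integral_mono hI (hwφ.val.lim_mem.integrable_sq.const_mul _) fun z => ?_
    have := gradMul_wexp_le (Pi.single i ε : Fin (m + 1) → ℝ) hδ.le z
    rw [sum_single_sq] at this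
    rw [mul_pow, ← mul_assoc]
    exact mul_le_mul_of_nonneg_right this (sq_nonneg _)
  have hn0 : 0 ≤ n := integral_nonneg fun z => sq_nonneg _
  have hball : ∫ z, (S.indicator 1 z * (w z * f z)) ^ 2 ≤ Real.exp (ε * (1 + R)) ^ 2 := by
    calc ∫ z, (S.indicator 1 z * (w z * f z)) ^ 2
        ≤ ∫ z, Real.exp (ε * (1 + R)) ^ 2 * f z ^ 2 := by
          refine integral_mono hls.lim_mem.integrable_sq
            (hφ.val.lim_mem.integrable_sq.const_mul _) fun z => ?_
          by_cases hz : z ∈ S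
          · rw [indicator_of_mem hz, Pi.one_apply, one_mul, mul_pow, hwdef, wexp_single]
            refine mul_le_mul_of_nonneg_right (pow_le_pow_left₀ (Real.exp_pos _).le
              (Real.exp_le_exp.2 (mul_le_mul_of_nonneg_left ?_ hε)) 2) (sq_nonneg _)
            exact (expo_le hδ.le _).trans
              ((smoothNorm_le _).trans (by linarith [(show ‖z i‖ < R from hz)]))
          · simp only [indicator_of_notMem hz, zero_mul, zero_pow two_ne_zero]
            positivity
      _ = _ := by rw [integral_const_mul, h1, mul_one]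
  have hgn : ε ^ 2 * n ≤ κ / 2 * n := mul_le_mul_of_nonneg_right hεκ hn0
  have hEn : E * n ≤ (m * eg - κ) * n := mul_le_mul_of_nonneg_right hE hn0
  have hRn : 2 / (R - |l|) * n ≤ κ / 4 * n := mul_le_mul_of_nonneg_right hRκ hn0
  refine ⟨by linarith, ?_⟩
  have hco := (Approx.inH1 hwφ).coercive l hlam
  have hEa : E * n ≤ |E| * n := mul_le_mul_of_nonneg_right (le_abs_self E) hn0
  have : 0 ≤ ε ^ 2 * n := mul_nonneg (sq_nonneg ε) hn0
  linarith

/-- Exponential decay of a solution and of its gradient in each electron. -/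
theorem slot_decay (hZ : ZeroOrder l g u Dg Du eg eu e') (m : ℕ) {κ : ℝ} (hκ : 0 < κ) (EB : ℝ) :
    ∃ ε₀ K : ℝ, 0 < ε₀ ∧ ∀ ε ∈ Ioc 0 ε₀, ∀ lam E : ℝ, 0 ≤ lam → E ≤ m * eg - κ → |E| ≤ EB →
      ∀ (f : Cfg (m + 1) → ℝ) (D : Fin (m + 1) → Fin 3 → Cfg (m + 1) → ℝ), InH1 f D →
        Solves l lam E f D (fun _ => 0) → ∫ z, f z ^ 2 = 1 → ∀ i : Fin (m + 1),
          (MemLp (fun z => wexp (Pi.single i ε) 0 z * f z) 2 ∧
            ∫ z, (wexp (Pi.single i ε) 0 z * f z) ^ 2 ≤ K) ∧
          ∀ j a, MemLp (fun z => wexp (Pi.single i ε) 0 z * D j a z) 2 ∧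
            ∫ z, (wexp (Pi.single i ε) 0 z * D j a z) ^ 2 ≤ K := by
  set R := |l| + 8 / κ + 1 with hRdef
  have hR : |l| < R := by
    have : 0 < 8 / κ := div_pos (by norm_num) hκ
    linarith
  have hRκ : 2 / (R - |l|) ≤ κ / 4 := by
    have h8 : 0 < 8 / κ := div_pos (by norm_num) hκ
    calc 2 / (R - |l|) ≤ 2 / (8 / κ) := by
          apply div_le_div_of_nonneg_left zero_le_two h8; linarith
      _ = _ := by field_simp; ring
  set ε₀ := min (√(κ / 2)) 1 with hε₀
  set B := 32 / κ * Real.exp (ε₀ * (1 + R)) ^ 2 with hB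
  have hB0 : 0 ≤ B := by positivity
  set K1 := B * (1 + (8 * (|EB| + κ + 16 * (m + 1)) + κ)) with hK1
  refine ⟨ε₀, K1, lt_min (by positivity) one_pos, fun ε hε lam E hlam hE hEB f D hf hs h1 i => ?_⟩
  have hεκ : ε ^ 2 ≤ κ / 2 := by
    have := hε.2.trans (min_le_left _ _)
    calc ε ^ 2 ≤ √(κ / 2) ^ 2 := pow_le_pow_left₀ hε.1.le this 2
      _ = _ := Real.sq_sqrt (by positivity)
  set c : Fin (m + 1) → ℝ := Pi.single i ε
  set C := |EB| + κ + 16 * (m + 1) with hC
  have hC0 : 0 ≤ C := by positivity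
  have main : ∀ j : ℕ,
      (∫ z, (wexp c (1 / ((j : ℝ) + 1)) z * f z) ^ 2) ≤ B ∧
      ∀ (q : Fin (m + 1)) (a : Fin 3),
        MemLp (fun z => wexp c (1 / ((j : ℝ) + 1)) z * D q a z) 2 ∧
        ∫ z, (wexp c (1 / ((j : ℝ) + 1)) z * D q a z) ^ 2 ≤ (8 * C + κ) * B := by
    intro j
    set δ := 1 / ((j : ℝ) + 1)
    have hδ : 0 < δ := by positivity
    obtain ⟨hn, hk⟩ := decay_step hZ hlam hf hs h1 hE hε.1.le hεκ hR hRκ hδ i
    obtain ⟨φ, hφ⟩ := hf
    have hw := hφ.mult (isMult_wexp c hδ)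
    set n := ∫ z, (wexp c δ z * f z) ^ 2
    have hn0 : 0 ≤ n := integral_nonneg fun z => sq_nonneg _
    have hnB : n ≤ B := by
      have h2 : Real.exp (ε * (1 + R)) ≤ Real.exp (ε₀ * (1 + R)) :=
        Real.exp_le_exp.2 (mul_le_mul_of_nonneg_right hε.2 (by positivity))
      have h3 := pow_le_pow_left₀ (Real.exp_pos _).le h2 2
      have e : κ / 2 * B = 16 * Real.exp (ε₀ * (1 + R)) ^ 2 := by rw [hB]; field_simp; ring
      nlinarith
    refine ⟨hnB, fun q a => ?_⟩
    obtain ⟨A, hA, hA'⟩ := (isMult_wexp c hδ).bounded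
    have hs2 := hφ.val.mul_bdd (w := slotDeriv q a (wexp c δ))
      (measurable_fderiv_apply_const ℝ (wexp c δ) _).aestronglyMeasurable (hA' q a)
    have hm : MemLp (fun z => wexp c δ z * D q a z) 2 :=
      ((hφ.der q a).mul_bdd (contDiff_wexp c hδ.le).continuous.aestronglyMeasurable hA).lim_mem
    refine ⟨hm, ?_⟩
    have hgr := (hw.der q a).lim_mem
    have hle : ∀ z, (wexp c δ z * D q a z) ^ 2 ≤ 2 * mulGrad (wexp c δ) f D q a z ^ 2 +
        κ * (wexp c δ z * f z) ^ 2 := by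
      intro z
      have h2 : (slotDeriv q a (wexp c δ) z * f z) ^ 2 ≤ κ / 2 * (wexp c δ z * f z) ^ 2 := by
        have hg := gradMul_wexp_le c hδ.le z
        rw [sum_single_sq] at hg
        have h5 : slotDeriv q a (wexp c δ) z ^ 2 ≤ gradMul (wexp c δ) z :=
          (Finset.single_le_sum (f := fun a => slotDeriv q a (wexp c δ) z ^ 2)
            (fun a _ => sq_nonneg _) (Finset.mem_univ a)).trans
          (Finset.single_le_sum (f := fun q => ∑ a, slotDeriv q a (wexp c δ) z ^ 2)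
            (fun q _ => Finset.sum_nonneg fun a _ => sq_nonneg _) (Finset.mem_univ q))
        rw [mul_pow, mul_pow, ← mul_assoc]
        exact mul_le_mul_of_nonneg_right ((h5.trans hg).trans
          (mul_le_mul_of_nonneg_right hεκ (sq_nonneg _))) (sq_nonneg _)
      have e : wexp c δ z * D q a z =
          mulGrad (wexp c δ) f D q a z - slotDeriv q a (wexp c δ) z * f z := by
        rw [mulGrad]; ring
      rw [e]
      nlinarith [sq_nonneg (mulGrad (wexp c δ) f D q a z + slotDeriv q a (wexp c δ) z * f z)]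
    have := integral_mono hm.integrable_sq ((hgr.integrable_sq.const_mul 2).add
      (hw.val.lim_mem.integrable_sq.const_mul κ)) hle
    rw [integral_add' (hgr.integrable_sq.const_mul 2)
      (hw.val.lim_mem.integrable_sq.const_mul κ), integral_const_mul, integral_const_mul] at this
    have h6 : ∫ z, mulGrad (wexp c δ) f D q a z ^ 2 ≤
        ∑ p, slotKin p (mulGrad (wexp c δ) f D) :=
      (Finset.single_le_sum (f := fun a => ∫ z, mulGrad (wexp c δ) f D q a z ^ 2)
        (fun a _ => integral_nonneg fun z => sq_nonneg _) (Finset.mem_univ a)).trans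
      (Finset.single_le_sum (f := fun p => slotKin p (mulGrad (wexp c δ) f D))
        (fun p _ => Finset.sum_nonneg fun a _ => integral_nonneg fun z => sq_nonneg _)
        (Finset.mem_univ q))
    have h7 : (|E| + κ + 16 * (m + 1)) * n ≤ C * B :=
      mul_le_mul (by linarith [le_abs_self EB]) hnB hn0 hC0
    have h8 := mul_le_mul_of_nonneg_left hnB hκ.le
    linarith
  have hK : B ≤ K1 ∧ (8 * C + κ) * B ≤ K1 := by
    constructor <;> simp only [hK1] <;> nlinarith [mul_nonneg hC0 hB0, mul_nonneg hκ.le hB0]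
  refine ⟨memLp_wexp_mul (fun j => ?_) (fun j => (main j).1.trans hK.1), fun q a =>
    memLp_wexp_mul (fun j => ((main j).2 q a).1) fun j => ((main j).2 q a).2.trans hK.2⟩
  obtain ⟨φ, hφ⟩ := hf
  exact (hφ.mult (isMult_wexp c (by positivity))).val.lim_mem

end Vale.Agent.P363.Inter
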