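import Vale.Agent.P363.Inter.Slice.Wexp
import Vale.Agent.P363.Inter.Slice.Lower

/-!
P363, interacting side: norms and inner products of slices as functions of the position of one
electron; they are continuous in mean square.
-/

noncomputable section

namespace Vale.Agent.P363.Inter

open MeasureTheory Filter Set
open scoped BigOperators Topology RealInnerProductSpace

variable {m : ℕ} {i : Fin (m + 1)}

/-- The norm of the slices. -/
def slNorm (i : Fin (m + 1)) (h : Cfg (m + 1) → ℝ) (x : Space) : ℝ :=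
  √(∫ y : Cfg m, h (i.insertNth x y) ^ 2)

/-- The inner product of `χ` with the slices. -/
def slIp (i : Fin (m + 1)) (χ : Cfg m → ℝ) (h : Cfg (m + 1) → ℝ) (x : Space) : ℝ :=
  ∫ y : Cfg m, χ y * h (i.insertNth x y)

variable {h g : Cfg (m + 1) → ℝ} {χ : Cfg m → ℝ}

theorem slNorm_nonneg (i : Fin (m + 1)) (h : Cfg (m + 1) → ℝ) (x : Space) : 0 ≤ slNorm i h x :=
  Real.sqrt_nonneg _

theorem slNorm_sq (i : Fin (m + 1)) (h : Cfg (m + 1) → ℝ) (x : Space) :
    slNorm i h x ^ 2 = ∫ y : Cfg m, h (i.insertNth x y) ^ 2 :=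
  Real.sq_sqrt (integral_nonneg fun _ => sq_nonneg _)

theorem memLp_slNorm (i : Fin (m + 1)) (hh : MemLp h 2) : MemLp (slNorm i h) 2 := by
  have hI := (integrable_slices i hh.integrable_sq).2
  refine (memLp_two_iff_integrable_sq
    (Real.continuous_sqrt.comp_aestronglyMeasurable hI.1)).2 ?_
  exact hI.congr (Eventually.of_forall fun x => (slNorm_sq i h x).symm)

theorem integral_slNorm_sq (i : Fin (m + 1)) (hh : MemLp h 2) :
    ∫ x, slNorm i h x ^ 2 = ∫ z, h z ^ 2 := by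
  simp only [slNorm_sq]
  exact (integral_split i hh.integrable_sq).symm

theorem abs_slNorm_sub_le {x : Space} (hh : MemLp (fun y : Cfg m => h (i.insertNth x y)) 2)
    (hg : MemLp (fun y : Cfg m => g (i.insertNth x y)) 2) :
    |slNorm i h x - slNorm i g x| ≤ slNorm i (fun z => h z - g z) x := by
  simp only [slNorm]
  rw [← One.norm_toLp_sq hh, ← One.norm_toLp_sq hg, ← One.norm_toLp_sub_sq hh hg,
    Real.sqrt_sq (norm_nonneg _), Real.sqrt_sq (norm_nonneg _), Real.sqrt_sq (norm_nonneg _)]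
  exact abs_norm_sub_norm_le _ _

theorem abs_slIp_le (hχ : MemLp χ 2) {x : Space}
    (hh : MemLp (fun y : Cfg m => h (i.insertNth x y)) 2) :
    |slIp i χ h x| ≤ √(∫ y, χ y ^ 2) * slNorm i h x :=
  abs_integral_mul_le hχ hh

theorem slIp_sub (hχ : MemLp χ 2) {x : Space}
    (hh : MemLp (fun y : Cfg m => h (i.insertNth x y)) 2)
    (hg : MemLp (fun y : Cfg m => g (i.insertNth x y)) 2) :
    slIp i χ (fun z => h z - g z) x = slIp i χ h x - slIp i χ g x := by
  simp only [slIp, mul_sub]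
  exact integral_sub (hχ.integrable_mul hh) (hχ.integrable_mul hg)

theorem aestronglyMeasurable_slIp (hχ : MemLp χ 2) (hh : MemLp h 2) :
    AEStronglyMeasurable (slIp i χ h) := by
  refine AEStronglyMeasurable.integral_prod_right' (μ := (volume : Measure Space))
    (ν := (volume : Measure (Cfg m)))
    (f := fun p : Space × Cfg m => χ p.2 * h (i.insertNth p.1 p.2)) ?_
  exact (hχ.1.comp_snd).mul (hh.1.comp_measurePreserving (mp_ins i))

theorem memLp_slIp (hχ : MemLp χ 2) (hh : MemLp h 2) : MemLp (slIp i χ h) 2 := by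
  refine (memLp_slNorm i hh).of_le_mul (c := √(∫ y, χ y ^ 2))
    (aestronglyMeasurable_slIp hχ hh) ?_
  filter_upwards [memLp_slices i hh] with x hx
  rw [Real.norm_eq_abs, Real.norm_eq_abs, abs_of_nonneg (slNorm_nonneg _ _ _)]
  exact abs_slIp_le hχ hx

theorem SqLim.slNorm {f : ℕ → Cfg (m + 1) → ℝ} {F : Cfg (m + 1) → ℝ} (h : SqLim volume f F)
    (i : Fin (m + 1)) : SqLim volume (fun k => Inter.slNorm i (f k)) (Inter.slNorm i F) := by
  refine ⟨fun k => memLp_slNorm i (h.mem k), memLp_slNorm i h.lim_mem,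
    squeeze_zero (fun k => integral_nonneg fun x => sq_nonneg _) (fun k => ?_) h.tendsto⟩
  have hd : MemLp (fun z => f k z - F z) 2 := (h.mem k).sub h.lim_mem
  rw [← integral_slNorm_sq i hd]
  refine integral_mono_ae ((memLp_slNorm i (h.mem k)).sub (memLp_slNorm i h.lim_mem)).integrable_sq
    (memLp_slNorm i hd).integrable_sq ?_
  filter_upwards [memLp_slices i (h.mem k), memLp_slices i h.lim_mem] with x hx hx'
  rw [← sq_abs]
  exact pow_le_pow_left₀ (abs_nonneg _) (abs_slNorm_sub_le hx hx') 2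

theorem SqLim.slIp {f : ℕ → Cfg (m + 1) → ℝ} {F : Cfg (m + 1) → ℝ} (h : SqLim volume f F)
    (hχ : MemLp χ 2) (i : Fin (m + 1)) :
    SqLim volume (fun k => Inter.slIp i χ (f k)) (Inter.slIp i χ F) := by
  refine ⟨fun k => memLp_slIp hχ (h.mem k), memLp_slIp hχ h.lim_mem,
    squeeze_zero (fun k => integral_nonneg fun x => sq_nonneg _) (fun k => ?_)
      (show Tendsto (fun k => (∫ y, χ y ^ 2) * ∫ z, (f k z - F z) ^ 2) atTop (𝓝 0) by
        simpa using h.tendsto.const_mul (∫ y, χ y ^ 2))⟩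
  have hd : MemLp (fun z => f k z - F z) 2 := (h.mem k).sub h.lim_mem
  rw [← integral_slNorm_sq i hd, ← integral_const_mul]
  refine integral_mono_ae ((memLp_slIp hχ (h.mem k)).sub (memLp_slIp hχ h.lim_mem)).integrable_sq
    ((memLp_slNorm i hd).integrable_sq.const_mul _) ?_
  filter_upwards [memLp_slices i (h.mem k), memLp_slices i h.lim_mem] with x hx hx'
  rw [← slIp_sub hχ hx hx', ← sq_abs, ← Real.sq_sqrt (integral_nonneg fun y : Cfg m =>
    sq_nonneg (χ y)), ← mul_pow]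
  exact pow_le_pow_left₀ (abs_nonneg _) (abs_slIp_le hχ (hx.sub hx')) 2

/-- A function of the other electrons. -/
def wL (i : Fin (m + 1)) (ω : Cfg m → ℝ) (z : Cfg (m + 1)) : ℝ := ω (i.removeNth z)

theorem wL_ins (i : Fin (m + 1)) (ω : Cfg m → ℝ) (x : Space) (y : Cfg m) :
    wL i ω (i.insertNth x y) = ω y := by simp [wL]

/-- A function of electron `i`. -/
def xL (i : Fin (m + 1)) (c : Space → ℝ) (z : Cfg (m + 1)) : ℝ := c (z i)

theorem xL_ins (i : Fin (m + 1)) (c : Space → ℝ) (x : Space) (y : Cfg m) :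
    xL i c (i.insertNth x y) = c x := by simp [xL]

theorem contDiff_wL (i : Fin (m + 1)) {ω : Cfg m → ℝ} (hω : ContDiff ℝ 1 ω) :
    ContDiff ℝ 1 (wL i ω) :=
  hω.comp (contDiff_pi.2 fun k => contDiff_apply ℝ Space (i.succAbove k))

theorem contDiff_xL (i : Fin (m + 1)) {c : Space → ℝ} (hc : ContDiff ℝ 1 c) :
    ContDiff ℝ 1 (xL i c) :=
  hc.comp (contDiff_apply ℝ Space i)

theorem slotDeriv_xL (i j : Fin (m + 1)) (a : Fin 3) {c : Space → ℝ} {z : Cfg (m + 1)}
    (hc : DifferentiableAt ℝ c (z i)) :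
    slotDeriv j a (xL i c) z = if j = i then deriv3 a c (z i) else 0 := by
  have hd : HasFDerivAt (xL i c) ((fderiv ℝ c (z i)).comp (ContinuousLinearMap.proj i)) z :=
    hc.hasFDerivAt.comp z
      (ContinuousLinearMap.proj (R := ℝ) (φ := fun _ : Fin (m + 1) => Space) i).hasFDerivAt
  rw [slotDeriv, hd.fderiv]
  rcases eq_or_ne j i with rfl | hj
  · simp [deriv3]
  · simp [hj, hj.symm]

theorem slotDeriv_wL_self (i : Fin (m + 1)) (a : Fin 3) {ω : Cfg m → ℝ} (hω : ContDiff ℝ 1 ω)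
    (z : Cfg (m + 1)) : slotDeriv i a (wL i ω) z = 0 := by
  set L : Cfg (m + 1) →L[ℝ] Cfg m :=
    ContinuousLinearMap.pi fun k => ContinuousLinearMap.proj (i.succAbove k)
  have hd : HasFDerivAt (wL i ω) ((fderiv ℝ ω (i.removeNth z)).comp L) z :=
    (hω.differentiable one_ne_zero _).hasFDerivAt.comp z L.hasFDerivAt
  rw [slotDeriv, hd.fderiv]
  have : L (Pi.single i (unit3 a)) = 0 := by
    funext k; simp [L, Fin.succAbove_ne]
  simp [this]

theorem slotDeriv_wL (i : Fin (m + 1)) (k : Fin m) (a : Fin 3) {ω : Cfg m → ℝ}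
    (hω : ContDiff ℝ 1 ω) (z : Cfg (m + 1)) :
    slotDeriv (i.succAbove k) a (wL i ω) z = slotDeriv k a ω (i.removeNth z) := by
  set L : Cfg (m + 1) →L[ℝ] Cfg m :=
    ContinuousLinearMap.pi fun l => ContinuousLinearMap.proj (i.succAbove l)
  have hd : HasFDerivAt (wL i ω) ((fderiv ℝ ω (i.removeNth z)).comp L) z :=
    (hω.differentiable one_ne_zero _).hasFDerivAt.comp z L.hasFDerivAt
  rw [slotDeriv, hd.fderiv]
  have : L (Pi.single (i.succAbove k) (unit3 a)) = Pi.single k (unit3 a) := by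
    funext l; simp [L, Pi.single_apply, Fin.succAbove_right_inj]
  simp [this, slotDeriv]

theorem gradMul_wL (i : Fin (m + 1)) {ω : Cfg m → ℝ} (hω : ContDiff ℝ 1 ω) (z : Cfg (m + 1)) :
    gradMul (wL i ω) z = gradMul ω (i.removeNth z) := by
  simp [gradMul, Fin.sum_univ_succAbove _ i, slotDeriv_wL_self i _ hω, slotDeriv_wL i _ _ hω]

theorem IsMult.wL {ω : Cfg m → ℝ} (h : IsMult ω) (i : Fin (m + 1)) : IsMult (Inter.wL i ω) := by
  obtain ⟨B, hB, hB'⟩ := h.bounded
  refine ⟨contDiff_wL i h.smooth, B, fun z => hB _, fun j a z => ?_⟩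
  rcases Fin.eq_self_or_eq_succAbove i j with rfl | ⟨k, rfl⟩
  · rw [slotDeriv_wL_self _ _ h.smooth, abs_zero]; exact (abs_nonneg _).trans (hB 0)
  · rw [slotDeriv_wL _ _ _ h.smooth]; exact hB' k a _

theorem IsMult.xL {c : Space → ℝ} (hc : ContDiff ℝ 1 c) (hcs : HasCompactSupport c)
    (i : Fin (m + 1)) : IsMult (Inter.xL i c) := by
  obtain ⟨B, hB⟩ := hcs.exists_bound_of_continuous hc.continuous
  obtain ⟨B', hB'⟩ := (hcs.fderiv ℝ).exists_bound_of_continuous (hc.continuous_fderiv one_ne_zero)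
  refine ⟨contDiff_xL i hc, max B B', fun z => (hB _).trans (le_max_left _ _), fun j a z => ?_⟩
  rw [slotDeriv_xL i j a (hc.differentiable one_ne_zero _)]
  split
  · refine (((fderiv ℝ c (z i)).le_opNorm (unit3 a)).trans ?_).trans (le_max_right B B')
    rw [One.norm_unit3, mul_one]; exact hB' _
  · rw [abs_zero]
    exact ((norm_nonneg _).trans (hB 0)).trans (le_max_left _ _)

theorem abs_bform_le {f g : Cfg (m + 1) → ℝ} {D G : Fin (m + 1) → Fin 3 → Cfg (m + 1) → ℝ}
    (hf : InH1 f D) (hg : InH1 g G) (l lam E : ℝ) :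
    |bform l lam E f D g G| ≤ (1 / 2) * (∑ i, ∑ a, √(∫ z, D i a z ^ 2) * √(∫ z, G i a z ^ 2)) +
      (√(∫ z, (molPot l lam z * f z) ^ 2) + |E| * √(∫ z, f z ^ 2)) * √(∫ z, g z ^ 2) := by
  rw [bform_eq hf hg, add_mul, mul_assoc |E|]
  refine (abs_sub _ _).trans ((add_le_add (abs_add_le _ _) le_rfl).trans ?_)
  rw [abs_mul (1 / 2 : ℝ), abs_mul E, abs_of_pos (show (0 : ℝ) < 1 / 2 by norm_num), ← add_assoc]
  refine add_le_add (add_le_add (mul_le_mul_of_nonneg_left
    ((Finset.abs_sum_le_sum_abs _ _).trans (Finset.sum_le_sum fun i _ =>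
      (Finset.abs_sum_le_sum_abs _ _).trans (Finset.sum_le_sum fun a _ =>
        abs_integral_mul_le (hf.grad_memLp i a) (hg.grad_memLp i a)))) (by norm_num))
    (abs_integral_mul_le (hf.molPot_memLp l lam) hg.memLp))
    (mul_le_mul_of_nonneg_left (abs_integral_mul_le hf.memLp hg.memLp) (abs_nonneg _))

end Vale.Agent.P363.Inter
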