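import Vale.Agent.P363.Inter.Slice.Pot

/-!
P363, interacting side: the quadratic form on the energy space, its coercivity, and the
localisation identity for solutions.
-/

noncomputable section

namespace Vale.Agent.P363.Inter

open MeasureTheory Filter Set
open scoped BigOperators Topology

variable {m : ℕ} {φ : ℕ → Cfg (m + 1) → ℝ} {f : Cfg (m + 1) → ℝ}
  {D : Fin (m + 1) → Fin 3 → Cfg (m + 1) → ℝ} {l lam E : ℝ}

/-- The quadratic form on the energy space. -/
def formH {n : ℕ} (l lam : ℝ) (f : Cfg n → ℝ) (D : Fin n → Fin 3 → Cfg n → ℝ) : ℝ :=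
  bform l lam 0 f D f D

theorem formQ_eq_formH {n : ℕ} (l lam : ℝ) (ψ : Cfg n → ℝ) :
    formQ l lam ψ = formH l lam ψ fun i a => slotDeriv i a ψ := by
  refine integral_congr_ae (Eventually.of_forall fun z => ?_)
  simp only [sub_zero, sq]
  ring

theorem Approx.tendsto_formQ (h : Approx φ f D) (l lam : ℝ) :
    Tendsto (fun k => formQ l lam (φ k)) atTop (𝓝 (formH l lam f D)) := by
  simp only [formQ_eq_formH]
  exact h.tendsto_bform h l lam 0

/-- The squared gradient of a multiplier. -/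
def gradMul {n : ℕ} (w : Cfg n → ℝ) (z : Cfg n) : ℝ := ∑ i, ∑ a, slotDeriv i a w z ^ 2

theorem gradMul_nonneg {n : ℕ} (w : Cfg n → ℝ) (z : Cfg n) : 0 ≤ gradMul w z :=
  Finset.sum_nonneg fun _ _ => Finset.sum_nonneg fun _ _ => sq_nonneg _

theorem continuous_gradMul {n : ℕ} {w : Cfg n → ℝ} (hw : ContDiff ℝ 1 w) :
    Continuous (gradMul w) :=
  continuous_finsetSum _ fun _ _ => continuous_finsetSum _ fun _ _ =>
    ((hw.continuous_fderiv one_ne_zero).clm_apply continuous_const).pow 2

/-- The localisation identity for a test function. -/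
theorem IsC1.ims {ψ : Cfg (m + 1) → ℝ} (h : IsC1 ψ) {w : Cfg (m + 1) → ℝ} (hw : ContDiff ℝ 1 w)
    (l lam E : ℝ) :
    bform l lam E ψ (fun i a => slotDeriv i a ψ) (fun z => w z ^ 2 * ψ z)
        (fun i a => slotDeriv i a fun z => w z ^ 2 * ψ z) =
      formQ l lam (fun z => w z * ψ z) - E * (∫ z, (w z * ψ z) ^ 2) -
        (1 / 2) * ∫ z, gradMul w z * ψ z ^ 2 := by
  have h1 := h.mul_left hw
  have hd := hw.differentiable one_ne_zero
  rw [formQ_eq_formH, formH, bform_eq h1.inH1 h1.inH1,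
    bform_eq h.inH1 (h.mul_left (hw.pow 2)).inH1]
  have e : ∀ i a z, slotDeriv i a ψ z * slotDeriv i a (fun z => w z ^ 2 * ψ z) z =
      slotDeriv i a (fun z => w z * ψ z) z * slotDeriv i a (fun z => w z * ψ z) z -
        slotDeriv i a w z ^ 2 * ψ z ^ 2 := fun i a z => by
    have e2 : slotDeriv i a (fun z => w z ^ 2) z = 2 * (w z * slotDeriv i a w z) := by
      simp [slotDeriv, fderiv_fun_pow 2 (hd z)]
      ring
    rw [h.slot_mul (w := fun z => w z ^ 2) ((hd z).pow 2) i a, h.slot_mul (hd z) i a, e2]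
    ring
  have iA : ∀ i a, Integrable fun z =>
      slotDeriv i a (fun z => w z * ψ z) z * slotDeriv i a (fun z => w z * ψ z) z := fun i a =>
    (h1.memLp_slot i a).integrable_mul (h1.memLp_slot i a)
  have iB : ∀ i a, Integrable fun z => slotDeriv i a w z ^ 2 * ψ z ^ 2 := fun i a =>
    ((((hw.continuous_fderiv one_ne_zero).clm_apply continuous_const).pow 2).mul
      (h.continuous.pow 2)).integrable_of_hasCompactSupport
      (h.compact.mono fun z hz => by intro h0; exact hz (by simp [h0]))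
  have eG : ∫ z, gradMul w z * ψ z ^ 2 = ∑ i, ∑ a, ∫ z, slotDeriv i a w z ^ 2 * ψ z ^ 2 := by
    simp only [gradMul, Finset.sum_mul]
    rw [integral_finsetSum _ fun i _ => integrable_finsetSum _ fun a _ => iB i a]
    exact Finset.sum_congr rfl fun i _ => integral_finsetSum _ fun a _ => iB i a
  simp only [e, fun i a => integral_sub (iA i a) (iB i a), eG, Finset.sum_sub_distrib]
  have e3 : ∫ z, molPot l lam z * ψ z * (w z ^ 2 * ψ z) =
      ∫ z, molPot l lam z * (w z * ψ z) * (w z * ψ z) := by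
    congr 1; funext z; ring
  have e4 : ∫ z, ψ z * (w z ^ 2 * ψ z) = ∫ z, (w z * ψ z) ^ 2 := by congr 1; funext z; ring
  rw [e3, e4]
  ring

/-- `f` solves the equation with right hand side `R`. -/
def Solves {n : ℕ} (l lam E : ℝ) (f : Cfg n → ℝ) (D : Fin n → Fin 3 → Cfg n → ℝ)
    (R : Cfg n → ℝ) : Prop :=
  ∀ g G, InH1 g G → bform l lam E f D g G = ∫ z, R z * g z

theorem _root_.Vale.Agent.P363.IsLowest.solves {P : (Cfg (m + 1) → ℝ) → Prop} (h : IsLowest l lam P E f D) :
    Solves l lam E f D fun _ => 0 := fun g G hg => by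
  simp [h.bform_zero hg]

/-- A bounded multiplier with bounded derivatives. -/
structure IsMult {n : ℕ} (w : Cfg n → ℝ) : Prop where
  smooth : ContDiff ℝ 1 w
  bounded : ∃ B : ℝ, (∀ z, |w z| ≤ B) ∧ ∀ i a z, |slotDeriv i a w z| ≤ B

theorem IsMult.mul {n : ℕ} {v w : Cfg n → ℝ} (hv : IsMult v) (hw : IsMult w) :
    IsMult fun z => v z * w z := by
  obtain ⟨A, hA, hA'⟩ := hv.bounded
  obtain ⟨B, hB, hB'⟩ := hw.bounded
  refine ⟨hv.smooth.mul hw.smooth, |A| * |B| + (|A| * |B| + |A| * |B|), fun z => ?_,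
    fun i a z => ?_⟩
  · rw [abs_mul]
    exact le_add_of_le_of_nonneg (mul_le_mul ((hA z).trans (le_abs_self A))
      ((hB z).trans (le_abs_self B)) (abs_nonneg _) (abs_nonneg _)) (by positivity)
  · refine le_add_of_nonneg_of_le (by positivity) ?_
    rw [show slotDeriv i a (fun z => v z * w z) z =
        v z * slotDeriv i a w z + slotDeriv i a v z * w z by
      simp [slotDeriv, fderiv_fun_mul (hv.smooth.differentiable one_ne_zero z)
        (hw.smooth.differentiable one_ne_zero z)]
      ring]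
    refine (abs_add_le _ _).trans (add_le_add ?_ ?_) <;> rw [abs_mul]
    · exact mul_le_mul ((hA z).trans (le_abs_self A)) ((hB' i a z).trans (le_abs_self B))
        (abs_nonneg _) (abs_nonneg _)
    · exact mul_le_mul ((hA' i a z).trans (le_abs_self A)) ((hB z).trans (le_abs_self B))
        (abs_nonneg _) (abs_nonneg _)

/-- The gradient of a product with a multiplier. -/
def mulGrad {n : ℕ} (w : Cfg n → ℝ) (f : Cfg n → ℝ) (D : Fin n → Fin 3 → Cfg n → ℝ)
    (i : Fin n) (a : Fin 3) (z : Cfg n) : ℝ :=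
  w z * D i a z + slotDeriv i a w z * f z

theorem Approx.mult (h : Approx φ f D) {w : Cfg (m + 1) → ℝ} (hw : IsMult w) :
    Approx (fun k z => w z * φ k z) (fun z => w z * f z) (mulGrad w f D) := by
  obtain ⟨B, hB, hB'⟩ := hw.bounded
  exact h.mul hw.smooth hB hB'

/-- The localisation identity for solutions. -/
theorem Solves.ims {R : Cfg (m + 1) → ℝ} (hf : InH1 f D) (hs : Solves l lam E f D R)
    {w : Cfg (m + 1) → ℝ} (hw : IsMult w) :
    Integrable (fun z => gradMul w z * f z ^ 2) ∧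
    formH l lam (fun z => w z * f z) (mulGrad w f D) =
      E * (∫ z, (w z * f z) ^ 2) + (1 / 2) * (∫ z, gradMul w z * f z ^ 2) +
        ∫ z, R z * (w z ^ 2 * f z) := by
  obtain ⟨φ, hφ⟩ := hf
  have hw2 : IsMult fun z => w z ^ 2 := by simpa only [sq] using hw.mul hw
  obtain ⟨B, hB, hB'⟩ := hw.bounded
  have hgs : ∀ i a, SqLim volume (fun k z => slotDeriv i a w z * φ k z)
      fun z => slotDeriv i a w z * f z := fun i a =>
    hφ.val.mul_bdd (measurable_fderiv_apply_const ℝ w _).aestronglyMeasurable (hB' i a)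
  have hig : ∀ i a, Integrable fun z => slotDeriv i a w z ^ 2 * f z ^ 2 := fun i a =>
    (hgs i a).lim_mem.integrable_sq.congr (Eventually.of_forall fun z => mul_pow _ _ _)
  have hI : Integrable fun z => gradMul w z * f z ^ 2 := by
    simp only [gradMul, Finset.sum_mul]
    exact integrable_finsetSum _ fun i _ => integrable_finsetSum _ fun a _ => hig i a
  refine ⟨hI, ?_⟩
  have hG : Tendsto (fun k => ∫ z, gradMul w z * φ k z ^ 2) atTop
      (𝓝 (∫ z, gradMul w z * f z ^ 2)) := by
    have e : ∀ {u : Cfg (m + 1) → ℝ}, (∀ i a, MemLp (fun z => slotDeriv i a w z * u z) 2) →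
        ∫ z, gradMul w z * u z ^ 2 = ∑ i, ∑ a, ∫ z, (slotDeriv i a w z * u z) ^ 2 := fun {u} hu => by
      simp only [gradMul, Finset.sum_mul, ← mul_pow]
      rw [integral_finsetSum _ fun i _ => integrable_finsetSum _ fun a _ => (hu i a).integrable_sq]
      exact Finset.sum_congr rfl fun i _ => integral_finsetSum _ fun a _ => (hu i a).integrable_sq
    rw [e fun i a => (hgs i a).lim_mem]
    simp only [fun k => e fun i a => (hgs i a).mem k]
    exact tendsto_finsetSum _ fun i _ => tendsto_finsetSum _ fun a _ => (hgs i a).integral_sq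
  have hlim : Tendsto (fun k => formQ l lam (fun z => w z * φ k z) -
      E * (∫ z, (w z * φ k z) ^ 2) - (1 / 2) * ∫ z, gradMul w z * φ k z ^ 2) atTop
      (𝓝 (∫ z, R z * (w z ^ 2 * f z))) := by
    rw [← hs _ _ (hφ.mult hw2).inH1]
    refine ((hφ.tendsto_bform (hφ.mult hw2) l lam E).congr fun k => ?_)
    exact (hφ.c1 k).ims hw.smooth l lam E
  have := tendsto_nhds_unique hlim ((((hφ.mult hw).tendsto_formQ l lam).sub
    ((hφ.mult hw).val.integral_sq.const_mul E)).sub (hG.const_mul (1 / 2)))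
  linarith

theorem mul_div_le (u : ℝ) {r : ℝ} (hr : 0 ≤ r) {α : ℝ} (hα : 0 < α) :
    u ^ 2 / r ≤ α * (u / r) ^ 2 + u ^ 2 / (4 * α) := by
  rcases hr.eq_or_lt with rfl | hr
  · simp; positivity
  · have e : α * (u / r) ^ 2 + u ^ 2 / (4 * α) - u ^ 2 / r =
        (2 * α * u - u * r) ^ 2 / (4 * α * r ^ 2) := by field_simp; ring
    have : 0 ≤ (2 * α * u - u * r) ^ 2 / (4 * α * r ^ 2) := by positivity
    linarith

/-- The form controls the Dirichlet integral. -/
theorem InH1.coercive (h : InH1 f D) (l : ℝ) {lam : ℝ} (hlam : 0 ≤ lam) :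
    (1 / 4) * (∑ i, slotKin i D) - 16 * (m + 1) * (∫ z, f z ^ 2) ≤ formH l lam f D := by
  have hK : ∀ i, Integrable fun z => ∑ a, D i a z ^ 2 := fun i =>
    integrable_finsetSum _ fun a _ => (h.grad_memLp i a).integrable_sq
  have hp : ∀ (i : Fin (m + 1)) (p : Space),
      Integrable (fun z => (f z / ‖z i - p‖) ^ 2) ∧
        ∫ z, (f z / ‖z i - p‖) ^ 2 ≤ 4 * slotKin i D := fun i p => by
    simpa only [pole] using h.hardy i (c := fun _ => p) continuous_const
  have hpot : Integrable fun z => molPot l lam z * f z * f z :=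
    (h.molPot_memLp l lam).integrable_mul h.memLp
  set Y : Fin (m + 1) → Cfg (m + 1) → ℝ := fun i z =>
    (1 / 32) * ((f z / ‖z i - nuc l‖) ^ 2 + (f z / ‖z i - -nuc l‖) ^ 2) + 16 * f z ^ 2 with hY
  have hYi : ∀ i, Integrable (Y i) := fun i =>
    (((hp i (nuc l)).1.add (hp i (-nuc l)).1).const_mul _).add (h.memLp.integrable_sq.const_mul _)
  have hYle : ∀ i, ∫ z, Y i z ≤ (1 / 4) * slotKin i D + 16 * ∫ z, f z ^ 2 := fun i => by
    have := (hp i (nuc l)).2
    have := (hp i (-nuc l)).2
    simp only [hY]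
    rw [integral_add (((hp i (nuc l)).1.fun_add (hp i (-nuc l)).1).const_mul _)
      (h.memLp.integrable_sq.const_mul _), integral_const_mul, integral_const_mul,
      integral_add (hp i (nuc l)).1 (hp i (-nuc l)).1]
    linarith
  have hlow : ∀ z, -∑ i, Y i z ≤ molPot l lam z * f z * f z := by
    intro z
    have hR : 0 ≤ lam * ∑ i, ∑ k ∈ Finset.Ioi i, 1 / ‖z i - z k‖ := mul_nonneg hlam
      (Finset.sum_nonneg fun i _ => Finset.sum_nonneg fun k _ => by positivity)
    have hA : (∑ i, attract l (z i)) * f z ^ 2 ≤ ∑ i, Y i z := by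
      rw [Finset.sum_mul]
      refine Finset.sum_le_sum fun i _ => ?_
      have h1 := mul_div_le (f z) (norm_nonneg (z i - nuc l)) (α := 1 / 32) (by norm_num)
      have h2 := mul_div_le (f z) (norm_nonneg (z i - -nuc l)) (α := 1 / 32) (by norm_num)
      norm_num at h1 h2
      simp only [hY, attract, add_mul, one_div_mul_eq_div, sub_neg_eq_add] at h1 h2 ⊢
      linarith
    have : molPot l lam z * f z * f z = -((∑ i, attract l (z i)) * f z ^ 2) +
        (lam * ∑ i, ∑ k ∈ Finset.Ioi i, 1 / ‖z i - z k‖) * f z ^ 2 := by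
      rw [molPot]; ring
    rw [this]
    nlinarith [mul_nonneg hR (sq_nonneg (f z))]
  have hI : -∑ i, ∫ z, Y i z ≤ ∫ z, molPot l lam z * f z * f z := by
    rw [← integral_finsetSum _ fun i _ => hYi i, ← integral_neg]
    exact integral_mono (integrable_finsetSum _ fun i _ => hYi i).neg hpot hlow
  have hsum := Finset.sum_le_sum fun i (_ : i ∈ Finset.univ) => hYle i
  rw [Finset.sum_add_distrib, ← Finset.mul_sum, Finset.sum_const, Finset.card_univ,
    Fintype.card_fin, nsmul_eq_mul] at hsum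
  rw [formH, bform_eq h h]
  simp only [slotKin, ← sq] at hsum ⊢
  push_cast at hsum
  linarith

end Vale.Agent.P363.Inter
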