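import Vale.Agent.P363.Inter.Slice.Fibre
import Vale.Agent.P363.Inter.Defs

/-!
P363, interacting side: the inequality `|∇u| ≤ |∇H|` for the regularised norm `u` of a slice,
inside the bilinear form.
-/

noncomputable section

namespace Vale.Agent.P363.Inter

open MeasureTheory Filter Set
open scoped BigOperators Topology

theorem repelN_ins (i : Fin 3) (x : Space) (y : Cfg 2) :
    repelN i (i.insertNth x y : Cfg 3) = repel x y := by
  simp [repelN, repel]

theorem integrable_repel_sq {θ : Cfg 2 → ℝ} {Dθ : Fin 2 → Fin 3 → Cfg 2 → ℝ} (h : InH1 θ Dθ)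
    (x : Space) : Integrable fun y => repel x y * θ y ^ 2 := by
  have hp : ∀ k, Integrable fun y : Cfg 2 => θ y / ‖y k - x‖ * θ y := fun k => by
    simpa only [pole, Pi.mul_def] using
      (h.memLp_div k (c := fun _ => x) continuous_const).integrable_mul h.memLp
  refine (integrable_finsetSum Finset.univ fun k _ => hp k).congr (Eventually.of_forall fun y => ?_)
  simp only [repel, Finset.sum_mul]
  exact Finset.sum_congr rfl fun k _ => by rw [norm_sub_rev]; ring

/-- The regularised norm of the slices. -/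
def uReg {m : ℕ} (i : Fin (m + 1)) (e : ℝ) (H : Cfg (m + 1) → ℝ) (x : Space) : ℝ :=
  √(slNorm i H x ^ 2 + e ^ 2)

variable {i : Fin 3} {e : ℝ}

theorem uReg_pos (he : 0 < e) (H : Cfg 3 → ℝ) (x : Space) : 0 < uReg i e H x :=
  Real.sqrt_pos.2 (by positivity)

theorem le_uReg (he : 0 ≤ e) (H : Cfg 3 → ℝ) (x : Space) : e ≤ uReg i e H x :=
  Real.le_sqrt_of_sq_le (le_add_of_nonneg_left (sq_nonneg _))

theorem slNorm_le_uReg (H : Cfg 3 → ℝ) (x : Space) : slNorm i H x ≤ uReg i e H x :=
  Real.le_sqrt_of_sq_le (le_add_of_nonneg_right (sq_nonneg _))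

theorem hasFDerivAt_uReg {H : Cfg 3 → ℝ} (hH : IsC1 H) (he : 0 < e) :
    ContDiff ℝ 1 (uReg i e H) ∧ ∀ a x, deriv3 a (uReg i e H) x =
      marg i (fun z => H z * slotDeriv i a H z) x / uReg i e H x := by
  have h2 : IsC1 fun z => H z * H z := hH.mul_left hH.smooth
  obtain ⟨hs, -, hd⟩ := h2.marg i
  have eu : uReg i e H = fun x => √(marg i (fun z => H z * H z) x + e ^ 2) := by
    funext x
    rw [uReg, slNorm_sq, marg]
    simp only [sq]
  have hne : ∀ x, marg i (fun z => H z * H z) x + e ^ 2 ≠ 0 := fun x =>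
    ne_of_gt (add_pos_of_nonneg_of_pos (integral_nonneg fun y => mul_self_nonneg _)
      (by positivity))
  refine ⟨eu ▸ (hs.add contDiff_const).sqrt hne, fun a x => ?_⟩
  have hu : HasFDerivAt (fun x => √(marg i (fun z => H z * H z) x + e ^ 2)) _ x :=
    (((hs.differentiable one_ne_zero x).hasFDerivAt).add_const (e ^ 2)).sqrt (hne x)
  have e2 : deriv3 a (marg i fun z => H z * H z) x =
      2 * marg i (fun z => H z * slotDeriv i a H z) x := by
    rw [hd, marg, marg, ← integral_const_mul]
    refine integral_congr_ae (Eventually.of_forall fun y => ?_)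
    simp only [hH.slot_mul (hH.differentiable _) i a]
    ring
  rw [eu, deriv3, hu.fderiv]
  simp only [smul_apply, smul_eq_mul]
  rw [deriv3] at e2
  rw [e2]
  ring

/-- The square of the gradient of the regularised norm is at most that of the slice. -/
theorem sum_deriv3_uReg_le {H : Cfg 3 → ℝ} (hH : IsC1 H) (he : 0 < e) (x : Space) :
    ∑ a, deriv3 a (uReg i e H) x ^ 2 ≤
      marg i (fun z => ∑ a, slotDeriv i a H z ^ 2) x := by
  have hsl : ∀ a, MemLp (fun y : Cfg 2 => slotDeriv i a H (i.insertNth x y)) 2 := fun a => by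
    have hc : Continuous fun y : Cfg 2 => slotDeriv i a H (i.insertNth x y) :=
      (hH.continuous_slot i a).comp ((continuous_ins i).comp
        (continuous_const.prodMk continuous_id))
    obtain ⟨K, hK, hK0⟩ := exists_bound_ins i (hH.compact_slot i a)
    exact hc.memLp_of_hasCompactSupport (HasCompactSupport.intro hK fun y hy =>
      image_eq_zero_of_notMem_tsupport (hK0 x y hy))
  have eA : marg i (fun z => ∑ a, slotDeriv i a H z ^ 2) x =
      ∑ a, ∫ y : Cfg 2, slotDeriv i a H (i.insertNth x y) ^ 2 :=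
    integral_finsetSum _ fun a _ => (hsl a).integrable_sq
  rw [eA]
  refine Finset.sum_le_sum fun a _ => ?_
  rw [(hasFDerivAt_uReg hH he).2, div_pow, div_le_iff₀ (pow_pos (uReg_pos he H x) 2)]
  have h1 := abs_integral_mul_le (hH.sliceY i x).memLp (hsl a)
  have h2 : marg i (fun z => H z * slotDeriv i a H z) x ^ 2 ≤
      (∫ y : Cfg 2, H (i.insertNth x y) ^ 2) *
        ∫ y : Cfg 2, slotDeriv i a H (i.insertNth x y) ^ 2 := by
    rw [← sq_abs, ← Real.sq_sqrt (integral_nonneg fun y : Cfg 2 => sq_nonneg (H (i.insertNth x y))),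
      ← Real.sq_sqrt (integral_nonneg fun y : Cfg 2 =>
        sq_nonneg (slotDeriv i a H (i.insertNth x y))), ← mul_pow]
    exact pow_le_pow_left₀ (abs_nonneg _) h1 2
  refine h2.trans ?_
  rw [mul_comm, uReg, Real.sq_sqrt (by positivity), slNorm_sq]
  exact mul_le_mul_of_nonneg_left (le_add_of_nonneg_right (sq_nonneg _))
    (integral_nonneg fun y => sq_nonneg _)

variable {l lam E κ b : ℝ} {φ : Cfg 3 → ℝ} {ω χ : Cfg 2 → ℝ} {c a : Space → ℝ}

/-- The test function of the slice inequality. -/
def katoTest (i : Fin 3) (e : ℝ) (c : Space → ℝ) (ω : Cfg 2 → ℝ) (φ : Cfg 3 → ℝ) (z : Cfg 3) :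
    ℝ :=
  xL i (fun x => c x / uReg i e (fun z => wL i ω z * φ z) x) z * (wL i ω z ^ 2 * φ z)

theorem contDiff_div_uReg {H : Cfg 3 → ℝ} (hH : IsC1 H) (he : 0 < e) (hc : ContDiff ℝ 1 c) :
    ContDiff ℝ 1 fun x => c x / uReg i e H x :=
  hc.div (hasFDerivAt_uReg hH he).1 fun x => (uReg_pos he H x).ne'

theorem deriv3_div_uReg {H : Cfg 3 → ℝ} (hH : IsC1 H) (he : 0 < e) (hc : ContDiff ℝ 1 c)
    (a : Fin 3) (x : Space) :
    deriv3 a (fun x => c x / uReg i e H x) x = deriv3 a c x / uReg i e H x -
      c x / uReg i e H x ^ 2 * deriv3 a (uReg i e H) x := by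
  have hu := ((hasFDerivAt_uReg (i := i) hH he).1.differentiable one_ne_zero x).hasFDerivAt
  have hne := (uReg_pos (i := i) he H x).ne'
  have hd : HasFDerivAt (fun x => c x * (uReg i e H x)⁻¹) _ x :=
    ((hc.differentiable one_ne_zero x).hasFDerivAt).mul
      ((hasDerivAt_inv hne).comp_hasFDerivAt x hu)
  simp only [div_eq_mul_inv]
  rw [deriv3, hd.fderiv]
  simp [deriv3]
  field_simp
  ring

theorem isC1_katoTest (hφ : IsC1 φ) (hω : IsMult ω) (hc : ContDiff ℝ 1 c) (he : 0 < e) :
    IsC1 (katoTest i e c ω φ) :=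
  (hφ.mul_left ((contDiff_wL i hω.smooth).pow 2)).mul_left
    (contDiff_xL i (contDiff_div_uReg (hφ.mul_left (contDiff_wL i hω.smooth)) he hc))

/-- The inequality for one test function: the bilinear form against the test function dominates
`½ ∇c · ∇u` and the lower bound of the ion. -/
theorem kato_point (hφ : IsC1 φ) (hω : IsMult ω) (hgω : ∀ y, gradMul ω y ≤ 2 * κ * ω y ^ 2)
    (hc : ContDiff ℝ 1 c) (hcs : HasCompactSupport c) (hc0 : ∀ x, 0 ≤ c x) (he : 0 < e)
    (hχ : MemLp χ 2) (hca : Continuous fun x => c x * a x)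
    (hlow : ∀ x, c x ≠ 0 →
      a x * (∫ y, (ω y * φ (i.insertNth x y)) ^ 2) -
          b * (∫ y, χ y * (ω y * φ (i.insertNth x y))) ^ 2 ≤
        formQ l lam (fun y => ω y * φ (i.insertNth x y)) +
          lam * ∫ y, repel x y * (ω y * φ (i.insertNth x y)) ^ 2) :
    let H := fun z => wL i ω z * φ z
    Integrable (fun x => (1 / 2) * ∑ a, deriv3 a c x * deriv3 a (uReg i e H) x +
      c x / uReg i e H x * ((a x - κ - attract l x - E) * slNorm i H x ^ 2 -
        b * slIp i χ H x ^ 2)) ∧
    ∫ x, ((1 / 2) * ∑ a, deriv3 a c x * deriv3 a (uReg i e H) x +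
      c x / uReg i e H x * ((a x - κ - attract l x - E) * slNorm i H x ^ 2 -
        b * slIp i χ H x ^ 2)) ≤
      bform l lam E φ (fun i a => slotDeriv i a φ) (katoTest i e c ω φ)
        (fun j a => slotDeriv j a (katoTest i e c ω φ)) := by
  intro H
  have hw : IsMult (wL i ω) := hω.wL i
  have hH : IsC1 H := hφ.mul_left hw.smooth
  set u := uReg i e H with hu_def
  set h := fun x => c x / u x with hh_def
  have hh : ContDiff ℝ 1 h := contDiff_div_uReg hH he hc
  have hξ : IsC1 (katoTest i e c ω φ) := isC1_katoTest hφ hω hc he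
  have hwd := hw.smooth.differentiable one_ne_zero
  set F : Cfg 3 → ℝ := fun z => (1 / 2 : ℝ) * ∑ j, ∑ a, slotDeriv j a φ z *
    slotDeriv j a (katoTest i e c ω φ) z + (molPot l lam z - E) * φ z * katoTest i e c ω φ z
    with hF
  have iF : Integrable F := integrable_bform hφ.inH1 hξ.inH1 l lam E
  set P : Cfg 3 → ℝ := fun z => (1 / 2 : ℝ) * ∑ j, ∑ a, slotDeriv j a H z ^ 2 +
    (molPot l lam z - E) * H z ^ 2 - (1 / 2) * gradMul (wL i ω) z * φ z ^ 2 with hP
  have hpt : ∀ z, F z = xL i h z * P z +
      (1 / 2) * ∑ a, deriv3 a h (z i) * (H z * slotDeriv i a H z) := by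
    intro z
    have e1 : ∀ j a, slotDeriv j a φ z * slotDeriv j a (katoTest i e c ω φ) z =
        xL i h z * (slotDeriv j a H z ^ 2 - slotDeriv j a (wL i ω) z ^ 2 * φ z ^ 2) +
          (if j = i then deriv3 a h (z i) * (H z * slotDeriv i a H z) else 0) := by
      intro j a
      have hw2 : slotDeriv j a (fun z => wL i ω z ^ 2) z =
          2 * (wL i ω z * slotDeriv j a (wL i ω) z) := by
        simp [slotDeriv, fderiv_fun_pow 2 (hwd z)]
        ring
      have hk : slotDeriv j a (katoTest i e c ω φ) z =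
          xL i h z * slotDeriv j a (fun z => wL i ω z ^ 2 * φ z) z +
            slotDeriv j a (xL i h) z * (wL i ω z ^ 2 * φ z) :=
        (hφ.mul_left (hw.smooth.pow 2)).slot_mul ((contDiff_xL i hh).differentiable one_ne_zero z) j a
      rw [hk, slotDeriv_xL i j a (hh.differentiable one_ne_zero _),
        hφ.slot_mul (w := fun z => wL i ω z ^ 2) ((hwd z).pow 2) j a, hw2,
        show slotDeriv j a H z = _ from hφ.slot_mul (hwd z) j a]
      rcases eq_or_ne j i with rfl | hj
      · simp only [↓reduceIte, H, slotDeriv_wL_self _ _ hω.smooth,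
          hφ.slot_mul (hwd z) j a]
        ring
      · simp only [if_neg hj]
        ring
    have e2 : ∀ Q : Fin 3 → ℝ, (∑ j : Fin 3, ∑ a, if j = i then Q a else 0) = ∑ a, Q a :=
      fun Q => by rw [Finset.sum_eq_single i (fun j _ hj => by simp [hj]) (by simp)]; simp
    simp only [hF, hP, e1, Finset.sum_add_distrib]
    rw [e2 fun a => deriv3 a h (z i) * (H z * slotDeriv i a H z)]
    simp only [gradMul, mul_sub, Finset.sum_sub_distrib, ← Finset.mul_sum, ← Finset.sum_mul,
      katoTest, xL, hh_def, hu_def, H]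
    ring
  set m : Fin 3 → Space → ℝ := fun a => marg i fun z => H z * slotDeriv i a H z
  have hinner : ∀ x, ∫ y : Cfg 2, F (i.insertNth x y) =
      h x * ((1 / 2) * marg i (fun z => ∑ a, slotDeriv i a H z ^ 2) x +
        formQ l lam (fun y => ω y * φ (i.insertNth x y)) +
        lam * (∫ y, repel x y * (ω y * φ (i.insertNth x y)) ^ 2) -
        (attract l x + E) * slNorm i H x ^ 2 -
        (1 / 2) * ∫ y, gradMul ω y * φ (i.insertNth x y) ^ 2) +
      (1 / 2) * ∑ a, deriv3 a h x * m a x := by
    intro x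
    set θ := fun y : Cfg 2 => H (i.insertNth x y) with hθdef
    have hθ : IsC1 θ := hH.sliceY i x
    have hφs : IsC1 fun y : Cfg 2 => φ (i.insertNth x y) := hφ.sliceY i x
    have eθ : θ = fun y => ω y * φ (i.insertNth x y) := funext fun y => by simp [θ, H, wL_ins]
    have i1 : ∀ a, Integrable fun y : Cfg 2 => slotDeriv i a H (i.insertNth x y) ^ 2 := fun a => by
      have h2 : HasCompactSupport fun z => slotDeriv i a H z ^ 2 :=
        (hH.compact_slot i a).mono fun z hz => by intro h0; exact hz (by simp [h0])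
      obtain ⟨K, hK, hK0⟩ := exists_bound_ins i h2
      have hcont : Continuous fun y : Cfg 2 => slotDeriv i a H (i.insertNth x y) ^ 2 :=
        ((hH.continuous_slot i a).pow 2).comp ((continuous_ins i).comp
          (continuous_const.prodMk continuous_id))
      exact hcont.integrable_of_hasCompactSupport (HasCompactSupport.intro hK fun y hy =>
        image_eq_zero_of_notMem_tsupport (f := fun z => slotDeriv i a H z ^ 2) (hK0 x y hy))
    have iX : Integrable fun y : Cfg 2 => (1 / 2 : ℝ) * ∑ a, slotDeriv i a H (i.insertNth x y) ^ 2 :=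
      (integrable_finsetSum _ fun a _ => i1 a).const_mul _
    have iQ : Integrable fun y => (1 / 2 : ℝ) * ∑ k, ∑ a, slotDeriv k a θ y ^ 2 +
        molPot l lam y * θ y ^ 2 := by
      refine (integrable_bform hθ.inH1 hθ.inH1 l lam 0).congr (Eventually.of_forall fun y => ?_)
      simp only [sub_zero, sq]; ring
    have iR := (integrable_repel_sq hθ.inH1 x).const_mul lam
    have iN := hθ.memLp.integrable_sq.const_mul (attract l x + E)
    have iG : Integrable fun y => (1 / 2 : ℝ) * (gradMul ω y * φ (i.insertNth x y) ^ 2) :=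
      (((continuous_gradMul hω.smooth).mul (hφs.continuous.pow 2)).integrable_of_hasCompactSupport
        (hφs.compact.mono fun y hy => by intro h0; exact hy (by simp [h0]))).const_mul _
    have iM : ∀ a, Integrable fun y : Cfg 2 =>
        H (i.insertNth x y) * slotDeriv i a H (i.insertNth x y) := fun a => by
      exact (hθ.continuous.mul ((hH.continuous_slot i a).comp ((continuous_ins i).comp
        (continuous_const.prodMk continuous_id)))).integrable_of_hasCompactSupport
        hθ.compact.mul_right
    have eP : ∀ y : Cfg 2, P (i.insertNth x y) =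
        ((1 / 2 : ℝ) * ∑ a, slotDeriv i a H (i.insertNth x y) ^ 2) +
        (((1 / 2 : ℝ) * ∑ k, ∑ a, slotDeriv k a θ y ^ 2 + molPot l lam y * θ y ^ 2) +
          lam * (repel x y * θ y ^ 2) - (attract l x + E) * θ y ^ 2 -
          (1 / 2 : ℝ) * (gradMul ω y * φ (i.insertNth x y) ^ 2)) := fun y => by
      simp only [hP, gradMul_wL i hω.smooth, Fin.removeNth_insertNth, molPot_ins, repelN_ins,
        θ, hH.slot_sliceY, Fin.sum_univ_succAbove _ i]
      ring
    have iQR : Integrable fun y => ((1 / 2 : ℝ) * ∑ k, ∑ a, slotDeriv k a θ y ^ 2 +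
        molPot l lam y * θ y ^ 2) + lam * (repel x y * θ y ^ 2) := iQ.add iR
    have iQN : Integrable fun y => ((1 / 2 : ℝ) * ∑ k, ∑ a, slotDeriv k a θ y ^ 2 +
        molPot l lam y * θ y ^ 2) + lam * (repel x y * θ y ^ 2) -
          (attract l x + E) * θ y ^ 2 := iQR.sub iN
    have iP : Integrable fun y : Cfg 2 => P (i.insertNth x y) :=
      (iX.add (iQN.sub iG)).congr (Eventually.of_forall fun y => (eP y).symm)
    have iS : Integrable fun y : Cfg 2 => ∑ a, deriv3 a h x *
        (H (i.insertNth x y) * slotDeriv i a H (i.insertNth x y)) :=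
      integrable_finsetSum _ fun a _ => (iM a).const_mul _
    have eF : ∀ y : Cfg 2, F (i.insertNth x y) = h x * P (i.insertNth x y) +
        (1 / 2) * ∑ a, deriv3 a h x * (H (i.insertNth x y) * slotDeriv i a H (i.insertNth x y)) :=
      fun y => by simp only [hpt, xL_ins, Fin.insertNth_apply_same]
    simp only [eF]
    rw [integral_add (iP.const_mul _) (iS.const_mul _), integral_const_mul, integral_const_mul,
      integral_finsetSum _ fun a _ => (iM a).const_mul _]
    congr 1
    · congr 1
      have iQG : Integrable fun y => ((1 / 2 : ℝ) * ∑ k, ∑ a, slotDeriv k a θ y ^ 2 +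
          molPot l lam y * θ y ^ 2) + lam * (repel x y * θ y ^ 2) -
          (attract l x + E) * θ y ^ 2 -
          (1 / 2 : ℝ) * (gradMul ω y * φ (i.insertNth x y) ^ 2) := iQN.sub iG
      simp only [eP]
      rw [integral_add iX iQG, integral_sub iQN iG, integral_sub iQR iN, integral_add iQ iR,
        integral_const_mul, integral_const_mul, integral_const_mul, integral_const_mul,
        slNorm_sq, marg]
      simp only [formQ, θ, H, wL_ins, mul_pow, mul_assoc]
      ring
    · simp only [m, marg, integral_const_mul]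
  have hGle : ∀ x, ∫ y, gradMul ω y * φ (i.insertNth x y) ^ 2 ≤ 2 * κ * slNorm i H x ^ 2 := by
    intro x
    rw [slNorm_sq, ← integral_const_mul]
    have hφs : IsC1 fun y : Cfg 2 => φ (i.insertNth x y) := hφ.sliceY i x
    refine integral_mono (((continuous_gradMul hω.smooth).mul
      (hφs.continuous.pow 2)).integrable_of_hasCompactSupport
        (hφs.compact.mono fun y hy => by intro h0; exact hy (by simp [h0])))
      ((hH.sliceY i x).memLp.integrable_sq.const_mul _) fun y => ?_
    have e2 : H (i.insertNth x y) ^ 2 = ω y ^ 2 * φ (i.insertNth x y) ^ 2 := by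
      simp [H, wL_ins, mul_pow]
    rw [e2, ← mul_assoc]
    exact mul_le_mul_of_nonneg_right (hgω y) (sq_nonneg _)
  have hle : ∀ x, (1 / 2) * ∑ a, deriv3 a c x * deriv3 a u x +
      h x * ((a x - κ - attract l x - E) * slNorm i H x ^ 2 - b * slIp i χ H x ^ 2) ≤
      ∫ y : Cfg 2, F (i.insertNth x y) := by
    intro x
    rw [hinner]
    have hu0 : 0 < u x := uReg_pos he H x
    set A := marg i (fun z => ∑ a, slotDeriv i a H z ^ 2) x
    have hA : ∑ a, deriv3 a u x ^ 2 ≤ A := sum_deriv3_uReg_le hH he x
    have em : ∀ a, deriv3 a h x * m a x =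
        deriv3 a c x * deriv3 a u x - h x * deriv3 a u x ^ 2 := fun a => by
      have e3 : m a x = deriv3 a u x * u x := by
        rw [show deriv3 a u x = m a x / u x from (hasFDerivAt_uReg hH he).2 a x]
        field_simp
      rw [show deriv3 a h x = _ from deriv3_div_uReg hH he hc a x, e3, hh_def]
      simp only [← hu_def]
      field_simp
    simp only [em, Finset.sum_sub_distrib, ← Finset.mul_sum]
    have hh0 : 0 ≤ h x := div_nonneg (hc0 x) hu0.le
    by_cases hcx : c x = 0
    · simp [hh_def, hcx]
    have eslip : slIp i χ H x = ∫ y, χ y * (ω y * φ (i.insertNth x y)) := by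
      simp [slIp, H, wL_ins]
    have esn : slNorm i H x ^ 2 = ∫ y, (ω y * φ (i.insertNth x y)) ^ 2 := by
      rw [slNorm_sq]; simp [H, wL_ins]
    rw [eslip]
    have hG := hGle x
    have hl := hlow x hcx
    rw [← esn] at hl
    nlinarith [mul_le_mul_of_nonneg_left hA hh0, mul_le_mul_of_nonneg_left hl hh0,
      mul_le_mul_of_nonneg_left hG hh0]
  have hsl2 : ∀ g : Cfg 3 → ℝ, IsC1 g → Continuous (marg i g) := fun g hg => (hg.marg i).1.continuous
  have iL : Integrable fun x => (1 / 2) * ∑ a, deriv3 a c x * deriv3 a u x +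
      h x * ((a x - κ - attract l x - E) * slNorm i H x ^ 2 - b * slIp i χ H x ^ 2) := by
    have hu1 : ContDiff ℝ 1 u := (hasFDerivAt_uReg hH he).1
    have i1 : Integrable fun x => (1 / 2 : ℝ) * ∑ a, deriv3 a c x * deriv3 a u x :=
      (integrable_finsetSum _ fun a _ =>
        (((hc.continuous_fderiv one_ne_zero).clm_apply continuous_const).mul
          ((hu1.continuous_fderiv one_ne_zero).clm_apply continuous_const)).integrable_of_hasCompactSupport
          (hcs.fderiv_apply ℝ (unit3 a)).mul_right).const_mul _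
    have hn : Continuous fun x => slNorm i H x ^ 2 := by
      simp only [slNorm_sq]
      exact (hsl2 _ (hH.mul_left hH.smooth)).congr fun x => by simp [marg, sq]
    have hinv : Continuous fun x => slNorm i H x ^ 2 / u x :=
      hn.div hu1.continuous fun x => (uReg_pos he H x).ne'
    have hcu : Continuous fun x => c x * (slNorm i H x ^ 2 / u x) := hc.continuous.mul hinv
    have hcc : HasCompactSupport fun x => c x * (slNorm i H x ^ 2 / u x) := hcs.mul_right
    have i2 : Integrable fun x => c x * a x * (slNorm i H x ^ 2 / u x) :=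
      (hca.mul hinv).integrable_of_hasCompactSupport (hcs.mul_right.mul_right)
    have i3 : Integrable fun x => One.pot l x * (c x * (slNorm i H x ^ 2 / u x)) :=
      One.integrable_pot_mul l hcu hcc
    have i4 : Integrable fun x => c x / u x * slIp i χ H x ^ 2 := by
      refine ((memLp_slIp hχ hH.memLp).integrable_sq).bdd_mul (c := (hcs.exists_bound_of_continuous
        hc.continuous).choose / e) hh.continuous.aestronglyMeasurable (Eventually.of_forall fun x => ?_)
      rw [norm_div, Real.norm_of_nonneg (uReg_pos he H x).le]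
      exact div_le_div₀ ((norm_nonneg _).trans ((hcs.exists_bound_of_continuous
        hc.continuous).choose_spec 0)) ((hcs.exists_bound_of_continuous
        hc.continuous).choose_spec x) he (le_uReg he.le H x)
    refine (i1.add (((i2.sub ((hcu.integrable_of_hasCompactSupport hcc).const_mul (κ + E))).sub
      i3).sub (i4.const_mul b))).congr (Eventually.of_forall fun x => ?_)
    simp only [Pi.add_apply, Pi.sub_apply, hh_def, Exist.attract_eq]
    ring
  refine ⟨iL, ?_⟩
  rw [show bform l lam E φ (fun i a => slotDeriv i a φ) (katoTest i e c ω φ)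
      (fun j a => slotDeriv j a (katoTest i e c ω φ)) = ∫ z, F z from rfl, integral_split i iF]
  exact integral_mono iL (integrable_slices i iF).2 hle

end Vale.Agent.P363.Inter
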