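import Vale.Agent.P363.Inter.Slice.KatoPoint
import Vale.Agent.P363.Tool.Weak.Local

/-!
P363, interacting side: the slice inequality along approximants, with an error tending to zero.
-/

noncomputable section

namespace Vale.Agent.P363.Inter

open MeasureTheory Filter Set
open scoped BigOperators Topology

/-- The data of a slice inequality: `G` solves with right hand side `R`, seen through the weight
`ω` in the slices at electron `i`, where the ion is bounded below by `a` off the direction `χ`. -/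
structure SliceData (i : Fin 3) (l lam E : ℝ) (G : Cfg 3 → ℝ) (DG : Fin 3 → Fin 3 → Cfg 3 → ℝ)
    (R : Cfg 3 → ℝ) (φ : ℕ → Cfg 3 → ℝ) (ω χ : Cfg 2 → ℝ) (κ b : ℝ) (U : Set Space)
    (a S : Space → ℝ) : Prop where
  open_U : IsOpen U
  approx : Approx φ G DG
  solves : Solves l lam E G DG R
  R_mem : MemLp R 2
  mult : IsMult ω
  grad_le : ∀ y, gradMul ω y ≤ 2 * κ * ω y ^ 2
  χ_mem : MemLp χ 2
  χ_norm : ∫ y, χ y ^ 2 ≤ 1
  b_nonneg : 0 ≤ b
  a_cont : ContinuousOn a U
  S_mem : LocMemLp 2 U S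
  S_nonneg : ∀ x, 0 ≤ S x
  lower : ∀ k, ∀ x ∈ U, a x * (∫ y, (ω y * φ k (i.insertNth x y)) ^ 2) -
      b * (∫ y, χ y * (ω y * φ k (i.insertNth x y))) ^ 2 ≤
    formQ l lam (fun y => ω y * φ k (i.insertNth x y)) +
      lam * ∫ y, repel x y * (ω y * φ k (i.insertNth x y)) ^ 2
  pair : ∀ᵐ x : Space, x ∈ U →
    |∫ y, R (i.insertNth x y) * (ω y ^ 2 * G (i.insertNth x y))| ≤
      S x * slNorm i (fun z => wL i ω z * G z) x

theorem bform_sub_left {m : ℕ} {f f' g : Cfg (m + 1) → ℝ}
    {D D' G : Fin (m + 1) → Fin 3 → Cfg (m + 1) → ℝ} (hf : InH1 f D) (hf' : InH1 f' D')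
    (hg : InH1 g G) (hd : InH1 (fun z => f z - f' z) fun i a z => D i a z - D' i a z)
    (l lam E : ℝ) :
    bform l lam E f D g G = bform l lam E f' D' g G +
      bform l lam E (fun z => f z - f' z) (fun i a z => D i a z - D' i a z) g G := by
  simp only [bform]
  rw [← integral_add (integrable_bform hf' hg l lam E) (integrable_bform hd hg l lam E)]
  refine integral_congr_ae (Eventually.of_forall fun z => ?_)
  simp only [sub_mul, Finset.sum_sub_distrib]
  ring

/-- The gradient error of approximants vanishes against bounded test functions. -/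
theorem tendsto_bform_error {m : ℕ} {φ : ℕ → Cfg (m + 1) → ℝ} {G : Cfg (m + 1) → ℝ}
    {DG : Fin (m + 1) → Fin 3 → Cfg (m + 1) → ℝ} (h : Approx φ G DG) (l lam E : ℝ)
    {ξ : ℕ → Cfg (m + 1) → ℝ} (hξ : ∀ k, IsC1 (ξ k)) {Q : ℕ → ℝ} {L : ℝ}
    (hQ : Tendsto Q atTop (𝓝 L)) (h0 : ∀ k, ∫ z, ξ k z ^ 2 ≤ Q k)
    (h1 : ∀ k i a, ∫ z, slotDeriv i a (ξ k) z ^ 2 ≤ Q k) :
    Tendsto (fun k => bform l lam E (fun z => φ k z - G z)
      (fun i a z => slotDeriv i a (φ k) z - DG i a z) (ξ k)
      fun i a => slotDeriv i a (ξ k)) atTop (𝓝 0) := by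
  obtain ⟨ψ, hψ⟩ := h.inH1
  have hd : ∀ k, InH1 (fun z => φ k z - G z) fun i a z => slotDeriv i a (φ k) z - DG i a z :=
    fun k => by
      obtain ⟨χ, hχ⟩ := (h.c1 k).inH1
      exact (hχ.sub hψ).inH1
  set B := fun k => (1 / 2) * (∑ i, ∑ a, √(∫ z, (slotDeriv i a (φ k) z - DG i a z) ^ 2) * √(Q k)) +
    (√(∫ z, (molPot l lam z * (φ k z - G z)) ^ 2) + |E| * √(∫ z, (φ k z - G z) ^ 2)) * √(Q k)
  refine squeeze_zero_norm (a := B) (fun k => ?_) ?_
  · rw [Real.norm_eq_abs]
    refine (abs_bform_le (hd k) (hξ k).inH1 l lam E).trans (add_le_add ?_ ?_)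
    · exact mul_le_mul_of_nonneg_left (Finset.sum_le_sum fun i _ => Finset.sum_le_sum fun a _ =>
        mul_le_mul_of_nonneg_left (Real.sqrt_le_sqrt (h1 k i a)) (Real.sqrt_nonneg _)) (by norm_num)
    · exact mul_le_mul_of_nonneg_left (Real.sqrt_le_sqrt (h0 k)) (by positivity)
  · have hs := hQ.sqrt
    have e0 : Tendsto (fun k => √(∫ z, (φ k z - G z) ^ 2)) atTop (𝓝 0) := by
      simpa using h.val.tendsto.sqrt
    have eW : Tendsto (fun k => √(∫ z, (molPot l lam z * (φ k z - G z)) ^ 2)) atTop (𝓝 0) := by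
      simpa [mul_sub] using (h.molPot_mul l lam).tendsto.sqrt
    have eD : ∀ i a, Tendsto (fun k => √(∫ z, (slotDeriv i a (φ k) z - DG i a z) ^ 2)) atTop
        (𝓝 0) := fun i a => by simpa using (h.der i a).tendsto.sqrt
    simpa [B] using ((tendsto_finsetSum Finset.univ fun i _ => tendsto_finsetSum Finset.univ
      fun a _ => (eD i a).mul hs).const_mul (2⁻¹ : ℝ)).add ((eW.add (e0.const_mul |E|)).mul hs)

variable {i : Fin 3} {l lam E : ℝ} {G : Cfg 3 → ℝ} {DG : Fin 3 → Fin 3 → Cfg 3 → ℝ}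
  {R : Cfg 3 → ℝ} {φ : ℕ → Cfg 3 → ℝ} {ω χ : Cfg 2 → ℝ} {κ b : ℝ} {U : Set Space}
  {a S : Space → ℝ}

/-- The test functions stay bounded in the energy space. -/
theorem katoTest_bound {φ : Cfg 3 → ℝ} (hφ : IsC1 φ) (hω : IsMult ω) {B : ℝ}
    (hB : ∀ y, |ω y| ≤ B) (hB' : ∀ k a y, |slotDeriv k a ω y| ≤ B) {c : Space → ℝ}
    (hc : ContDiff ℝ 1 c) (hcs : HasCompactSupport c) {M e : ℝ} (he : 0 < e)
    (hM : ∀ x, |c x| ≤ M) (hM' : ∀ a, ∫ x, deriv3 a c x ^ 2 ≤ M) :
    (∫ z, katoTest i e c ω φ z ^ 2 ≤ M ^ 2 / e ^ 2 * B ^ 4 * ∫ z, φ z ^ 2) ∧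
    ∀ j a, ∫ z, slotDeriv j a (katoTest i e c ω φ) z ^ 2 ≤
      6 * B ^ 2 * M + 12 * (M ^ 2 / e ^ 2) * B ^ 4 *
        ((∫ z, φ z ^ 2) + (∑ j, ∑ a, ∫ z, slotDeriv j a φ z ^ 2)) := by
  set H := fun z => wL i ω z * φ z with hHdef
  have hH : IsC1 H := hφ.mul_left (contDiff_wL i hω.smooth)
  set h := fun x => c x / uReg i e H x with hhdef
  have hh : ContDiff ℝ 1 h := contDiff_div_uReg hH he hc
  have hM0 : 0 ≤ M := (abs_nonneg _).trans (hM 0)
  have hB0 : 0 ≤ B := (abs_nonneg _).trans (hB 0)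
  have hha : ∀ x, h x ^ 2 ≤ M ^ 2 / e ^ 2 := fun x => by
    rw [hhdef, div_pow]
    refine div_le_div₀ (sq_nonneg _) ?_ (by positivity)
      (pow_le_pow_left₀ he.le (le_uReg he.le H x) 2)
    rw [← sq_abs (c x)]
    exact pow_le_pow_left₀ (abs_nonneg _) (hM x) 2
  have hw2 : ∀ z, wL i ω z ^ 2 ≤ B ^ 2 := fun z => by
    rw [← sq_abs]; exact pow_le_pow_left₀ (abs_nonneg _) (hB _) 2
  have hw4 : ∀ z, (wL i ω z ^ 2) ^ 2 ≤ B ^ 4 := fun z =>
    (pow_le_pow_left₀ (sq_nonneg _) (hw2 z) 2).trans_eq (by ring)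
  have hξ : IsC1 (katoTest i e c ω φ) := isC1_katoTest hφ hω hc he
  refine ⟨?_, fun j a => ?_⟩
  · rw [← integral_const_mul]
    refine integral_mono hξ.memLp.integrable_sq (hφ.memLp.integrable_sq.const_mul _) fun z => ?_
    simp only [katoTest, xL, mul_pow, ← mul_assoc]
    exact mul_le_mul_of_nonneg_right
      (mul_le_mul (hha _) (hw4 z) (sq_nonneg _) (by positivity)) (sq_nonneg _)
  have hd : ∀ z, slotDeriv j a (katoTest i e c ω φ) z =
      xL i h z * (wL i ω z ^ 2 * slotDeriv j a φ z +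
        2 * (wL i ω z * slotDeriv j a (wL i ω) z) * φ z) +
      (if j = i then deriv3 a h (z i) else 0) * (wL i ω z * H z) := fun z => by
    have hwd := (contDiff_wL i hω.smooth).differentiable one_ne_zero z
    have hk : slotDeriv j a (katoTest i e c ω φ) z =
        xL i h z * slotDeriv j a (fun z => wL i ω z ^ 2 * φ z) z +
          slotDeriv j a (xL i h) z * (wL i ω z ^ 2 * φ z) :=
      (hφ.mul_left ((contDiff_wL i hω.smooth).pow 2)).slot_mul
        ((contDiff_xL i hh).differentiable one_ne_zero z) j a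
    have e2 : slotDeriv j a (fun z => wL i ω z ^ 2) z =
        2 * (wL i ω z * slotDeriv j a (wL i ω) z) := by
      simp [slotDeriv, fderiv_fun_pow 2 hwd]
      ring
    rw [hk, slotDeriv_xL i j a (hh.differentiable one_ne_zero _),
      hφ.slot_mul (w := fun z => wL i ω z ^ 2) (hwd.pow 2) j a, e2, hHdef]
    ring
  set Hx := fun z => deriv3 a h (z i) * H z with hHx
  have hHxC : Continuous Hx :=
    (((hh.continuous_fderiv one_ne_zero).clm_apply continuous_const).comp
      (continuous_apply i)).mul hH.continuous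
  have iHx : Integrable fun z => Hx z ^ 2 :=
    (hHxC.pow 2).integrable_of_hasCompactSupport
      (hH.compact.mono fun z hz => by intro h0; exact hz (by simp [hHx, h0]))
  have hHxb : ∫ z, Hx z ^ 2 ≤ 2 * M + 2 * (M ^ 2 / e ^ 2) *
      ∫ z, slotDeriv i a H z ^ 2 := by
    have i2 : Integrable fun z => slotDeriv i a H z ^ 2 := (hH.memLp_slot i a).integrable_sq
    have eI : ∀ x, ∫ y : Cfg 2, Hx (i.insertNth x y) ^ 2 = deriv3 a h x ^ 2 * slNorm i H x ^ 2 :=
      fun x => by
        rw [slNorm_sq, ← integral_const_mul]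
        simp only [hHx, Fin.insertNth_apply_same, mul_pow]
    have ic : Integrable fun x => deriv3 a c x ^ 2 :=
      (((hc.continuous_fderiv one_ne_zero).clm_apply continuous_const).pow 2).integrable_of_hasCompactSupport
        ((hcs.fderiv_apply ℝ (unit3 a)).mono fun x hx => by intro h0; exact hx (by simp [deriv3, h0]))
    have iA := (integrable_slices i i2).2
    rw [integral_split i iHx, integral_split i i2]
    refine (integral_mono (integrable_slices i iHx).2
      ((ic.const_mul 2).add (iA.const_mul (2 * (M ^ 2 / e ^ 2)))) fun x => ?_).trans ?_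
    · simp only [eI, Pi.add_apply]
      have hu := uReg_pos (i := i) he H x
      set u := uReg i e H x
      have hn : slNorm i H x ^ 2 ≤ u ^ 2 :=
        pow_le_pow_left₀ (slNorm_nonneg _ _ _) (slNorm_le_uReg H x) 2
      rw [show deriv3 a h x = _ from deriv3_div_uReg hH he hc a x]
      have hdu : deriv3 a (uReg i e H) x ^ 2 ≤ ∫ y : Cfg 2, slotDeriv i a H (i.insertNth x y) ^ 2 := by
        have h1 := abs_integral_mul_le (hH.sliceY i x).memLp
          (g := fun y : Cfg 2 => slotDeriv i a H (i.insertNth x y)) (by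
            obtain ⟨K, hK, hK0⟩ := exists_bound_ins i (hH.compact_slot i a)
            exact (((hH.continuous_slot i a).comp ((continuous_ins i).comp
              (continuous_const.prodMk continuous_id))) :
                Continuous fun y : Cfg 2 => slotDeriv i a H (i.insertNth x y)).memLp_of_hasCompactSupport
              (HasCompactSupport.intro hK fun y hy =>
                image_eq_zero_of_notMem_tsupport (f := slotDeriv i a H) (hK0 x y hy)))
        have hm2 : (∫ y : Cfg 2, H (i.insertNth x y) * slotDeriv i a H (i.insertNth x y)) ^ 2 ≤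
            slNorm i H x ^ 2 * ∫ y : Cfg 2, slotDeriv i a H (i.insertNth x y) ^ 2 := by
          rw [← sq_abs, ← Real.sq_sqrt (integral_nonneg fun y : Cfg 2 =>
            sq_nonneg (slotDeriv i a H (i.insertNth x y))), ← mul_pow]
          exact pow_le_pow_left₀ (abs_nonneg _) h1 2
        rw [(hasFDerivAt_uReg hH he).2, div_pow, div_le_iff₀ (by positivity), marg]
        refine hm2.trans ?_
        rw [mul_comm]
        exact mul_le_mul_of_nonneg_left hn (integral_nonneg fun y => sq_nonneg _)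
      set D := deriv3 a (uReg i e H) x
      have hcu : (c x / u) ^ 2 ≤ M ^ 2 / e ^ 2 := hha x
      calc (deriv3 a c x / u - c x / u ^ 2 * D) ^ 2 * slNorm i H x ^ 2
          ≤ (deriv3 a c x / u - c x / u ^ 2 * D) ^ 2 * u ^ 2 :=
            mul_le_mul_of_nonneg_left hn (sq_nonneg _)
        _ = (deriv3 a c x - c x / u * D) ^ 2 := by rw [← mul_pow]; congr 1; field_simp
        _ ≤ 2 * deriv3 a c x ^ 2 + 2 * ((c x / u) ^ 2 * D ^ 2) := by
            nlinarith [sq_nonneg (deriv3 a c x + c x / u * D)]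
        _ ≤ _ := by
            have := mul_le_mul hcu hdu (sq_nonneg _) (by positivity)
            linarith
    · rw [integral_add' (ic.const_mul 2) (iA.const_mul _), integral_const_mul, integral_const_mul]
      linarith [hM' a]
  have hHd : ∀ z, slotDeriv i a H z ^ 2 ≤ B ^ 2 * slotDeriv i a φ z ^ 2 := fun z => by
    rw [hHdef, hφ.slot_mul ((contDiff_wL i hω.smooth).differentiable one_ne_zero z) i a,
      slotDeriv_wL_self i a hω.smooth, zero_mul, add_zero, mul_pow]
    exact mul_le_mul_of_nonneg_right (hw2 z) (sq_nonneg _)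
  have hdw : ∀ z, slotDeriv j a (wL i ω) z ^ 2 ≤ B ^ 2 := fun z => by
    rw [← sq_abs]
    refine pow_le_pow_left₀ (abs_nonneg _) ?_ 2
    rcases Fin.eq_self_or_eq_succAbove i j with rfl | ⟨k, rfl⟩
    · rw [slotDeriv_wL_self _ _ hω.smooth, abs_zero]; exact hB0
    · rw [slotDeriv_wL _ _ _ hω.smooth]; exact hB' k a _
  have hle : ∀ z, slotDeriv j a (katoTest i e c ω φ) z ^ 2 ≤
      3 * (M ^ 2 / e ^ 2) * B ^ 4 * (slotDeriv j a φ z ^ 2 + 4 * φ z ^ 2) +
        3 * B ^ 2 * Hx z ^ 2 := by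
    intro z
    rw [hd]
    set p := xL i h z * (wL i ω z ^ 2 * slotDeriv j a φ z)
    set q := xL i h z * (2 * (wL i ω z * slotDeriv j a (wL i ω) z) * φ z)
    set r := (if j = i then deriv3 a h (z i) else 0) * (wL i ω z * H z)
    have hp : p ^ 2 ≤ M ^ 2 / e ^ 2 * B ^ 4 * slotDeriv j a φ z ^ 2 := by
      simp only [p, xL, mul_pow, ← mul_assoc]
      exact mul_le_mul_of_nonneg_right (mul_le_mul (hha _) (hw4 z) (sq_nonneg _) (by positivity))
        (sq_nonneg _)
    have hq : q ^ 2 ≤ M ^ 2 / e ^ 2 * B ^ 4 * (4 * φ z ^ 2) := by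
      have h4 : wL i ω z ^ 2 * slotDeriv j a (wL i ω) z ^ 2 ≤ B ^ 4 :=
        (mul_le_mul (hw2 z) (hdw z) (sq_nonneg _) (sq_nonneg _)).trans_eq (by ring)
      have : q ^ 2 = h (z i) ^ 2 * (wL i ω z ^ 2 * slotDeriv j a (wL i ω) z ^ 2) *
          (4 * φ z ^ 2) := by simp only [q, xL]; ring
      rw [this]
      exact mul_le_mul_of_nonneg_right (mul_le_mul (hha _) h4 (by positivity) (by positivity))
        (by positivity)
    have hr : r ^ 2 ≤ B ^ 2 * Hx z ^ 2 := by
      by_cases hj : j = i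
      · simp only [r, if_pos hj, hHx, mul_pow]
        nlinarith [mul_le_mul_of_nonneg_right (hw2 z)
          (mul_nonneg (sq_nonneg (deriv3 a h (z i))) (sq_nonneg (H z)))]
      · simp only [r, if_neg hj, zero_mul, zero_pow two_ne_zero]
        positivity
    rw [mul_add]
    nlinarith [sq_nonneg (p - q), sq_nonneg (p - r), sq_nonneg (q - r)]
  have i1 : Integrable fun z => 3 * (M ^ 2 / e ^ 2) * B ^ 4 *
      (slotDeriv j a φ z ^ 2 + 4 * φ z ^ 2) :=
    ((hφ.memLp_slot j a).integrable_sq.add (hφ.memLp.integrable_sq.const_mul 4)).const_mul _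
  refine (integral_mono (hξ.memLp_slot j a).integrable_sq (i1.add (iHx.const_mul _)) hle).trans ?_
  rw [integral_add' i1 (iHx.const_mul _), integral_const_mul, integral_const_mul,
    integral_add (hφ.memLp_slot j a).integrable_sq (hφ.memLp.integrable_sq.const_mul 4),
    integral_const_mul]
  have h5 : ∫ z, slotDeriv i a H z ^ 2 ≤ B ^ 2 * ∫ z, slotDeriv i a φ z ^ 2 := by
    rw [← integral_const_mul]
    exact integral_mono (hH.memLp_slot i a).integrable_sq
      ((hφ.memLp_slot i a).integrable_sq.const_mul _) hHd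
  set T := ∑ j, ∑ a, ∫ z, slotDeriv j a φ z ^ 2
  have hT : ∀ j a, ∫ z, slotDeriv j a φ z ^ 2 ≤ T := fun j a =>
    (Finset.single_le_sum (f := fun a => ∫ z, slotDeriv j a φ z ^ 2)
      (fun a _ => integral_nonneg fun z => sq_nonneg _) (Finset.mem_univ a)).trans
    (Finset.single_le_sum (f := fun j => ∑ a, ∫ z, slotDeriv j a φ z ^ 2)
      (fun j _ => Finset.sum_nonneg fun a _ => integral_nonneg fun z => sq_nonneg _)
      (Finset.mem_univ j))
  have hm0 : 0 ≤ M ^ 2 / e ^ 2 := by positivity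
  have hn0 : 0 ≤ ∫ z, φ z ^ 2 := integral_nonneg fun z => sq_nonneg _
  have hT0 : 0 ≤ T := (integral_nonneg fun z => sq_nonneg _).trans (hT 0 0)
  have t1 := mul_le_mul_of_nonneg_left hHxb (by positivity : (0 : ℝ) ≤ 3 * B ^ 2)
  have t2 := mul_le_mul_of_nonneg_left (hT j a)
    (by positivity : (0 : ℝ) ≤ 3 * (M ^ 2 / e ^ 2) * B ^ 4)
  have t3 := mul_le_mul_of_nonneg_left h5 (by positivity : (0 : ℝ) ≤ 6 * B ^ 2 * (M ^ 2 / e ^ 2))
  have t4 := mul_le_mul_of_nonneg_left (hT i a)
    (by positivity : (0 : ℝ) ≤ 6 * B ^ 4 * (M ^ 2 / e ^ 2))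
  have t5 := mul_nonneg (by positivity : (0 : ℝ) ≤ (M ^ 2 / e ^ 2) * B ^ 4) hn0
  have t6 := mul_nonneg (by positivity : (0 : ℝ) ≤ (M ^ 2 / e ^ 2) * B ^ 4) hT0
  linarith

/-- The slice inequality along the approximants. -/
theorem SliceData.kato_seq (d : SliceData i l lam E G DG R φ ω χ κ b U a S) {e : ℝ} (he : 0 < e)
    {c : ℕ → Space → ℝ} {K : Set Space} (hK : IsCompact K) (hKU : K ⊆ U) {M : ℝ}
    (hc : ∀ k, ContDiff ℝ 1 (c k)) (hsupp : ∀ k, ∀ x ∉ K, c k x = 0) (h0 : ∀ k x, 0 ≤ c k x)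
    (hM : ∀ k x, c k x ≤ M) (hM' : ∀ k a, ∫ x, deriv3 a (c k) x ^ 2 ≤ M) :
    let H := fun k z => wL i ω z * φ k z
    let G' := fun z => wL i ω z * G z
    ∃ err : ℕ → ℝ, Tendsto err atTop (𝓝 0) ∧ ∀ k,
      Integrable (fun x => (1 / 2) * ∑ a, deriv3 a (c k) x * deriv3 a (uReg i e (H k)) x +
        c k x * ((a x - κ - attract l x - E) * (slNorm i (H k) x ^ 2 / uReg i e (H k) x))) ∧
      Integrable (fun x => c k x * (S x + b * |slIp i χ G' x|)) ∧
      ∫ x, ((1 / 2) * ∑ a, deriv3 a (c k) x * deriv3 a (uReg i e (H k)) x +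
        c k x * ((a x - κ - attract l x - E) * (slNorm i (H k) x ^ 2 / uReg i e (H k) x))) ≤
      (∫ x, c k x * (S x + b * |slIp i χ G' x|)) + err k := by
  intro H G'
  have hM0 : 0 ≤ M := (h0 0 0).trans (hM 0 0)
  have hab : ∀ k x, |c k x| ≤ M := fun k x => (abs_of_nonneg (h0 k x)).trans_le (hM k x)
  have hcs : ∀ k, HasCompactSupport (c k) := fun k => HasCompactSupport.intro hK (hsupp k)
  have hts : ∀ k, tsupport (c k) ⊆ K := fun k =>
    closure_minimal (fun x hx => by_contra fun h => hx (hsupp k x h)) hK.isClosed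
  obtain ⟨B, hB, hB'⟩ := d.mult.bounded
  have hlimH : SqLim volume H G' :=
    d.approx.val.mul_bdd (contDiff_wL i d.mult.smooth).continuous.aestronglyMeasurable
      fun z => hB _
  have hHc : ∀ k, IsC1 (H k) := fun k => (d.approx.c1 k).mul_left (contDiff_wL i d.mult.smooth)
  set ξ := fun k => katoTest i e (c k) ω (φ k)
  have hξ : ∀ k, IsC1 (ξ k) := fun k => isC1_katoTest (d.approx.c1 k) d.mult (hc k) he
  set Q : ℕ → ℝ := fun k => 6 * B ^ 2 * M + 12 * (M ^ 2 / e ^ 2) * B ^ 4 *
    ((∫ z, φ k z ^ 2) + (∑ j, ∑ a, ∫ z, slotDeriv j a (φ k) z ^ 2))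
  have hQ : Tendsto Q atTop (𝓝 _) := ((d.approx.val.integral_sq.add (tendsto_finsetSum _
    fun j _ => tendsto_finsetSum _ fun a _ => (d.approx.der j a).integral_sq)).const_mul _).const_add _
  have hQ0 : ∀ k, ∫ z, ξ k z ^ 2 ≤ Q k := fun k => by
    refine (katoTest_bound (d.approx.c1 k) d.mult hB hB' (hc k) (hcs k) he (hab k) (hM' k)).1.trans ?_
    have h1 : 0 ≤ ∑ j, ∑ a, ∫ z, slotDeriv j a (φ k) z ^ 2 :=
      Finset.sum_nonneg fun j _ => Finset.sum_nonneg fun a _ => integral_nonneg fun z => sq_nonneg _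
    have h2 : 0 ≤ ∫ z, φ k z ^ 2 := integral_nonneg fun z => sq_nonneg _
    have h3 : 0 ≤ M ^ 2 / e ^ 2 * B ^ 4 := by positivity
    nlinarith [mul_nonneg h3 h1, mul_nonneg h3 h2, mul_nonneg (sq_nonneg B) hM0]
  have herr := tendsto_bform_error d.approx l lam E hξ hQ hQ0 fun k =>
    (katoTest_bound (d.approx.c1 k) d.mult hB hB' (hc k) (hcs k) he (hab k) (hM' k)).2
  have hSi : MemLp (K.indicator S) 2 :=
    (memLp_indicator_iff_restrict hK.measurableSet).2 (d.S_mem K hK hKU)
  have hIp := hlimH.slIp d.χ_mem i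
  have hSl := hlimH.slNorm i
  have h1K : MemLp (K.indicator fun _ : Space => (1 : ℝ)) 2 :=
    memLp_indicator_const 2 hK.measurableSet 1 (Or.inr hK.measure_lt_top.ne)
  have hd : ∀ k, MemLp (fun z => φ k z - G z) 2 := fun k =>
    (d.approx.val.mem k).sub d.approx.val.lim_mem
  set err : ℕ → ℝ := fun k =>
    bform l lam E (fun z => φ k z - G z) (fun i a z => slotDeriv i a (φ k) z - DG i a z) (ξ k)
        (fun i a => slotDeriv i a (ξ k)) +
      M / e * B ^ 2 * √(∫ z, R z ^ 2) * √(∫ z, (φ k z - G z) ^ 2) +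
      M / e * (√(∫ x, K.indicator S x ^ 2) *
        √(∫ x, (slNorm i (H k) x - slNorm i G' x) ^ 2)) +
      b * M * (√(∫ x, K.indicator (fun _ : Space => (1 : ℝ)) x ^ 2) *
        √(∫ x, (slIp i χ (H k) x - slIp i χ G' x) ^ 2))
  refine ⟨err, ?_, fun k => ?_⟩
  · have e0 : Tendsto (fun k => √(∫ z, (φ k z - G z) ^ 2)) atTop (𝓝 0) := by
      simpa using d.approx.val.tendsto.sqrt
    have e1 : Tendsto (fun k => √(∫ x, (slNorm i (H k) x - slNorm i G' x) ^ 2)) atTop (𝓝 0) := by
      simpa using hSl.tendsto.sqrt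
    have e2 : Tendsto (fun k => √(∫ x, (slIp i χ (H k) x - slIp i χ G' x) ^ 2)) atTop (𝓝 0) := by
      simpa using hIp.tendsto.sqrt
    simpa [err] using (((herr.add (e0.const_mul _)).add ((e1.const_mul _).const_mul _)).add
      ((e2.const_mul _).const_mul _))
  set u := uReg i e (H k) with hudef
  have hu0 : ∀ x, 0 < u x := fun x => uReg_pos he _ x
  have hca : Continuous fun x => c k x * a x := by
    rw [continuous_iff_continuousAt]
    intro x
    by_cases hx : x ∈ U
    · exact (hc k).continuous.continuousAt.mul (d.a_cont.continuousAt (d.open_U.mem_nhds hx))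
    · have : (fun y => c k y * a y) =ᶠ[𝓝 x] fun _ => 0 := by
        filter_upwards [(isClosed_tsupport (c k)).isOpen_compl.mem_nhds
          fun h => hx (hKU (hts k h))] with y hy
        rw [image_eq_zero_of_notMem_tsupport hy, zero_mul]
      exact (continuousAt_congr this).2 continuousAt_const
  obtain ⟨iL, hL⟩ := kato_point (i := i) (l := l) (lam := lam) (E := E) (a := a) (b := b)
    (d.approx.c1 k) d.mult d.grad_le (hc k) (hcs k) (h0 k) he d.χ_mem hca fun x hx =>
      d.lower k x (hKU (by_contra fun h => hx (hsupp k x h)))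
  have iIP : Integrable fun x => c k x / u x * slIp i χ (H k) x ^ 2 := by
    refine ((memLp_slIp d.χ_mem (hHc k).memLp).integrable_sq).bdd_mul (c := M / e)
      (contDiff_div_uReg (hHc k) he (hc k)).continuous.aestronglyMeasurable
      (Eventually.of_forall fun x => ?_)
    rw [norm_div, Real.norm_of_nonneg (hu0 x).le, Real.norm_eq_abs]
    exact div_le_div₀ hM0 (hab k x) he (le_uReg he.le _ x)
  have iP : Integrable fun x => (1 / 2) * ∑ q, deriv3 q (c k) x * deriv3 q u x +
      c k x * ((a x - κ - attract l x - E) * (slNorm i (H k) x ^ 2 / u x)) := by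
    refine (iL.add (iIP.const_mul b)).congr (Eventually.of_forall fun x => ?_)
    simp only [Pi.add_apply, hudef, H]
    ring
  have iIpK : Integrable fun x => c k x * |slIp i χ G' x| := by
    refine ((MemLp.of_le_mul (c := M) h1K (hc k).continuous.aestronglyMeasurable
      (Eventually.of_forall fun x => ?_)).integrable_mul hIp.lim_mem.abs)
    by_cases hx : x ∈ K
    · simp [hx, hab k x]
    · simp [hx, hsupp k x hx]
  have hcm : MemLp (c k) 2 := (hc k).continuous.memLp_of_hasCompactSupport (hcs k)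
  have iS : Integrable fun x => c k x * S x := by
    refine (hcm.integrable_mul hSi).congr (Eventually.of_forall fun x => ?_)
    by_cases hx : x ∈ K
    · simp [hx]
    · simp [hx, hsupp k x hx]
  have iSb : Integrable fun x => c k x * (S x + b * |slIp i χ G' x|) :=
    (iS.add (iIpK.const_mul b)).congr (Eventually.of_forall fun x => by
      simp only [Pi.add_apply]; ring)
  refine ⟨iP, iSb, ?_⟩
  -- the right hand side
  obtain ⟨ψ, hψ⟩ := d.approx.inH1
  obtain ⟨χ', hχ'⟩ := (d.approx.c1 k).inH1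
  have hdiff : InH1 (fun z => φ k z - G z) fun i a z => slotDeriv i a (φ k) z - DG i a z :=
    (hχ'.sub hψ).inH1
  have hB1 := bform_sub_left (d.approx.c1 k).inH1 ⟨ψ, hψ⟩ (hξ k).inH1 hdiff l lam E
  rw [d.solves _ _ (hξ k).inH1] at hB1
  set hh := fun x => c k x / u x
  set T := fun z => xL i hh z * (wL i ω z ^ 2 * G z)
  set Δ := fun z => xL i hh z * (wL i ω z ^ 2 * (φ k z - G z))
  have hbd : ∀ z, |xL i hh z * wL i ω z ^ 2| ≤ M / e * B ^ 2 := fun z => by
    rw [abs_mul, abs_pow]
    refine mul_le_mul ?_ (pow_le_pow_left₀ (abs_nonneg _) (hB _) 2) (by positivity) (by positivity)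
    simp only [xL, hh, abs_div, abs_of_pos (hu0 _)]
    exact div_le_div₀ hM0 (hab k _) he (le_uReg he.le _ _)
  have hm : AEStronglyMeasurable (fun z => xL i hh z * wL i ω z ^ 2) :=
    ((contDiff_xL i (contDiff_div_uReg (hHc k) he (hc k))).continuous.mul
      ((contDiff_wL i d.mult.smooth).continuous.pow 2)).aestronglyMeasurable
  have hmul : ∀ {g : Cfg 3 → ℝ}, MemLp g 2 →
      MemLp (fun z => xL i hh z * (wL i ω z ^ 2 * g z)) 2 := fun {g} hg => by
    refine hg.of_le_mul (c := M / e * B ^ 2) ((hm.mul hg.1).congr (Eventually.of_forall fun z =>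
      mul_assoc _ _ _)) (Eventually.of_forall fun z => ?_)
    rw [← mul_assoc, norm_mul, Real.norm_eq_abs]
    exact mul_le_mul_of_nonneg_right (hbd z) (norm_nonneg _)
  have hT : MemLp T 2 := hmul d.approx.val.lim_mem
  have hΔ : MemLp Δ 2 := hmul (hd k)
  have hRsplit : ∫ z, R z * ξ k z = (∫ z, R z * T z) + ∫ z, R z * Δ z := by
    rw [← integral_add (f := fun z => R z * T z) (g := fun z => R z * Δ z)
      (d.R_mem.integrable_mul hT) (d.R_mem.integrable_mul hΔ)]
    refine integral_congr_ae (Eventually.of_forall fun z => ?_)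
    simp only [T, Δ, hh, u, ξ, katoTest, H]
    ring
  have hΔle : ∫ z, R z * Δ z ≤ M / e * B ^ 2 * √(∫ z, R z ^ 2) * √(∫ z, (φ k z - G z) ^ 2) := by
    refine (le_abs_self _).trans ((abs_integral_mul_le d.R_mem hΔ).trans ?_)
    rw [mul_right_comm (M / e * B ^ 2), mul_comm (√(∫ z, R z ^ 2))]
    refine mul_le_mul_of_nonneg_right ?_ (Real.sqrt_nonneg _)
    rw [← Real.sqrt_sq (by positivity : (0 : ℝ) ≤ M / e * B ^ 2),
      ← Real.sqrt_mul (sq_nonneg _), ← integral_const_mul]
    refine Real.sqrt_le_sqrt (integral_mono hΔ.integrable_sq ((hd k).integrable_sq.const_mul _)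
      fun z => ?_)
    simp only [Δ, ← mul_assoc, mul_pow (xL i hh z * wL i ω z ^ 2)]
    refine mul_le_mul_of_nonneg_right ?_ (sq_nonneg _)
    rw [← sq_abs]
    exact pow_le_pow_left₀ (abs_nonneg _) (hbd z) 2
  have iRT : Integrable fun z => R z * T z := d.R_mem.integrable_mul hT
  have iN : Integrable fun x => K.indicator S x * |slNorm i (H k) x - slNorm i G' x| :=
    hSi.integrable_mul ((hSl.mem k).sub hSl.lim_mem).abs
  have hmain : ∫ z, R z * T z ≤ (∫ x, c k x * S x) +
      M / e * (√(∫ x, K.indicator S x ^ 2) *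
        √(∫ x, (slNorm i (H k) x - slNorm i G' x) ^ 2)) := by
    rw [integral_split i iRT]
    have e1 : ∀ x, ∫ y : Cfg 2, R (i.insertNth x y) * T (i.insertNth x y) =
        hh x * ∫ y : Cfg 2, R (i.insertNth x y) * (ω y ^ 2 * G (i.insertNth x y)) := fun x => by
      rw [← integral_const_mul]
      congr 1; funext y
      simp only [T, xL_ins, wL_ins]; ring
    refine (integral_mono_ae (integrable_slices i iRT).2 (iS.add (iN.const_mul (M / e))) ?_).trans ?_
    · filter_upwards [d.pair] with x hx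
      simp only [e1, Pi.add_apply]
      by_cases hxK : x ∈ K
      · rw [indicator_of_mem hxK]
        set N' := slNorm i G' x
        have h4 : hh x * ∫ y : Cfg 2, R (i.insertNth x y) * (ω y ^ 2 * G (i.insertNth x y)) ≤
            hh x * (S x * N') :=
          mul_le_mul_of_nonneg_left ((le_abs_self _).trans (hx (hKU hxK)))
            (div_nonneg (h0 k x) (hu0 x).le)
        have h5 : N' / u x ≤ 1 + |slNorm i (H k) x - N'| / e := by
          rw [div_le_iff₀ (hu0 x), add_mul, one_mul]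
          have h6 : N' ≤ u x + |slNorm i (H k) x - N'| := by
            linarith [slNorm_le_uReg (e := e) (i := i) (H k) x,
              neg_abs_le (slNorm i (H k) x - N')]
          refine h6.trans (add_le_add le_rfl ?_)
          rw [div_mul_eq_mul_div, le_div_iff₀ he]
          exact mul_le_mul_of_nonneg_left (le_uReg he.le _ x) (abs_nonneg _)
        refine h4.trans ?_
        have hcS := mul_nonneg (h0 k x) (d.S_nonneg x)
        calc hh x * (S x * N') = c k x * S x * (N' / u x) := by simp only [hh]; ring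
          _ ≤ c k x * S x * (1 + |slNorm i (H k) x - N'| / e) :=
              mul_le_mul_of_nonneg_left h5 hcS
          _ = c k x * S x + c k x / e * (S x * |slNorm i (H k) x - N'|) := by ring
          _ ≤ _ := add_le_add le_rfl (mul_le_mul_of_nonneg_right
              (div_le_div_of_nonneg_right (hM k x) he.le)
              (mul_nonneg (d.S_nonneg x) (abs_nonneg _)))
      · simp [hh, hsupp k x hxK, hxK]
    · rw [integral_add' iS (iN.const_mul _), integral_const_mul]
      refine add_le_add le_rfl (mul_le_mul_of_nonneg_left ?_ (by positivity))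
      refine (le_abs_self _).trans ((abs_integral_mul_le hSi
        ((hSl.mem k).sub hSl.lim_mem).abs).trans_eq ?_)
      simp [sq_abs]
  have iD : Integrable fun x => K.indicator (fun _ : Space => (1 : ℝ)) x *
      |slIp i χ (H k) x - slIp i χ G' x| :=
    h1K.integrable_mul ((hIp.mem k).sub hIp.lim_mem).abs
  have hIPle : ∫ x, c k x / u x * slIp i χ (H k) x ^ 2 ≤ (∫ x, c k x * |slIp i χ G' x|) +
      M * (√(∫ x, K.indicator (fun _ : Space => (1 : ℝ)) x ^ 2) *
        √(∫ x, (slIp i χ (H k) x - slIp i χ G' x) ^ 2)) := by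
    refine (integral_mono iIP (iIpK.add (iD.const_mul M)) fun x => ?_).trans ?_
    · simp only [Pi.add_apply]
      by_cases hxK : x ∈ K
      · rw [indicator_of_mem hxK, one_mul]
        set p := slIp i χ (H k) x
        have hp : |p| ≤ u x := by
          refine (abs_slIp_le d.χ_mem ((hHc k).sliceY i x).memLp).trans
            ((mul_le_of_le_one_left (slNorm_nonneg _ _ _) ?_).trans (slNorm_le_uReg _ x))
          exact Real.sqrt_le_one.2 d.χ_norm
        calc c k x / u x * p ^ 2 = c k x * |p| * (|p| / u x) := by rw [← sq_abs p]; ring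
          _ ≤ c k x * |p| := mul_le_of_le_one_right (mul_nonneg (h0 k x) (abs_nonneg _))
              ((div_le_one (hu0 x)).2 hp)
          _ ≤ c k x * (|slIp i χ G' x| + |p - slIp i χ G' x|) := by
              refine mul_le_mul_of_nonneg_left ?_ (h0 k x)
              linarith [abs_sub_abs_le_abs_sub p (slIp i χ G' x)]
          _ ≤ _ := by
              rw [mul_add]
              exact add_le_add le_rfl (mul_le_mul_of_nonneg_right (hM k x) (abs_nonneg _))
      · simp [hsupp k x hxK, hxK]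
    · rw [integral_add' iIpK (iD.const_mul _), integral_const_mul]
      refine add_le_add le_rfl (mul_le_mul_of_nonneg_left ?_ hM0)
      refine (le_abs_self _).trans ((abs_integral_mul_le h1K
        ((hIp.mem k).sub hIp.lim_mem).abs).trans_eq ?_)
      simp [sq_abs]
  have hPeq : ∫ x, ((1 / 2) * ∑ q, deriv3 q (c k) x * deriv3 q u x +
      c k x * ((a x - κ - attract l x - E) * (slNorm i (H k) x ^ 2 / u x))) =
      (∫ x, ((1 / 2) * ∑ q, deriv3 q (c k) x * deriv3 q u x + c k x / u x *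
        ((a x - κ - attract l x - E) * slNorm i (H k) x ^ 2 - b * slIp i χ (H k) x ^ 2))) +
      b * ∫ x, c k x / u x * slIp i χ (H k) x ^ 2 := by
    rw [← integral_const_mul, ← integral_add iL (iIP.const_mul b)]
    refine integral_congr_ae (Eventually.of_forall fun x => ?_)
    simp only [hudef, H]
    ring
  have hRhs : ∫ x, c k x * (S x + b * |slIp i χ G' x|) =
      (∫ x, c k x * S x) + b * ∫ x, c k x * |slIp i χ G' x| := by
    rw [← integral_const_mul, ← integral_add iS (iIpK.const_mul b)]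
    refine integral_congr_ae (Eventually.of_forall fun x => ?_)
    simp only []
    ring
  have hb2 := mul_le_mul_of_nonneg_left hIPle d.b_nonneg
  simp only [err]
  change ∫ x, ((1 / 2) * ∑ q, deriv3 q (c k) x * deriv3 q u x +
      c k x * ((a x - κ - attract l x - E) * (slNorm i (H k) x ^ 2 / u x))) ≤ _
  simp only [ξ] at hB1 hRsplit hΔle hmain ⊢
  linarith [hPeq, hRhs]

end Vale.Agent.P363.Inter
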