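import Vale.Agent.P363.Inter.Slice.KatoSeq

/-!
P363, interacting side: the differential inequality for the norm of the weighted slices, in the
limit of the approximants and then of the regularisation of the norm.
-/

noncomputable section

namespace Vale.Agent.P363.Inter

open MeasureTheory Filter Set
open scoped BigOperators Topology

/-- The regularised length of a number. -/
def rootE (e N : ℝ) : ℝ := √(N ^ 2 + e ^ 2)

/-- The square over the regularised length. -/
def kG (e N : ℝ) : ℝ := N ^ 2 / rootE e N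

theorem rootE_pos {e : ℝ} (he : 0 < e) (N : ℝ) : 0 < rootE e N := Real.sqrt_pos.2 (by positivity)

theorem continuous_rootE (e : ℝ) : Continuous (rootE e) := by unfold rootE; fun_prop

theorem rootE_bounds {e : ℝ} (he : 0 < e) {N : ℝ} (hN : 0 ≤ N) :
    e ≤ rootE e N ∧ N ≤ rootE e N ∧ rootE e N ≤ N + e :=
  ⟨Real.le_sqrt_of_sq_le (le_add_of_nonneg_left (sq_nonneg _)),
    Real.le_sqrt_of_sq_le (le_add_of_nonneg_right (sq_nonneg _)),
    (Real.sqrt_le_left (by positivity)).2 (by nlinarith [mul_nonneg hN he.le])⟩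

theorem abs_rootE_sub_le {e : ℝ} (he : 0 < e) (a b : ℝ) :
    |rootE e a - rootE e b| ≤ |a - b| := by
  have hs : ∀ t, rootE e t ^ 2 = t ^ 2 + e ^ 2 := fun t => Real.sq_sqrt (by positivity)
  have ha := rootE_pos he a
  have hb := rootE_pos he b
  have la : |a| ≤ rootE e a := by
    rw [← Real.sqrt_sq_eq_abs]; exact Real.sqrt_le_sqrt (by nlinarith)
  have lb : |b| ≤ rootE e b := by
    rw [← Real.sqrt_sq_eq_abs]; exact Real.sqrt_le_sqrt (by nlinarith)
  have e1 : (rootE e a - rootE e b) * (rootE e a + rootE e b) = (a - b) * (a + b) := by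
    linear_combination hs a - hs b
  have e2 := congrArg abs e1
  rw [abs_mul, abs_mul, abs_of_pos (add_pos ha hb)] at e2
  refine le_of_mul_le_mul_right ?_ (add_pos ha hb)
  rw [e2]
  exact mul_le_mul_of_nonneg_left ((abs_add_le a b).trans (add_le_add la lb)) (abs_nonneg _)

theorem abs_kG_sub_le {e : ℝ} (he : 0 < e) {a b : ℝ} (ha : 0 ≤ a) (hb : 0 ≤ b) :
    |kG e a - kG e b| ≤ 2 * |a - b| := by
  have hp : ∀ t, kG e t = rootE e t - e ^ 2 / rootE e t := fun t => by
    have := rootE_pos he t
    rw [kG, eq_sub_iff_add_eq, ← add_div, div_eq_iff this.ne', ← sq]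
    exact (Real.sq_sqrt (by positivity)).symm
  obtain ⟨la, -, -⟩ := rootE_bounds he ha
  obtain ⟨lb, -, -⟩ := rootE_bounds he hb
  have h2 : |e ^ 2 / rootE e a - e ^ 2 / rootE e b| ≤ |rootE e a - rootE e b| := by
    have hA := rootE_pos he a
    have hB := rootE_pos he b
    rw [div_sub_div _ _ hA.ne' hB.ne', abs_div, abs_of_pos (mul_pos hA hB),
      div_le_iff₀ (mul_pos hA hB), mul_comm (rootE e a) (e ^ 2), ← mul_sub, abs_mul,
      abs_of_nonneg (sq_nonneg e), abs_sub_comm (rootE e b),
      mul_comm (|rootE e a - rootE e b|)]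
    exact mul_le_mul_of_nonneg_right (by nlinarith) (abs_nonneg _)
  rw [hp, hp]
  have h1 := abs_rootE_sub_le he a b
  calc |rootE e a - e ^ 2 / rootE e a - (rootE e b - e ^ 2 / rootE e b)|
      = |(rootE e a - rootE e b) - (e ^ 2 / rootE e a - e ^ 2 / rootE e b)| := by ring_nf
    _ ≤ |rootE e a - rootE e b| + |e ^ 2 / rootE e a - e ^ 2 / rootE e b| := abs_sub _ _
    _ ≤ _ := by linarith

theorem kG_bounds {e : ℝ} (he : 0 < e) {N : ℝ} (hN : 0 ≤ N) :
    0 ≤ kG e N ∧ kG e N ≤ N ∧ N - e ≤ kG e N := by
  obtain ⟨l1, l2, l3⟩ := rootE_bounds he hN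
  have hp := rootE_pos he N
  refine ⟨div_nonneg (sq_nonneg _) hp.le, ?_, ?_⟩
  · rw [kG, div_le_iff₀ hp, sq]
    exact mul_le_mul_of_nonneg_left l2 hN
  · rw [kG, le_div_iff₀ hp]
    rcases le_total N e with h | h
    · nlinarith
    · nlinarith [mul_le_mul_of_nonneg_left l3 (sub_nonneg.2 h)]

theorem SqLim.of_abs_sub_le {X : Type*} [MeasurableSpace X] {μ : Measure X} {f F : ℕ → X → ℝ}
    {f₀ F₀ : X → ℝ} {C : ℝ} (hf : SqLim μ f f₀) (hm : ∀ k, AEStronglyMeasurable (F k) μ)
    (h0 : MemLp F₀ 2 μ) (hle : ∀ k, ∀ᵐ x ∂μ, |F k x - F₀ x| ≤ C * |f k x - f₀ x|) :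
    SqLim μ F F₀ := by
  have hd : ∀ k, MemLp (fun x => F k x - F₀ x) 2 μ := fun k =>
    ((hf.mem k).sub hf.lim_mem).of_le_mul (c := C) ((hm k).sub h0.1) (hle k)
  refine ⟨fun k => ((hd k).add h0).ae_eq (Eventually.of_forall fun x => by simp), h0,
    squeeze_zero (fun k => integral_nonneg fun x => sq_nonneg _) (fun k => ?_)
      (by simpa using hf.tendsto.const_mul (C ^ 2))⟩
  rw [← integral_const_mul]
  refine integral_mono_ae (hd k).integrable_sq
    (((hf.mem k).sub hf.lim_mem).integrable_sq.const_mul _) ?_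
  filter_upwards [hle k] with x hx
  rw [← sq_abs, ← sq_abs (f k x - f₀ x), ← mul_pow]
  exact pow_le_pow_left₀ (abs_nonneg _) hx 2

theorem Approx.attract_mul {n : ℕ} {φ : ℕ → Cfg (n + 1) → ℝ} {f : Cfg (n + 1) → ℝ}
    {D : Fin (n + 1) → Fin 3 → Cfg (n + 1) → ℝ} (h : Approx φ f D) (l : ℝ) (i : Fin (n + 1)) :
    SqLim volume (fun k z => attract l (z i) * φ k z) fun z => attract l (z i) * f z := by
  have hp : ∀ p : Space, SqLim volume (fun k z => φ k z / ‖z i - p‖) fun z => f z / ‖z i - p‖ :=
    fun p => by simpa only [pole] using h.div_pole i (c := fun _ => p) continuous_const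
  refine ((hp (nuc l)).add (hp (-nuc l))).congr (fun k => Eventually.of_forall fun z => ?_)
    (Eventually.of_forall fun z => ?_) <;>
  · simp only [attract, sub_neg_eq_add]; ring

variable {i : Fin 3} {l lam E : ℝ} {G : Cfg 3 → ℝ} {DG : Fin 3 → Fin 3 → Cfg 3 → ℝ}
  {R : Cfg 3 → ℝ} {φ : ℕ → Cfg 3 → ℝ} {ω χ : Cfg 2 → ℝ} {κ b : ℝ} {U : Set Space}
  {a S : Space → ℝ}

theorem SliceData.lim_weight (d : SliceData i l lam E G DG R φ ω χ κ b U a S) :
    SqLim volume (fun k z => wL i ω z * φ k z) (fun z => wL i ω z * G z) ∧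
      SqLim volume (fun k x => attract l x * slNorm i (fun z => wL i ω z * φ k z) x)
        fun x => attract l x * slNorm i (fun z => wL i ω z * G z) x := by
  obtain ⟨B, hB, -⟩ := d.mult.bounded
  have hw := (contDiff_wL i d.mult.smooth).continuous.aestronglyMeasurable (μ := volume)
  refine ⟨d.approx.val.mul_bdd hw fun z => hB _, ?_⟩
  have hB' : ∀ z, |wL i ω z| ≤ B := fun z => hB _
  refine (((d.approx.attract_mul l i).mul_bdd hw hB').slNorm i).congr
    (fun k => Eventually.of_forall fun x => ?_) (Eventually.of_forall fun x => ?_) <;>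
  · have ha : 0 ≤ attract l x := by unfold attract; positivity
    simp only [slNorm, Fin.insertNth_apply_same]
    rw [← Real.sqrt_sq ha, ← Real.sqrt_mul (sq_nonneg _), ← integral_const_mul, Real.sqrt_sq ha]
    congr 2; funext y; ring

/-- The gradient of the regularised norms is bounded in mean square along the approximants. -/
theorem deriv3_uReg_bound {φ : Cfg 3 → ℝ} (hφ : IsC1 φ) (hω : IsMult ω) {B : ℝ}
    (hB : ∀ y, |ω y| ≤ B) {e : ℝ} (he : 0 < e) (q : Fin 3) :
    Integrable (fun x => marg i (fun z => ∑ a, slotDeriv i a (fun z => wL i ω z * φ z) z ^ 2) x) ∧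
      (∀ x, deriv3 q (uReg i e fun z => wL i ω z * φ z) x ^ 2 ≤
        marg i (fun z => ∑ a, slotDeriv i a (fun z => wL i ω z * φ z) z ^ 2) x) ∧
      ∫ x, marg i (fun z => ∑ a, slotDeriv i a (fun z => wL i ω z * φ z) z ^ 2) x ≤
        B ^ 2 * ∑ j, ∑ a, ∫ z, slotDeriv j a φ z ^ 2 := by
  have hH : IsC1 fun z => wL i ω z * φ z := hφ.mul_left (contDiff_wL i hω.smooth)
  have i1 : Integrable fun z => ∑ a, slotDeriv i a (fun z => wL i ω z * φ z) z ^ 2 :=
    integrable_finsetSum _ fun a _ => (hH.memLp_slot i a).integrable_sq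
  refine ⟨(integrable_slices i i1).2, fun x => ?_, ?_⟩
  · exact (Finset.single_le_sum (f := fun a => deriv3 a (uReg i e fun z => wL i ω z * φ z) x ^ 2)
      (fun a _ => sq_nonneg _) (Finset.mem_univ q)).trans (sum_deriv3_uReg_le hH he x)
  · simp only [marg]
    rw [← integral_split i i1, integral_finsetSum _ fun a _ => (hH.memLp_slot i a).integrable_sq]
    refine (Finset.sum_le_sum (g := fun a => B ^ 2 * ∫ z, slotDeriv i a φ z ^ 2) fun a _ => ?_).trans ?_
    · rw [← integral_const_mul]
      refine integral_mono (hH.memLp_slot i a).integrable_sq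
        ((hφ.memLp_slot i a).integrable_sq.const_mul _) fun z => ?_
      rw [hφ.slot_mul ((contDiff_wL i hω.smooth).differentiable one_ne_zero z) i a,
        slotDeriv_wL_self i a hω.smooth, zero_mul, add_zero, mul_pow]
      refine mul_le_mul_of_nonneg_right ?_ (sq_nonneg _)
      rw [← sq_abs]
      exact pow_le_pow_left₀ (abs_nonneg _) (hB _) 2
    · rw [← Finset.mul_sum]
      exact mul_le_mul_of_nonneg_left (Finset.single_le_sum
        (f := fun j => ∑ a, ∫ z, slotDeriv j a φ z ^ 2)
        (fun j _ => Finset.sum_nonneg fun a _ => integral_nonneg fun z => sq_nonneg _)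
        (Finset.mem_univ i)) (sq_nonneg B)

/-- The inequality in the limit of the approximants. -/
theorem SliceData.limit_ineq (d : SliceData i l lam E G DG R φ ω χ κ b U a S) {e : ℝ}
    (he : 0 < e) {c : ℕ → Space → ℝ} {cl : Space → ℝ} {K : Set Space} (hK : IsCompact K)
    (hKU : K ⊆ U) {M : ℝ} (hc : ∀ k, ContDiff ℝ 1 (c k)) (hsupp : ∀ k, ∀ x ∉ K, c k x = 0)
    (hsupp' : ∀ x ∉ K, cl x = 0) (h0 : ∀ k x, 0 ≤ c k x) (hM : ∀ k x, c k x ≤ M)
    (hM' : ∀ k q, ∫ x, deriv3 q (c k) x ^ 2 ≤ M) (hcl : SqLim volume c cl) {L : ℕ → ℝ} {L₀ : ℝ}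
    (hL : ∀ k, L k ≤ ∫ x, (1 / 2) * ∑ q, deriv3 q (c k) x *
      deriv3 q (uReg i e fun z => wL i ω z * φ k z) x)
    (hL₀ : Tendsto L atTop (𝓝 L₀)) :
    let N := slNorm i fun z => wL i ω z * G z
    L₀ + ∫ x, cl x * ((a x - κ - attract l x - E) * kG e (N x)) ≤
      ∫ x, cl x * (S x + b * |slIp i χ (fun z => wL i ω z * G z) x|) := by
  intro N
  set Nk := fun k => slNorm i fun z => wL i ω z * φ k z
  obtain ⟨hH, hA⟩ := d.lim_weight
  have hN : SqLim volume Nk N := hH.slNorm i
  have hgm : ∀ {F : Space → ℝ}, AEStronglyMeasurable F → AEStronglyMeasurable fun x => kG e (F x) :=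
    fun {F} hF => by
      have hc : Continuous (kG e) :=
        (continuous_pow 2).div (continuous_rootE e) fun t => (rootE_pos he t).ne'
      exact hc.comp_aestronglyMeasurable hF
  have habs : ∀ t, 0 ≤ t → |kG e t| ≤ t := fun t ht => by
    rw [abs_of_nonneg (kG_bounds he ht).1]; exact (kG_bounds he ht).2.1
  have hgN : MemLp (fun x => kG e (N x)) 2 :=
    hN.lim_mem.mono (hgm hN.lim_mem.1) (Eventually.of_forall fun x => by
      rw [Real.norm_eq_abs, Real.norm_eq_abs]
      exact (habs _ (slNorm_nonneg _ _ _)).trans (le_abs_self _))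
  have hg : SqLim volume (fun k x => kG e (Nk k x)) fun x => kG e (N x) :=
    hN.of_abs_sub_le (C := 2) (fun k => hgm (hN.mem k).1) hgN fun k =>
      Eventually.of_forall fun x => abs_kG_sub_le he (slNorm_nonneg _ _ _) (slNorm_nonneg _ _ _)
  have hma : Measurable (attract l) := by unfold attract; fun_prop
  have hAg : SqLim volume (fun k x => attract l x * kG e (Nk k x))
      fun x => attract l x * kG e (N x) := by
    refine hA.of_abs_sub_le (C := 2) (fun k => hma.aestronglyMeasurable.mul (hg.mem k).1)
      (hA.lim_mem.mono (hma.aestronglyMeasurable.mul hgN.1) (Eventually.of_forall fun x => ?_))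
      fun k => Eventually.of_forall fun x => ?_
    · rw [norm_mul, norm_mul]
      refine mul_le_mul_of_nonneg_left ?_ (norm_nonneg _)
      rw [Real.norm_eq_abs, Real.norm_eq_abs]
      exact (habs _ (slNorm_nonneg _ _ _)).trans (le_abs_self _)
    · have ha : 0 ≤ attract l x := by unfold attract; positivity
      rw [← mul_sub, ← mul_sub, abs_mul, abs_mul, mul_left_comm (2 : ℝ)]
      exact mul_le_mul_of_nonneg_left
        (abs_kG_sub_le he (slNorm_nonneg _ _ _) (slNorm_nonneg _ _ _)) (abs_nonneg _)
  obtain ⟨B, hB⟩ := hK.exists_bound_of_continuousOn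
    (((d.a_cont.mono hKU).sub continuousOn_const).sub continuousOn_const :
      ContinuousOn (fun x => a x - κ - E) K)
  set aK := K.indicator fun x => a x - κ - E
  have hB0 : ∀ x, |aK x| ≤ |B| := fun x => by
    by_cases hx : x ∈ K
    · simp only [aK, indicator_of_mem hx]; exact (hB x hx).trans (le_abs_self _)
    · simp [aK, indicator_of_notMem hx]
  have haK : AEStronglyMeasurable aK := (aestronglyMeasurable_indicator_iff hK.measurableSet).2
    ((((d.a_cont.mono hKU).sub continuousOn_const).sub
      continuousOn_const).aestronglyMeasurable hK.measurableSet)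
  have hP := ((hg.mul_bdd haK hB0).sub hAg)
  have hSi : MemLp (K.indicator S) 2 :=
    (memLp_indicator_iff_restrict hK.measurableSet).2 (d.S_mem K hK hKU)
  have hR : MemLp (fun x => K.indicator S x + b * |slIp i χ (fun z => wL i ω z * G z) x|) 2 :=
    hSi.add ((memLp_slIp d.χ_mem hH.lim_mem).abs.const_mul b)
  obtain ⟨err, herr, hk⟩ := d.kato_seq he hK hKU hc hsupp h0 hM hM'
  have eP : ∀ (f : Space → ℝ), (∀ x ∉ K, f x = 0) → ∀ g : Space → ℝ, ∀ x,
      f x * (aK x * g x - attract l x * g x) = f x * ((a x - κ - attract l x - E) * g x) :=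
    fun f hf g x => by
      by_cases hx : x ∈ K
      · simp only [aK, indicator_of_mem hx]; ring
      · simp [hf x hx]
  have eR : ∀ (f : Space → ℝ), (∀ x ∉ K, f x = 0) → ∀ x,
      f x * (K.indicator S x + b * |slIp i χ (fun z => wL i ω z * G z) x|) =
        f x * (S x + b * |slIp i χ (fun z => wL i ω z * G z) x|) := fun f hf x => by
      by_cases hx : x ∈ K
      · rw [indicator_of_mem hx]
      · simp [hf x hx]
  have t1 := hcl.integral_mul hP
  have t2 := hcl.integral_mul (SqLim.const hR)
  simp only [fun k x => eP (c k) (hsupp k) (fun x => kG e (Nk k x)) x,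
    fun x => eP cl hsupp' (fun x => kG e (N x)) x] at t1
  simp only [fun k x => eR (c k) (hsupp k) x, fun x => eR cl hsupp' x] at t2
  refine le_of_tendsto_of_tendsto' (hL₀.add t1) (by simpa using t2.add herr) fun k => ?_
  obtain ⟨i1, -, h⟩ := hk k
  have i2 : Integrable fun x => c k x * ((a x - κ - attract l x - E) * kG e (Nk k x)) :=
    ((hcl.mem k).integrable_mul (hP.mem k)).congr
      (Eventually.of_forall fun x => eP (c k) (hsupp k) (fun x => kG e (Nk k x)) x)
  have e1 : (fun x => (1 / 2) * ∑ q, deriv3 q (c k) x *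
      deriv3 q (uReg i e fun z => wL i ω z * φ k z) x +
      c k x * ((a x - κ - attract l x - E) *
        (slNorm i (fun z => wL i ω z * φ k z) x ^ 2 / uReg i e (fun z => wL i ω z * φ k z) x))) =
      fun x => (1 / 2) * ∑ q, deriv3 q (c k) x *
        deriv3 q (uReg i e fun z => wL i ω z * φ k z) x +
      c k x * ((a x - κ - attract l x - E) * kG e (Nk k x)) := rfl
  rw [e1] at i1 h
  have i3 : Integrable fun x => (1 / 2) * ∑ q, deriv3 q (c k) x *
      deriv3 q (uReg i e fun z => wL i ω z * φ k z) x := by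
    refine (i1.sub i2).congr (Eventually.of_forall fun x => ?_)
    simp only [Pi.sub_apply, add_sub_cancel_right]
  rw [integral_add i3 i2] at h
  linarith [hL k]

/-- The inequality in the limit of no regularisation of the norm. -/
theorem SliceData.limit_zero (d : SliceData i l lam E G DG R φ ω χ κ b U a S) {K : Set Space}
    (hK : IsCompact K) (hKU : K ⊆ U) {e : ℕ → ℝ} (he : ∀ n, 0 < e n)
    (he0 : Tendsto e atTop (𝓝 0)) {c : ℕ → Space → ℝ} {c₀ : Space → ℝ} {M : ℝ}
    (hcm : ∀ n, AEStronglyMeasurable (c n)) (hsupp : ∀ n, ∀ x ∉ K, c n x = 0)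
    (hM : ∀ n x, |c n x| ≤ M) (hlim : ∀ᵐ x : Space, Tendsto (fun n => c n x) atTop (𝓝 (c₀ x)))
    {L : ℕ → ℝ} {L₀ : ℝ} (hL₀ : Tendsto L atTop (𝓝 L₀))
    (hle : ∀ n, L n + ∫ x, c n x * ((a x - κ - attract l x - E) *
        kG (e n) (slNorm i (fun z => wL i ω z * G z) x)) ≤
      ∫ x, c n x * (S x + b * |slIp i χ (fun z => wL i ω z * G z) x|)) :
    L₀ + ∫ x, c₀ x * ((a x - κ - attract l x - E) * slNorm i (fun z => wL i ω z * G z) x) ≤
      ∫ x, c₀ x * (S x + b * |slIp i χ (fun z => wL i ω z * G z) x|) := by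
  set N := slNorm i fun z => wL i ω z * G z with hNdef
  set P := fun x => |slIp i χ (fun z => wL i ω z * G z) x|
  obtain ⟨hH, hA⟩ := d.lim_weight
  have hN : MemLp N 2 := memLp_slNorm i hH.lim_mem
  have h1K : MemLp (K.indicator fun _ : Space => M) 2 :=
    memLp_indicator_const 2 hK.measurableSet M (Or.inr hK.measure_lt_top.ne)
  have hM0 : 0 ≤ M := (abs_nonneg _).trans (hM 0 0)
  have hma : Measurable (attract l) := by unfold attract; fun_prop
  obtain ⟨B, hB⟩ := hK.exists_bound_of_continuousOn
    (((d.a_cont.mono hKU).sub continuousOn_const).sub continuousOn_const :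
      ContinuousOn (fun x => a x - κ - E) K)
  set dom1 := fun x => K.indicator (fun _ : Space => M) x * (|B| * N x + attract l x * N x)
  have hd1 : Integrable dom1 := h1K.integrable_mul ((hN.const_mul |B|).add hA.lim_mem)
  have hSi : MemLp (K.indicator S) 2 :=
    (memLp_indicator_iff_restrict hK.measurableSet).2 (d.S_mem K hK hKU)
  have hP : MemLp P 2 := (memLp_slIp d.χ_mem hH.lim_mem).abs
  set dom2 := fun x => K.indicator (fun _ : Space => M) x * |K.indicator S x + b * P x|
  have hd2 : Integrable dom2 := h1K.integrable_mul (hSi.add (hP.const_mul b)).abs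
  have haK : AEStronglyMeasurable (K.indicator fun x => a x - κ - E) :=
    (aestronglyMeasurable_indicator_iff hK.measurableSet).2
      ((((d.a_cont.mono hKU).sub continuousOn_const).sub
        continuousOn_const).aestronglyMeasurable hK.measurableSet)
  have t1 : Tendsto (fun n => ∫ x, c n x * ((a x - κ - attract l x - E) * kG (e n) (N x))) atTop
      (𝓝 (∫ x, c₀ x * ((a x - κ - attract l x - E) * N x))) := by
    refine tendsto_integral_of_dominated_convergence dom1 (fun n => ?_) hd1 (fun n => ?_) ?_
    · have hc : Continuous (kG (e n)) :=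
        (continuous_pow 2).div (continuous_rootE _) fun t => (rootE_pos (he n) t).ne'
      refine ((hcm n).mul ((haK.sub hma.aestronglyMeasurable).mul
        (hc.comp_aestronglyMeasurable hN.1))).congr (Eventually.of_forall fun x => ?_)
      by_cases hx : x ∈ K
      · simp only [Pi.mul_apply, Pi.sub_apply, indicator_of_mem hx]; ring
      · simp [hsupp n x hx]
    · refine Eventually.of_forall fun x => ?_
      by_cases hx : x ∈ K
      · obtain ⟨g0, g1, -⟩ := kG_bounds (he n) (slNorm_nonneg i (fun z => wL i ω z * G z) x)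
        have ha : 0 ≤ attract l x := by unfold attract; positivity
        rw [Real.norm_eq_abs, abs_mul, abs_mul, abs_of_nonneg g0]
        simp only [dom1, indicator_of_mem hx, hNdef, ← add_mul]
        refine mul_le_mul (hM n x) (mul_le_mul ?_ g1 g0 (by positivity)) (by positivity) hM0
        calc |a x - κ - attract l x - E| = |(a x - κ - E) - attract l x| := by ring_nf
          _ ≤ |a x - κ - E| + |attract l x| := abs_sub _ _
          _ ≤ |B| + attract l x :=
              add_le_add ((hB x hx).trans (le_abs_self _)) (abs_of_nonneg ha).le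
      · simp [dom1, hx, hsupp n x hx]
    · filter_upwards [hlim] with x hx
      refine hx.mul (Tendsto.const_mul _ ?_)
      have h0 : Tendsto (fun n => N x - e n) atTop (𝓝 (N x)) := by
        simpa using tendsto_const_nhds.sub he0
      exact tendsto_of_tendsto_of_tendsto_of_le_of_le h0 tendsto_const_nhds
        (fun n => (kG_bounds (he n) (slNorm_nonneg _ _ _)).2.2)
        (fun n => (kG_bounds (he n) (slNorm_nonneg _ _ _)).2.1)
  have t2 : Tendsto (fun n => ∫ x, c n x * (S x + b * P x)) atTop
      (𝓝 (∫ x, c₀ x * (S x + b * P x))) := by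
    refine tendsto_integral_of_dominated_convergence dom2 (fun n => ?_) hd2 (fun n => ?_) ?_
    · refine ((hcm n).mul (hSi.add (hP.const_mul b)).1).congr (Eventually.of_forall fun x => ?_)
      by_cases hx : x ∈ K
      · simp only [Pi.mul_apply, Pi.add_apply, indicator_of_mem hx]
      · simp [hsupp n x hx]
    · refine Eventually.of_forall fun x => ?_
      by_cases hx : x ∈ K
      · simp only [dom2, indicator_of_mem hx, Real.norm_eq_abs, abs_mul]
        exact mul_le_mul_of_nonneg_right (hM n x) (abs_nonneg _)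
      · simp [dom2, hx, hsupp n x hx]
    · filter_upwards [hlim] with x hx using hx.mul_const _
  exact le_of_tendsto_of_tendsto' (hL₀.add t1) t2 hle

theorem SliceData.locallyIntegrableOn_source (d : SliceData i l lam E G DG R φ ω χ κ b U a S) :
    LocMemLp 2 U fun x => 2 * ((a x - κ - attract l x - E) *
      slNorm i (fun z => wL i ω z * G z) x - S x - b * |slIp i χ (fun z => wL i ω z * G z) x|) := by
  obtain ⟨hH, hA⟩ := d.lim_weight
  intro K hK hKU
  have h1 := (LocMemLp.of_memLp (U := U) (memLp_slNorm i hH.lim_mem)).mul_continuousOn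
    (φ := fun x => a x - κ - E) ((d.a_cont.sub continuousOn_const).sub continuousOn_const) K hK hKU
  have h2 : MemLp (fun x => attract l x * slNorm i (fun z => wL i ω z * G z) x) 2
      (volume.restrict K) := hA.lim_mem.restrict _
  have h3 : MemLp (fun x => |slIp i χ (fun z => wL i ω z * G z) x|) 2 (volume.restrict K) :=
    ((memLp_slIp d.χ_mem hH.lim_mem).abs).restrict _
  refine ((((h1.sub h2).sub (d.S_mem K hK hKU)).sub (h3.const_mul b)).const_mul 2).ae_eq
    (Eventually.of_forall fun x => ?_)
  simp only [Pi.sub_apply]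
  ring

/-- The weak differential inequality of the norm of the weighted slices. -/
theorem SliceData.subsol (d : SliceData i l lam E G DG R φ ω χ κ b U a S) :
    WeakSubPoisson U (slNorm i fun z => wL i ω z * G z) fun x =>
      2 * ((a x - κ - attract l x - E) * slNorm i (fun z => wL i ω z * G z) x - S x -
        b * |slIp i χ (fun z => wL i ω z * G z) x|) := by
  obtain ⟨hH, -⟩ := d.lim_weight
  set N := slNorm i fun z => wL i ω z * G z
  have hN := hH.slNorm i
  refine ⟨(hN.lim_mem.locallyIntegrable one_le_two).locallyIntegrableOn _,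
    d.locallyIntegrableOn_source.locallyIntegrableOn one_le_two d.open_U, fun η hη hη0 => ?_⟩
  have hη1 : ContDiff ℝ 1 η := hη.smooth.of_le (by simp)
  set K := tsupport η
  have hsup : ∀ x ∉ K, η x = 0 := fun x hx => image_eq_zero_of_notMem_tsupport hx
  obtain ⟨M₀, hM₀⟩ := hη.compact.exists_bound_of_continuous hη.continuous
  set M := max M₀ (∑ q, ∫ x, deriv3 q η x ^ 2)
  have hM : ∀ x, η x ≤ M := fun x =>
    (le_abs_self _).trans ((hM₀ x).trans (le_max_left _ _))
  have hMq : ∀ q, ∫ x, deriv3 q η x ^ 2 ≤ M := fun q =>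
    (Finset.single_le_sum (f := fun q => ∫ x, deriv3 q η x ^ 2)
      (fun q _ => integral_nonneg fun x => sq_nonneg _) (Finset.mem_univ q)).trans (le_max_right _ _)
  have hηm : MemLp η 2 := hη.continuous.memLp_of_hasCompactSupport hη.compact
  have hlm : MemLp (lap η) 2 := hη.lap.continuous.memLp_of_hasCompactSupport hη.lap.compact
  set es : ℕ → ℝ := fun n => 1 / ((n : ℝ) + 1)
  have hes : ∀ n, 0 < es n := fun n => by positivity
  set J : ℕ → ℝ := fun n => -(1 / 2) *
    ((∫ x, (rootE (es n) (N x) - es n) * lap η x) + es n * ∫ x, lap η x)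
  have hstep : ∀ n, J n + ∫ x, η x * ((a x - κ - attract l x - E) * kG (es n) (N x)) ≤
      ∫ x, η x * (S x + b * |slIp i χ (fun z => wL i ω z * G z) x|) := by
    intro n
    set e := es n
    have he := hes n
    have hu : SqLim volume (fun k x => rootE e (slNorm i (fun z => wL i ω z * φ k z) x) - e)
        fun x => rootE e (N x) - e := by
      refine hN.of_abs_sub_le (C := 1) (fun k => ?_) ?_ fun k => Eventually.of_forall fun x => ?_
      · exact ((continuous_rootE e).sub continuous_const).comp_aestronglyMeasurable (hN.mem k).1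
      · refine hN.lim_mem.mono
          (((continuous_rootE e).sub continuous_const).comp_aestronglyMeasurable hN.lim_mem.1)
          (Eventually.of_forall fun x => ?_)
        obtain ⟨l1, -, l3⟩ := rootE_bounds he (slNorm_nonneg i (fun z => wL i ω z * G z) x)
        rw [Real.norm_eq_abs, Real.norm_eq_abs, abs_of_nonneg (sub_nonneg.2 l1),
          abs_of_nonneg (slNorm_nonneg _ _ _)]
        linarith
      · rw [one_mul, sub_sub_sub_cancel_right]
        exact abs_rootE_sub_le he _ _
    refine d.limit_ineq he hη.compact hη.supp (fun _ => hη1) (fun _ => hsup) hsup (fun _ => hη0)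
      (fun _ => hM) (fun _ => hMq) (SqLim.const hηm)
      (L := fun k => -(1 / 2) *
        ((∫ x, (rootE e (slNorm i (fun z => wL i ω z * φ k z) x) - e) * lap η x) +
          e * ∫ x, lap η x)) (fun k => le_of_eq ?_)
      (((hu.integral_mul (SqLim.const hlm)).add_const _).const_mul _)
    have hu1 : ContDiff ℝ 1 (uReg i e fun z => wL i ω z * φ k z) :=
      (hasFDerivAt_uReg ((d.approx.c1 k).mul_left (contDiff_wL i d.mult.smooth)) he).1
    set u := uReg i e fun z => wL i ω z * φ k z
    have hw := HasWeakGrad.of_contDiffOn isOpen_univ hu1.contDiffOn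
    have e1 : ∀ q, ∫ x, deriv3 q η x * deriv3 q u x = -∫ x, u x * deriv3 q (deriv3 q η) x :=
      fun q => by
        rw [hw.2.2 _ ((hη.univ).deriv q) q, neg_neg]
        congr 1; funext x; ring
    have i1 : ∀ q, Integrable fun x => deriv3 q η x * deriv3 q u x := fun q =>
      ((hη.deriv q).continuous.mul (continuous_deriv3 hu1 q)).integrable_of_hasCompactSupport
        (hη.deriv q).compact.mul_right
    have i2 : ∀ q, Integrable fun x => u x * deriv3 q (deriv3 q η) x := fun q =>
      (hu1.continuous.mul ((hη.deriv q).deriv q).continuous).integrable_of_hasCompactSupport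
        ((hη.deriv q).deriv q).compact.mul_left
    have i3 : Integrable (lap η) :=
      hη.lap.continuous.integrable_of_hasCompactSupport hη.lap.compact
    have i4 : Integrable fun x => (u x - e) * lap η x :=
      ((hu1.continuous.sub continuous_const).mul hη.lap.continuous).integrable_of_hasCompactSupport
        hη.lap.compact.mul_left
    rw [show (fun x => (rootE e (slNorm i (fun z => wL i ω z * φ k z) x) - e) * lap η x) =
      fun x => (u x - e) * lap η x from rfl]
    rw [integral_const_mul, integral_finsetSum _ fun q _ => i1 q]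
    simp only [e1, Finset.sum_neg_distrib]
    rw [← integral_finsetSum _ fun q _ => i2 q, ← integral_const_mul, ← integral_add i4
      (i3.const_mul e), show (fun x => ∑ q, u x * deriv3 q (deriv3 q η) x) =
        fun x => u x * lap η x from funext fun x => (Finset.mul_sum _ _ _).symm,
      neg_mul, mul_neg]
    congr 2
    refine integral_congr_ae (Eventually.of_forall fun x => ?_)
    simp only [u, uReg, rootE]
    ring
  have hJ : Tendsto J atTop (𝓝 (-(1 / 2) * ((∫ x, N x * lap η x) + 0 * ∫ x, lap η x))) := by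
    have hes0 : Tendsto es atTop (𝓝 0) := tendsto_one_div_add_atTop_nhds_zero_nat
    refine ((Tendsto.add ?_ (hes0.mul_const _))).const_mul _
    refine tendsto_integral_of_dominated_convergence (fun x => N x * |lap η x|) (fun n => ?_)
      (hN.lim_mem.integrable_mul hlm.abs) (fun n => Eventually.of_forall fun x => ?_)
      (Eventually.of_forall fun x => ?_)
    · exact (((continuous_rootE _).sub continuous_const).comp_aestronglyMeasurable hN.lim_mem.1).mul
        hlm.1
    · obtain ⟨l1, -, l3⟩ := rootE_bounds (hes n) (slNorm_nonneg i (fun z => wL i ω z * G z) x)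
      rw [norm_mul, Real.norm_eq_abs, Real.norm_eq_abs, abs_of_nonneg (sub_nonneg.2 l1)]
      exact mul_le_mul_of_nonneg_right (by linarith) (abs_nonneg _)
    · refine Tendsto.mul_const _ ?_
      have hc : Continuous fun e : ℝ => rootE e (N x) - e := by unfold rootE; fun_prop
      simpa [Function.comp_def, rootE, Real.sqrt_sq (slNorm_nonneg i (fun z => wL i ω z * G z) x), N]
        using (hc.tendsto 0).comp hes0
  have key := d.limit_zero hη.compact hη.supp hes tendsto_one_div_add_atTop_nhds_zero_nat
    (fun _ => hη.continuous.aestronglyMeasurable) (fun _ => hsup)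
    (fun _ x => (hM₀ x).trans (le_max_left M₀ (∑ q, ∫ x, deriv3 q η x ^ 2)))
    (Eventually.of_forall fun x => tendsto_const_nhds) hJ hstep
  rw [zero_mul, add_zero] at key
  have i5 : Integrable fun x => η x * ((a x - κ - attract l x - E) * N x) := by
    obtain ⟨-, hA⟩ := d.lim_weight
    have h1 : LocMemLp 2 U fun x => (a x - κ - E) * N x :=
      (LocMemLp.of_memLp hN.lim_mem).mul_continuousOn
        ((d.a_cont.sub continuousOn_const).sub continuousOn_const)
    refine (integrable_mul_of_tsupport ((h1.locallyIntegrableOn one_le_two d.open_U).sub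
      ((hA.lim_mem.locallyIntegrable one_le_two).locallyIntegrableOn _)) hη.continuous hη.compact
        hη.supp).congr (Eventually.of_forall fun x => ?_)
    simp only [Pi.sub_apply, N]
    ring
  have i6 : Integrable fun x => η x * (S x + b * |slIp i χ (fun z => wL i ω z * G z) x|) := by
    have h2 : LocMemLp 2 U fun x => S x + b * |slIp i χ (fun z => wL i ω z * G z) x| :=
      d.S_mem.add ((LocMemLp.of_memLp (memLp_slIp d.χ_mem hH.lim_mem).abs).const_mul b)
    refine (integrable_mul_of_tsupport (h2.locallyIntegrableOn one_le_two d.open_U) hη.continuous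
      hη.compact hη.supp).congr (Eventually.of_forall fun x => ?_)
    ring
  have e2 : ∫ x, 2 * ((a x - κ - attract l x - E) * N x - S x -
      b * |slIp i χ (fun z => wL i ω z * G z) x|) * η x =
      2 * ((∫ x, η x * ((a x - κ - attract l x - E) * N x)) -
        ∫ x, η x * (S x + b * |slIp i χ (fun z => wL i ω z * G z) x|)) := by
    rw [← integral_sub i5 i6, ← integral_const_mul]
    congr 1; funext x; ring
  rw [e2]
  linarith

end Vale.Agent.P363.Inter
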