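import Vale.Agent.P363.Inter.Slice.L2

/-!
P363, interacting side: algebra of limits in mean square.
-/

noncomputable section

namespace Vale.Agent.P363.Inter

open MeasureTheory Filter
open scoped BigOperators Topology

variable {X Y : Type*} [MeasurableSpace X] [MeasurableSpace Y] {μ : Measure X} {ν : Measure Y}

/-- `f k` tends to `F` in mean square, all of them square integrable. -/
structure SqLim (μ : Measure X) (f : ℕ → X → ℝ) (F : X → ℝ) : Prop where
  mem : ∀ k, MemLp (f k) 2 μ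
  lim_mem : MemLp F 2 μ
  tendsto : Tendsto (fun k => ∫ x, (f k x - F x) ^ 2 ∂μ) atTop (𝓝 0)

namespace SqLim

variable {f g : ℕ → X → ℝ} {F G : X → ℝ}

theorem of_toLp (hf : ∀ k, MemLp (f k) 2 μ) (hF : MemLp F 2 μ)
    (h : Tendsto (fun k => (hf k).toLp (f k)) atTop (𝓝 (hF.toLp F))) : SqLim μ f F :=
  ⟨hf, hF, (One.tendsto_toLp_iff hf hF).2 h⟩

theorem toLp (h : SqLim μ f F) :
    Tendsto (fun k => (h.mem k).toLp (f k)) atTop (𝓝 (h.lim_mem.toLp F)) :=
  (One.tendsto_toLp_iff h.mem h.lim_mem).1 h.tendsto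

theorem congr (h : SqLim μ f F) (hg : ∀ k, f k =ᵐ[μ] g k) (hG : F =ᵐ[μ] G) : SqLim μ g G := by
  refine ⟨fun k => (h.mem k).ae_eq (hg k), h.lim_mem.ae_eq hG, ?_⟩
  refine h.tendsto.congr fun k => integral_congr_ae ?_
  filter_upwards [hg k, hG] with x h1 h2
  rw [h1, h2]

theorem const (hF : MemLp F 2 μ) : SqLim μ (fun _ => F) F :=
  ⟨fun _ => hF, hF, by simp⟩

theorem add (h : SqLim μ f F) (h' : SqLim μ g G) :
    SqLim μ (fun k x => f k x + g k x) fun x => F x + G x := by
  refine of_toLp (fun k => (h.mem k).add (h'.mem k)) (h.lim_mem.add h'.lim_mem) ?_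
  have := h.toLp.add h'.toLp
  simp only [← MemLp.toLp_add] at this
  exact this

theorem smul (h : SqLim μ f F) (t : ℝ) : SqLim μ (fun k x => t * f k x) fun x => t * F x := by
  refine ⟨fun k => (h.mem k).const_mul t, h.lim_mem.const_mul t, ?_⟩
  simp_rw [← mul_sub, mul_pow, integral_const_mul]
  simpa using h.tendsto.const_mul (t ^ 2)

theorem sub (h : SqLim μ f F) (h' : SqLim μ g G) :
    SqLim μ (fun k x => f k x - g k x) fun x => F x - G x := by
  refine of_toLp (fun k => (h.mem k).sub (h'.mem k)) (h.lim_mem.sub h'.lim_mem) ?_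
  have := h.toLp.sub h'.toLp
  simp only [← MemLp.toLp_sub] at this
  exact this

theorem sum {ι : Type*} (s : Finset ι) {f : ι → ℕ → X → ℝ} {F : ι → X → ℝ}
    (h : ∀ i ∈ s, SqLim μ (f i) (F i)) :
    SqLim μ (fun k x => ∑ i ∈ s, f i k x) fun x => ∑ i ∈ s, F i x := by
  classical
  induction s using Finset.induction with
  | empty => simpa using const (μ := μ) (MemLp.zero' (p := 2))
  | insert i s hi ih =>
    simp only [Finset.sum_insert hi]
    exact (h i (Finset.mem_insert_self i s)).add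
      (ih fun j hj => h j (Finset.mem_insert_of_mem hj))

theorem mul_bdd (h : SqLim μ f F) {w : X → ℝ} (hw : AEStronglyMeasurable w μ) {B : ℝ}
    (hB : ∀ x, |w x| ≤ B) : SqLim μ (fun k x => w x * f k x) fun x => w x * F x := by
  have hm : ∀ {g : X → ℝ}, MemLp g 2 μ → MemLp (fun x => w x * g x) 2 μ := fun {g} hg => by
    refine hg.of_le_mul (c := B) (hw.mul hg.1) (Eventually.of_forall fun x => ?_)
    rw [norm_mul, Real.norm_eq_abs]
    exact mul_le_mul_of_nonneg_right (hB x) (norm_nonneg _)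
  refine ⟨fun k => hm (h.mem k), hm h.lim_mem, ?_⟩
  refine squeeze_zero (fun k => integral_nonneg fun x => sq_nonneg _) (fun k => ?_)
    (by simpa using h.tendsto.const_mul (B ^ 2))
  rw [← integral_const_mul]
  refine integral_mono ((hm (h.mem k)).sub (hm h.lim_mem)).integrable_sq
    (((h.mem k).sub h.lim_mem).integrable_sq.const_mul _) fun x => ?_
  rw [← mul_sub, mul_pow]
  exact mul_le_mul_of_nonneg_right
    (by rw [← sq_abs]; exact pow_le_pow_left₀ (abs_nonneg _) (hB x) 2) (sq_nonneg _)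

theorem unique (h : SqLim μ f F) (h' : SqLim μ f G) : F =ᵐ[μ] G := by
  have := tendsto_nhds_unique h.toLp h'.toLp
  filter_upwards [h.lim_mem.coeFn_toLp, h'.lim_mem.coeFn_toLp] with x hx hy
  rw [← hx, ← hy, this]

theorem comp {ν : Measure Y} (h : SqLim μ f F) {T : Y → X} (hT : MeasurePreserving T ν μ)
    (he : MeasurableEmbedding T) :
    SqLim ν (fun k y => f k (T y)) fun y => F (T y) :=
  ⟨fun k => (h.mem k).comp_measurePreserving hT, h.lim_mem.comp_measurePreserving hT,
    h.tendsto.congr fun k => (hT.integral_comp he fun x => (f k x - F x) ^ 2).symm⟩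

theorem integral_mul (h : SqLim μ f F) (h' : SqLim μ g G) :
    Tendsto (fun k => ∫ x, f k x * g k x ∂μ) atTop (𝓝 (∫ x, F x * G x ∂μ)) :=
  tendsto_mul_integral h.mem h.lim_mem h'.mem h'.lim_mem h.tendsto h'.tendsto

theorem integral_sq (h : SqLim μ f F) :
    Tendsto (fun k => ∫ x, f k x ^ 2 ∂μ) atTop (𝓝 (∫ x, F x ^ 2 ∂μ)) :=
  One.tendsto_sq h.mem h.lim_mem h.tendsto

theorem subseq (h : SqLim μ f F) {ns : ℕ → ℕ} (hns : StrictMono ns) :
    SqLim μ (fun j => f (ns j)) F :=
  ⟨fun j => h.mem _, h.lim_mem, h.tendsto.comp hns.tendsto_atTop⟩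

theorem zero_mul (h : SqLim μ f fun _ => 0) {G : X → ℝ} (hG : MemLp G 2 μ) :
    Tendsto (fun k => ∫ x, f k x * G x ∂μ) atTop (𝓝 0) := by
  simpa using h.integral_mul (const hG)

end SqLim

end Vale.Agent.P363.Inter
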