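import Vale.Agent.P363.Inter.Slice.ParFar
import Vale.Agent.P363.Inter.Bar.AmpBasics

/-!
P363, interacting side: the parts of the excited slices of either parity under the mirror of the
ion: equation, source and the data of the slice inequality.
-/

noncomputable section

namespace Vale.Agent.P363.Inter

open MeasureTheory Filter Set
open scoped BigOperators Topology

/-- The mirror of the two electrons other than the first. -/
def parM : Cfg 3 ≃L[ℝ] Cfg 3 := mirL ![false, true, true]

theorem parM_ins (x : Space) (y : Cfg 2) :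
    parM ((0 : Fin 3).insertNth x y : Cfg 3) =
      ((0 : Fin 3).insertNth x (fun k => mirror (y k)) : Cfg 3) := by
  funext j
  rcases Fin.eq_self_or_eq_succAbove (0 : Fin 3) j with rfl | ⟨k, rfl⟩
  · simp [parM, mirL_apply]
  · rw [parM, mirL_apply, Fin.insertNth_apply_succAbove, Fin.insertNth_apply_succAbove]
    fin_cases k <;> simp

theorem parM_parM (z : Cfg 3) : parM (parM z) = z := by
  funext j
  fin_cases j <;> simp [parM, mirL_apply, One.mirror_mirror]

theorem measurePreserving_parM : MeasurePreserving (parM : Cfg 3 → Cfg 3) volume volume :=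
  measurePreserving_mirL _

theorem embedding_parM : MeasurableEmbedding (parM : Cfg 3 → Cfg 3) :=
  parM.toHomeomorph.measurableEmbedding

/-- The mirror of the ion. -/
theorem measurePreserving_mirror2 :
    MeasurePreserving (fun y : Cfg 2 => fun k => mirror (y k)) volume volume ∧
      MeasurableEmbedding (fun y : Cfg 2 => fun k => mirror (y k)) := by
  have e : (mirL (fun _ : Fin 2 => true) : Cfg 2 → Cfg 2) = fun y k => mirror (y k) :=
    funext fun y => funext fun k => by simp [mirL_apply]
  exact ⟨e ▸ measurePreserving_mirL (fun _ => true),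
    e ▸ (mirL fun _ : Fin 2 => true).toHomeomorph.measurableEmbedding⟩

theorem attract_mirror (l : ℝ) (x : Space) : attract l (mirror x) = attract l x := by
  have h1 := One.norm_mirror_sub_centre l x
  have h2 := One.norm_mirror_sub_centre l (mirror x)
  rw [One.mirror_mirror] at h2
  simp only [attract, nuc, h1, ← h2]
  ring

theorem molPot_parM (l lam : ℝ) (z : Cfg 3) :
    molPot l lam z - molPot l lam (parM z) = lam * (repelN 0 z - repelN 0 (parM z)) := by
  obtain ⟨x, y, rfl⟩ : ∃ x y, z = ((0 : Fin 3).insertNth x y : Cfg 3) :=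
    ⟨z 0, Fin.removeNth 0 z, (Fin.insertNth_self_removeNth 0 z).symm⟩
  rw [parM_ins, molPot_ins, molPot_ins]
  have e : molPot l lam (fun k => mirror (y k)) = molPot l lam y := by
    simp only [molPot, attract_mirror, One.norm_mirror_sub]
  rw [e]
  ring

/-- The part of parity `σ` in the other two electrons. -/
def parF (σ : ℝ) (g : Cfg 3 → ℝ) (z : Cfg 3) : ℝ := (g z + σ * g (parM z)) / 2

/-- Its gradient. -/
def parD (σ : ℝ) (G : Fin 3 → Fin 3 → Cfg 3 → ℝ) (i a : Fin 3) (z : Cfg 3) : ℝ :=
  (1 / 2) * (G i a z + σ * (mirSign (![false, true, true] i) a * G i a (parM z)))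

/-- Its right hand side. -/
def parR (σ lam : ℝ) (R g : Cfg 3 → ℝ) (z : Cfg 3) : ℝ :=
  (R z + σ * (R (parM z) + lam * (repelN 0 z - repelN 0 (parM z)) * g (parM z))) / 2

theorem parF_ins (σ : ℝ) (g : Cfg 3 → ℝ) (x : Space) (y : Cfg 2) :
    parF σ g ((0 : Fin 3).insertNth x y) =
      parPart σ (fun y => g ((0 : Fin 3).insertNth x y)) y := by
  simp only [parF, parM_ins, parPart]

theorem uPar_eq_slNorm (σ : ℝ) (χ : Cfg 2 → ℝ) (f : Cfg 3 → ℝ) :
    uPar σ χ f = slNorm 0 (parF σ (perpF 0 χ f)) := by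
  funext x
  simp only [uPar, nrmN_eq_sqrt, slNorm, parF_ins, perpF_ins_zero]

variable {σ l lam E : ℝ} {g R : Cfg 3 → ℝ} {G : Fin 3 → Fin 3 → Cfg 3 → ℝ}

theorem inH1_parF (hg : InH1 g G) (σ : ℝ) : InH1 (parF σ g) (parD σ G) := by
  obtain ⟨φ, hφ⟩ := hg
  have h := ((hφ.add ((hφ.comp_mirL ![false, true, true]).smul σ)).smul (1 / 2)).inH1
  have e1 : parF σ g = fun z => (1 / 2) * (g z + σ * g (mirL ![false, true, true] z)) :=
    funext fun z => by simp only [parF, parM]; ring
  rw [e1]
  exact h

theorem memLp_parR (hg : InH1 g G) (hR : MemLp R 2) (σ lam : ℝ) : MemLp (parR σ lam R g) 2 := by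
  obtain ⟨φ, hφ⟩ := hg
  have h1 := (hφ.comp_mirL ![false, true, true]).inH1.memLp_repelN 0
  have h2 : MemLp (fun z => repelN 0 (parM z) * g (parM z)) 2 :=
    (hφ.inH1.memLp_repelN 0).comp_measurePreserving measurePreserving_parM
  have h3 : MemLp (fun z => R (parM z)) 2 := hR.comp_measurePreserving measurePreserving_parM
  refine ((hR.add ((h3.add ((h1.sub h2).const_mul lam)).const_mul σ)).const_mul (1 / 2)).ae_eq
    (Eventually.of_forall fun z => ?_)
  simp only [parR, parM, Pi.add_apply, Pi.sub_apply]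
  ring

/-- The parts of either parity solve, with the difference of the repulsion as a new source. -/
theorem solves_parF (hg : InH1 g G) (hR : MemLp R 2) (hs : Solves l lam E g G R) (σ : ℝ) :
    Solves l lam E (parF σ g) (parD σ G) (parR σ lam R g) := by
  intro h H hh
  obtain ⟨φ, hφ⟩ := hg
  obtain ⟨ψ, hψ⟩ := hh
  set s : Fin 3 → Bool := ![false, true, true]
  have hgM := (hφ.comp_mirL s).inH1
  have hhM := (hψ.comp_mirL s).inH1
  have e1 := hs _ _ hhM
  have e2 := hs _ _ hψ.inH1
  have hT := measurePreserving_parM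
  have hTe := embedding_parM
  set D' : Fin 3 → Fin 3 → Cfg 3 → ℝ := fun i a z => mirSign (s i) a * G i a (mirL s z)
  set H' : Fin 3 → Fin 3 → Cfg 3 → ℝ := fun i a z => mirSign (s i) a * H i a (mirL s z)
  have i1 := integrable_bform hgM hψ.inH1 l lam E
  have i2 : Integrable fun z => lam * (repelN 0 z - repelN 0 (parM z)) * g (parM z) * h z := by
    have a1 : MemLp (fun z => repelN 0 z * g (parM z)) 2 := hgM.memLp_repelN 0
    have a2 : MemLp (fun z => repelN 0 (parM z) * g (parM z)) 2 :=
      (hφ.inH1.memLp_repelN 0).comp_measurePreserving hT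
    refine ((((a1.sub a2).const_mul lam)).integrable_mul hψ.inH1.memLp).congr
      (Eventually.of_forall fun z => ?_)
    simp only [Pi.sub_apply, Pi.mul_apply]
    ring
  have i3 : Integrable fun z => R (parM z) * h z :=
    (hR.comp_measurePreserving hT).integrable_mul hψ.inH1.memLp
  have i4 : Integrable fun z => R z * h z := hR.integrable_mul hψ.inH1.memLp
  have eM : bform l lam E (fun z => g (mirL s z)) D' h H =
      (∫ z, R (parM z) * h z) +
        ∫ z, lam * (repelN 0 z - repelN 0 (parM z)) * g (parM z) * h z := by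
    have e3 : (∫ z, R (parM z) * h z) = ∫ z, R z * h (mirL s z) := by
      rw [← hT.integral_comp hTe (fun z => R z * h (mirL s z))]
      exact integral_congr_ae (Eventually.of_forall fun z => by
        simp only [show mirL s (parM z) = z from parM_parM z])
    have i5 : Integrable fun z => (1 / 2 : ℝ) * ∑ i, ∑ a, G i a (parM z) * H' i a (parM z) +
        (molPot l lam (parM z) - E) * g (parM z) * h (mirL s (parM z)) :=
      (hT.integrable_comp_emb hTe).2 (integrable_bform hφ.inH1 hhM l lam E)
    rw [e3, ← e1, bform, bform, ← hT.integral_comp hTe fun z => (1 / 2 : ℝ) * ∑ i, ∑ a,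
      G i a z * H' i a z + (molPot l lam z - E) * g z * h (mirL s z), ← integral_add i5 i2]
    refine integral_congr_ae (Eventually.of_forall fun z => ?_)
    simp only [H', show mirL s (parM z) = z from parM_parM z,
      show mirL s z = parM z from rfl, ← molPot_parM l lam z, D']
    have es : ∀ i a, G i a (parM z) * (mirSign (s i) a * H i a z) =
        mirSign (s i) a * G i a (parM z) * H i a z := fun i a => by ring
    simp only [es]
    ring
  have hbase : bform l lam E (parF σ g) (parD σ G) h H =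
      (1 / 2) * (bform l lam E g G h H + σ * bform l lam E (fun z => g (mirL s z)) D' h H) := by
    simp only [bform]
    rw [← integral_const_mul σ, ← integral_add (integrable_bform hφ.inH1 hψ.inH1 l lam E)
      (i1.const_mul σ), ← integral_const_mul (1 / 2 : ℝ)]
    refine integral_congr_ae (Eventually.of_forall fun z => ?_)
    have es : ∑ i, ∑ a, parD σ G i a z * H i a z = (1 / 2) *
        ((∑ i, ∑ a, G i a z * H i a z) + σ * ∑ i, ∑ a, D' i a z * H i a z) := by
      rw [Finset.mul_sum, ← Finset.sum_add_distrib, Finset.mul_sum]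
      refine Finset.sum_congr rfl fun i _ => ?_
      rw [Finset.mul_sum, ← Finset.sum_add_distrib, Finset.mul_sum]
      refine Finset.sum_congr rfl fun a _ => ?_
      simp only [parD, D', parM, s]
      ring
    dsimp only
    rw [es]
    simp only [parF, show mirL s z = parM z from rfl]
    ring
  rw [hbase, e2, eM, ← integral_add i3 i2, ← integral_const_mul σ,
    ← integral_add i4 ((i3.fun_add i2).const_mul σ), ← integral_const_mul]
  refine integral_congr_ae (Eventually.of_forall fun z => ?_)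
  simp only [parR]
  ring

/-- The projection onto a parity is self-adjoint. -/
theorem integral_parPart {F H : Cfg 2 → ℝ} (hF : MemLp F 2) (hH : MemLp H 2) (σ : ℝ) :
    ∫ y, parPart σ F y * H y = ∫ y, F y * parPart σ H y := by
  obtain ⟨hT, hTe⟩ := measurePreserving_mirror2
  have i0 : Integrable fun y => F y * H y := hF.integrable_mul hH
  have i1 : Integrable fun y => F (fun k => mirror (y k)) * H y :=
    (hF.comp_measurePreserving hT).integrable_mul hH
  have i2 : Integrable fun y => F y * H (fun k => mirror (y k)) :=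
    hF.integrable_mul (hH.comp_measurePreserving hT)
  have e : ∫ y, F (fun k => mirror (y k)) * H y = ∫ y, F y * H (fun k => mirror (y k)) := by
    rw [← hT.integral_comp hTe fun y => F y * H (fun k => mirror (y k))]
    simp only [One.mirror_mirror]
  have a1 : ∫ y, parPart σ F y * H y =
      1 / 2 * (∫ y, F y * H y) + σ / 2 * ∫ y, F (fun k => mirror (y k)) * H y := by
    rw [← integral_const_mul, ← integral_const_mul,
      ← integral_add (i0.const_mul _) (i1.const_mul _)]
    exact integral_congr_ae (Eventually.of_forall fun y => by simp only [parPart]; ring)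
  have a2 : ∫ y, F y * parPart σ H y =
      1 / 2 * (∫ y, F y * H y) + σ / 2 * ∫ y, F y * H (fun k => mirror (y k)) := by
    rw [← integral_const_mul, ← integral_const_mul,
      ← integral_add (i0.const_mul _) (i2.const_mul _)]
    exact integral_congr_ae (Eventually.of_forall fun y => by simp only [parPart]; ring)
  rw [a1, a2, e]

theorem memLp_parPart {F : Cfg 2 → ℝ} (hF : MemLp F 2) (σ : ℝ) : MemLp (parPart σ F) 2 := by
  refine ((hF.add ((hF.comp_measurePreserving measurePreserving_mirror2.1).const_mul σ)).const_mul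
    (1 / 2)).ae_eq (Eventually.of_forall fun y => ?_)
  simp only [parPart, Pi.add_apply, Function.comp_apply]
  ring

theorem parPart_parPart (hσ : σ ^ 2 = 1) (F : Cfg 2 → ℝ) (y : Cfg 2) :
    parPart σ (parPart σ F) y = parPart σ F y := by
  simp only [parPart, One.mirror_mirror]
  linear_combination (F y / 4) * hσ

theorem integral_even_parPart {χ F : Cfg 2 → ℝ} (hχ : MemLp χ 2) (hF : MemLp F 2)
    (heven : ∀ᵐ y, χ (fun k => mirror (y k)) = χ y) (h0 : ∫ y, χ y * F y = 0) (σ : ℝ) :
    ∫ y, χ y * parPart σ F y = 0 := by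
  rw [← integral_parPart hχ hF]
  have e : ∫ y, parPart σ χ y * F y = ∫ y, (1 + σ) / 2 * (χ y * F y) := by
    refine integral_congr_ae ?_
    filter_upwards [heven] with y hy
    rw [parPart, hy]; ring
  rw [e, integral_const_mul, h0, mul_zero]

variable {f : Cfg 3 → ℝ} {χ : Cfg 2 → ℝ}

/-- The source of a part of given parity, paired with it, in one slice. -/
theorem par_pair_le (hσ : σ ^ 2 = 1) (hlam : 0 ≤ lam) (hχ : MemLp χ 2)
    (heven : ∀ᵐ y, χ (fun k => mirror (y k)) = χ y) {x : Space}
    (hq : MemLp (fun y => repel x y * χ y) 2) (hP : MemLp (perp χ f x) 2)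
    (horth : ∫ y, χ y * perp χ f x y = 0)
    (hd : MemLp (fun y => (repel (mirror x) y - repel x y) * perp χ f x y) 2) {X Y : ℝ}
    (hX : |∫ y, repel x y * χ y * parPart σ (perp χ f x) y| ≤
      X * √(∫ y, parPart σ (perp χ f x) y ^ 2))
    (hY : √(∫ y, ((repel (mirror x) y - repel x y) * perp χ f x y) ^ 2) ≤ Y) :
    |∫ y, parR σ lam (perpR 0 lam χ f) (perpF 0 χ f) ((0 : Fin 3).insertNth x y) *
        parF σ (perpF 0 χ f) ((0 : Fin 3).insertNth x y)| ≤
      lam * (X * |amp χ f x| + Y) *
        slNorm 0 (parF σ (perpF 0 χ f)) x := by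
  obtain ⟨hT, hTe⟩ := measurePreserving_mirror2
  set P := perp χ f x with hPdef
  set G := parPart σ P with hGdef
  have hG : MemLp G 2 := memLp_parPart hP σ
  set r := ipN (fun y => repel x y * χ y) (slice 0 f x)
  set A := amp χ f x
  set Rx : Cfg 2 → ℝ := fun y => lam * (r * χ y - A * (repel x y * χ y)) with hRx
  have hRm : MemLp Rx 2 := ((hχ.const_mul r).sub (hq.const_mul A)).const_mul lam
  set Δ : Cfg 2 → ℝ := fun y => (repel (mirror x) y - repel x y) * P y
  have hΔ : MemLp (fun y : Cfg 2 => Δ fun k => mirror (y k)) 2 := hd.comp_measurePreserving hT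
  have e1 : ∀ y, parR σ lam (perpR 0 lam χ f) (perpF 0 χ f) ((0 : Fin 3).insertNth x y) =
      parPart σ Rx y + σ * lam / 2 * Δ (fun k => mirror (y k)) := fun y => by
    simp only [parR, parM_ins, perpR, tenF_ins, repelN_ins, rAmp_eq, perpF_ins_zero, parPart,
      hRx, Δ, repel_mirror, One.mirror_mirror, ← hPdef]
    rw [show slIp 0 χ f x = A from rfl]
    ring
  have e2 : ∀ y, parF σ (perpF 0 χ f) ((0 : Fin 3).insertNth x y) = G y := fun y => by
    simp only [parF_ins, perpF_ins_zero, hGdef, hPdef]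
  have eN : slNorm 0 (parF σ (perpF 0 χ f)) x = √(∫ y, G y ^ 2) := by
    simp only [slNorm, e2]
  have i1 : Integrable fun y => parPart σ Rx y * G y := (memLp_parPart hRm σ).integrable_mul hG
  have i2 : Integrable fun y => σ * lam / 2 * (Δ (fun k => mirror (y k)) * G y) :=
    (hΔ.integrable_mul hG).const_mul _
  have e3 : ∫ y, parPart σ Rx y * G y = -(lam * A) * ∫ y, repel x y * χ y * G y := by
    rw [integral_parPart hRm hG]
    simp only [hGdef, parPart_parPart hσ]
    have a1 : Integrable fun y => χ y * G y := hχ.integrable_mul hG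
    have a2 : Integrable fun y => repel x y * χ y * G y := hq.integrable_mul hG
    have a3 : ∫ y, Rx y * G y =
        lam * r * (∫ y, χ y * G y) + -(lam * A) * ∫ y, repel x y * χ y * G y := by
      rw [← integral_const_mul, ← integral_const_mul,
        ← integral_add (a1.const_mul _) (a2.const_mul _)]
      exact integral_congr_ae (Eventually.of_forall fun y => by simp only [hRx]; ring)
    rw [a3, integral_even_parPart hχ hP heven horth, mul_zero, zero_add]
  simp only [e1, e2, add_mul, mul_assoc]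
  rw [integral_add i1 (by simpa only [mul_assoc] using i2), integral_const_mul, e3, eN]
  simp only [← mul_assoc]
  refine (abs_add_le _ _).trans ?_
  rw [mul_add]
  refine add_le_add ?_ ?_
  · rw [abs_mul, abs_neg, abs_mul, abs_of_nonneg hlam]
    calc lam * |A| * |∫ y, repel x y * χ y * G y| ≤ lam * |A| * (X * √(∫ y, G y ^ 2)) :=
          mul_le_mul_of_nonneg_left hX (by positivity)
      _ = _ := by ring
  · have hσ1 : |σ| = 1 := (sq_eq_one_iff.1 hσ).elim (fun h => by simp [h]) fun h => by simp [h]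
    rw [abs_mul, abs_div, abs_mul, hσ1, abs_of_nonneg hlam, abs_two, one_mul]
    have h3 : √(∫ y : Cfg 2, Δ (fun k => mirror (y k)) ^ 2) ≤ Y := by
      rw [hT.integral_comp hTe fun y => Δ y ^ 2]; exact hY
    have h4 := (abs_integral_mul_le hΔ hG).trans
      (mul_le_mul_of_nonneg_right h3 (Real.sqrt_nonneg _))
    have h5 : 0 ≤ Y * √(∫ y, G y ^ 2) := (abs_nonneg _).trans h4
    calc lam / 2 * |∫ y : Cfg 2, Δ (fun k => mirror (y k)) * G y|
        ≤ lam / 2 * (Y * √(∫ y, G y ^ 2)) := mul_le_mul_of_nonneg_left h4 (by positivity)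
      _ ≤ _ := by nlinarith [mul_nonneg hlam h5]

variable {C eg eu E3 E2 Es Et : ℝ} {gg uu : Space → ℝ} {Dg Du : Fin 3 → Space → ℝ}
  {D : Fin 3 → Fin 3 → Cfg 3 → ℝ} {Dχ : Fin 2 → Fin 3 → Cfg 2 → ℝ} {χs χt : Cfg 2 → ℝ}
  {Ds Dt : Fin 2 → Fin 3 → Cfg 2 → ℝ} {ε K K' c₀ : ℝ}

/-- The slice data of a part of given parity outside the unit ball. -/
theorem par_data (hσ : σ ^ 2 = 1) (hlam : 0 ≤ lam) (hε : 0 < ε) (hε1 : ε ≤ 1)
    (hM : MolState l lam C gg uu Dg Du eg eu E3 f D E2 χ Dχ Es χs Ds Et χt Dt)
    (hgap : eg ≤ eu) (hm : MolBound (2 * ε) K f D) (hb : IonBound ε K' χ Dχ) {X : Space → ℝ}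
    (hXc : ContinuousOn X {x : Space | 1 < ‖x‖}) (hX0 : ∀ x, 0 ≤ X x) (hc : 64 ≤ c₀)
    (hX : ∀ x : Space, 1 < ‖x‖ → ∀ P : Cfg 2 → ℝ, MemLp P 2 → ∫ y, χ y * P y = 0 →
      (∀ y, parPart σ P y = P y) →
        |∫ y, repel x y * χ y * P y| ≤ c₀ / ε * X x * √(∫ y, P y ^ 2))
    {U : Set Space} (hU : IsOpen U) (hU1 : U ⊆ {x : Space | 1 < ‖x‖})
    {φ : ℕ → Cfg 3 → ℝ} (hφ : Approx φ (parF σ (perpF 0 χ f)) (parD σ (perpD 0 χ Dχ f D))) :
    SliceData 0 l lam E3 (parF σ (perpF 0 χ f)) (parD σ (perpD 0 χ Dχ f D))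
      (parR σ lam (perpR 0 lam χ f) (perpF 0 χ f)) φ (fun _ => (1 : ℝ)) χ 0 ((eu - eg) / 2) U
      (fun _ => E2 + (eu - eg) / 2) (fun x => c₀ / ε * lam * (X x * |amp χ f x| +
        |height x| / ‖x‖ ^ 3 * uWeight ε 0 χ f x + farSource ε χ f D Dχ x)) := by
  have hf := hM.three.lowest.inH1
  have hχ := hM.ion.lowest.inH1
  have h1 : ∫ y, χ y ^ 2 = 1 := hM.ion.lowest.mass_one
  have hg := inH1_perpF hf hχ 0
  have hR := memLp_perpR hf hχ 0 lam
  obtain ⟨hmW, hmF⟩ := memLp_farSource hε.le hm hb
  have hmA : MemLp (amp χ f) 2 := by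
    rw [amp_eq_slIp]; exact memLp_slIp hχ.memLp hf.memLp
  have hc0 : 0 ≤ c₀ / ε * lam := mul_nonneg (div_nonneg (by linarith) hε.le) hlam
  have hz : ContinuousOn (fun x : Space => |height x| / ‖x‖ ^ 3) U := by
    refine ContinuousOn.div ?_ (by fun_prop) fun x hx => ?_
    · exact (((PiLp.continuous_apply 2 (fun _ : Fin 3 => ℝ) 2).abs)).continuousOn
    · have : (1 : ℝ) < ‖x‖ := hU1 hx
      positivity
  refine ⟨hU, hφ, solves_parF hg hR
      (solves_perpF hf hM.three.lowest.solves hχ hM.ion.lowest.solves 0) σ,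
    memLp_parR hg hR σ lam, isMult_one, fun y => by simp [gradMul, slotDeriv], hχ.memLp, h1.le,
    by linarith, continuousOn_const,
    ((((LocMemLp.of_memLp hmA.abs).mul_continuousOn (hXc.mono hU1)).add
      ((LocMemLp.of_memLp hmW).mul_continuousOn hz)).add (LocMemLp.of_memLp hmF)).const_mul _,
    fun x => mul_nonneg hc0 (add_nonneg (add_nonneg (mul_nonneg (hX0 x) (abs_nonneg _))
      (mul_nonneg (by positivity) (Real.sqrt_nonneg _))) (farSource_nonneg _ _ _ _ _ _)),
    fun k x _ => ?_, ?_⟩
  · simpa only [one_mul] using hM.ion_lower hlam ((hφ.c1 k).sliceY 0 x) x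
  have heven : ∀ᵐ y, χ (fun k => mirror (y k)) = χ y := by simpa using hM.ion.parity
  filter_upwards [memLp_slices 0 hg.memLp, slIp_perpF hf.memLp hχ.memLp h1 0,
    perp_mirror_diff_le hε hε1 hm hb] with x hx ho hd hxU
  have hx1 : 1 < ‖x‖ := hU1 hxU
  simp only [perpF_ins_zero] at hx
  simp only [slIp, perpF_ins_zero] at ho
  obtain ⟨hdm, hdn⟩ := hd hx1.le
  have hX' := hX x hx1 _ (memLp_parPart hx σ) (integral_even_parPart hχ.memLp hx heven ho σ)
    (parPart_parPart hσ _)
  simp only [one_pow, one_mul, wL]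
  refine (par_pair_le hσ hlam hχ.memLp heven (hχ.memLp_repel x) hx ho hdm hX' hdn).trans
    (mul_le_mul_of_nonneg_right ?_ (slNorm_nonneg _ _ _))
  have h2 : 0 ≤ |height x| / ‖x‖ ^ 3 * uWeight ε 0 χ f x + farSource ε χ f D Dχ x :=
    add_nonneg (mul_nonneg (by positivity) (Real.sqrt_nonneg _)) (farSource_nonneg _ _ _ _ _ _)
  have h3 := mul_le_mul_of_nonneg_right (div_le_div_of_nonneg_right hc hε.le) h2
  nlinarith [mul_le_mul_of_nonneg_left h3 hlam]

end Vale.Agent.P363.Inter
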