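import Vale.Agent.P363.Inter.Slice.Weight
import Vale.Agent.P363.Inter.Slice.States

/-!
P363, interacting side: the excited slices in the exact weight, and the difference of the
repulsion of a point and of its mirror image against them.
-/

noncomputable section

namespace Vale.Agent.P363.Inter

open MeasureTheory Filter Set
open scoped BigOperators Topology

variable {ε K K' : ℝ} {f : Cfg 3 → ℝ} {D : Fin 3 → Fin 3 → Cfg 3 → ℝ} {χ : Cfg 2 → ℝ}
  {Dχ : Fin 2 → Fin 3 → Cfg 2 → ℝ}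

theorem continuous_weight {ε δ : ℝ} (hδ : 0 ≤ δ) : Continuous (weight ε δ) := by
  rw [weight_eq_wexp]; exact (contDiff_wexp _ hδ).continuous

/-- A function of the molecule times the exact weight of the others. -/
theorem memLp_wL_weight {F : Cfg 3 → ℝ} (hF : MemLp F 2)
    (h : ∀ i, MemLp (fun z => wexp (Pi.single i (2 * ε)) 0 z * F z) 2) :
    MemLp (fun z => wL 0 (weight ε 0) z * F z) 2 := by
  have hc : Continuous (wL (0 : Fin 3) (weight ε 0)) := by
    rw [weight_eq_wexp]; exact (contDiff_wL 0 (contDiff_wexp _ le_rfl)).continuous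
  have hm : AEStronglyMeasurable fun z => wL 0 (weight ε 0) z * F z :=
    hc.aestronglyMeasurable.mul hF.1
  refine (memLp_two_iff_integrable_sq hm).2
    ((integrable_finsetSum Finset.univ fun i _ => (h i).integrable_sq).mono' (hm.pow 2)
      (Eventually.of_forall fun z => ?_))
  rw [Real.norm_eq_abs, abs_of_nonneg (sq_nonneg _)]
  simp only [mul_pow, ← Finset.sum_mul]
  refine mul_le_mul_of_nonneg_right ?_ (sq_nonneg _)
  refine (weight_sq_le ε (Fin.removeNth 0 z)).trans ?_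
  rw [Fin.sum_univ_succAbove (fun i => wexp (Pi.single i (2 * ε)) 0 z ^ 2) 0]
  refine le_trans (le_of_eq (Finset.sum_congr rfl fun k _ => ?_)) (le_add_of_nonneg_left (sq_nonneg _))
  simp only [wexp_single, Fin.removeNth]

/-- The exact weight against the excited part and its gradient in the ion variables. -/
theorem memLp_weight_perp (hm : MolBound (2 * ε) K f D) (hb : IonBound ε K' χ Dχ) :
    MemLp (fun z => wL 0 (weight ε 0) z * perpF 0 χ f z) 2 ∧
      ∀ k a, MemLp (fun z => wL 0 (weight ε 0) z *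
        perpD 0 χ Dχ f D ((0 : Fin 3).succAbove k) a z) 2 := by
  have hA : MemLp (slIp 0 χ f) 2 := memLp_slIp hb.inH1.memLp hm.inH1.memLp
  refine ⟨?_, fun k a => ?_⟩
  · refine ((memLp_wL_weight hm.inH1.memLp hm.mem).sub (memLp_tenF 0 hA hb.mem)).ae_eq
      (Eventually.of_forall fun z => ?_)
    simp only [perpF, tenF, wL, Pi.sub_apply]
    ring
  · refine ((memLp_wL_weight (hm.inH1.grad_memLp ((0 : Fin 3).succAbove k) a) fun i =>
      hm.grad_mem i _ a).sub
      (memLp_tenF 0 hA (hb.grad_mem k a))).ae_eq (Eventually.of_forall fun z => ?_)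
    simp only [perpD, tenD_other, tenF, wL, Pi.sub_apply]
    ring

theorem ionKin_eq (ε : ℝ) (χ : Cfg 2 → ℝ) (f : Cfg 3 → ℝ) (D : Fin 3 → Fin 3 → Cfg 3 → ℝ)
    (Dχ : Fin 2 → Fin 3 → Cfg 2 → ℝ) (x : Space) :
    ionKin ε 0 χ f D Dχ x = ∑ k, ∑ a, ∫ y : Cfg 2, (weight ε 0 y *
      perpD 0 χ Dχ f D ((0 : Fin 3).succAbove k) a (Fin.insertNth 0 x y)) ^ 2 := by
  simp only [ionKin, perpD, tenD_other, tenF_ins]
  rfl

theorem farSource_nonneg (ε : ℝ) (χ : Cfg 2 → ℝ) (f : Cfg 3 → ℝ)
    (D : Fin 3 → Fin 3 → Cfg 3 → ℝ) (Dχ : Fin 2 → Fin 3 → Cfg 2 → ℝ) (x : Space) :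
    0 ≤ farSource ε χ f D Dχ x :=
  mul_nonneg (Real.exp_pos _).le (add_nonneg (Real.sqrt_nonneg _) (Real.sqrt_nonneg _))

/-- The far source is square integrable. -/
theorem memLp_farSource (hε : 0 ≤ ε) (hm : MolBound (2 * ε) K f D) (hb : IonBound ε K' χ Dχ) :
    MemLp (uWeight ε 0 χ f) 2 ∧ MemLp (farSource ε χ f D Dχ) 2 := by
  obtain ⟨h1, h2⟩ := memLp_weight_perp hm hb
  have hu : MemLp (uWeight ε 0 χ f) 2 := by
    rw [uWeight_eq_slNorm]; exact memLp_slNorm 0 h1
  have hk : Integrable (ionKin ε 0 χ f D Dχ) := by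
    have e : ionKin ε 0 χ f D Dχ = fun x => ∑ k, ∑ a, ∫ y : Cfg 2, (weight ε 0 y *
        perpD 0 χ Dχ f D ((0 : Fin 3).succAbove k) a (Fin.insertNth 0 x y)) ^ 2 :=
      funext (ionKin_eq ε χ f D Dχ)
    rw [e]
    refine integrable_finsetSum _ fun k _ => integrable_finsetSum _ fun a _ => ?_
    simpa only [wL_ins] using (integrable_slices 0 (h2 k a).integrable_sq).2
  have hk0 : ∀ x, 0 ≤ ionKin ε 0 χ f D Dχ x := fun x => Finset.sum_nonneg fun k _ =>
    Finset.sum_nonneg fun a _ => integral_nonneg fun y => sq_nonneg _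
  have hs : MemLp (fun x => Real.sqrt (ionKin ε 0 χ f D Dχ x)) 2 :=
    (memLp_two_iff_integrable_sq (Real.continuous_sqrt.comp_aestronglyMeasurable hk.1)).2
      (hk.congr (Eventually.of_forall fun x => (Real.sq_sqrt (hk0 x)).symm))
  refine ⟨hu, (hu.add hs).of_le_mul (c := 1) ((Continuous.aestronglyMeasurable (by fun_prop)).mul
    (hu.add hs).1) (Eventually.of_forall fun x => ?_)⟩
  rw [farSource, norm_mul, one_mul]
  refine mul_le_of_le_one_left (norm_nonneg _) ?_
  rw [Real.norm_eq_abs, abs_of_pos (Real.exp_pos _), Real.exp_le_one_iff]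
  nlinarith [norm_nonneg x]

/-- The repulsion of the mirror image minus that of the point, on one slice. -/
theorem mirror_diff_le {P : Cfg 2 → ℝ} {DP : Fin 2 → Fin 3 → Cfg 2 → ℝ} (hε : 0 < ε)
    (hε1 : ε ≤ 1) (hP : InH1 P DP) (hw : MemLp (fun y => weight ε 0 y * P y) 2)
    (hg : ∀ k a, MemLp (fun y => weight ε 0 y * DP k a y) 2) {x : Space} (hx : 1 ≤ ‖x‖) :
    MemLp (fun y => (repel (mirror x) y - repel x y) * P y) 2 ∧
      √(∫ y, ((repel (mirror x) y - repel x y) * P y) ^ 2) ≤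
        64 / ε * (|height x| / ‖x‖ ^ 3 * √(∫ y, (weight ε 0 y * P y) ^ 2) +
          Real.exp (-(ε * ‖x‖ / 2)) * (√(∫ y, (weight ε 0 y * P y) ^ 2) +
            √(∑ k, ∑ a, ∫ y, (weight ε 0 y * DP k a y) ^ 2))) := by
  have hx0 : x ≠ 0 := by intro h0; rw [h0, norm_zero] at hx; linarith
  set N := ∫ y, (weight ε 0 y * P y) ^ 2
  set J := ∑ k, ∑ a, ∫ y, (weight ε 0 y * DP k a y) ^ 2
  have hN : 0 ≤ N := integral_nonneg fun y => sq_nonneg _
  have hJ0 : ∀ k, 0 ≤ ∑ a, ∫ y, (weight ε 0 y * DP k a y) ^ 2 := fun k =>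
    Finset.sum_nonneg fun a _ => integral_nonneg fun y => sq_nonneg _
  have hJ : 0 ≤ J := Finset.sum_nonneg fun k _ => hJ0 k
  set M := √N + √J
  have hM : N ≤ M ^ 2 ∧ J ≤ M ^ 2 := by
    constructor <;> simp only [M] <;>
      nlinarith [Real.sq_sqrt hN, Real.sq_sqrt hJ, Real.sqrt_nonneg N, Real.sqrt_nonneg J]
  have hB : IonBound ε (M ^ 2) P DP := ⟨hP, hw, hM.1, hg, fun k a =>
    ((Finset.single_le_sum (f := fun a => ∫ y, (weight ε 0 y * DP k a y) ^ 2)
      (fun a _ => integral_nonneg fun y => sq_nonneg _) (Finset.mem_univ a)).trans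
      (Finset.single_le_sum (f := fun k => ∑ a, ∫ y, (weight ε 0 y * DP k a y) ^ 2)
        (fun k _ => hJ0 k) (Finset.mem_univ k))).trans hM.2⟩
  have hH := fun p k => hB.hardy hε.le hε1 p k
  set c := 16 / ε * (|height x| / ‖x‖ ^ 3) with hc
  set e := Real.exp (-(ε * ‖x‖ / 2)) with he
  have hc0 : 0 ≤ c := by positivity
  have he0 : 0 < e := Real.exp_pos _
  set T := fun k y => c * |weight ε 0 y * P y| + e * |weight ε 0 y * (P y / ‖x - y k‖)| +
    e * |weight ε 0 y * (P y / ‖mirror x - y k‖)| with hT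
  have hd : ∀ k y, |(1 / ‖mirror x - y k‖ - 1 / ‖x - y k‖) * P y| ≤ T k y := by
    intro k y
    obtain ⟨ha, -, hb⟩ := norms_le_weight hε y k
    have hW : 0 < weight ε 0 y := weight_pos _ _ _
    simp only [hT, abs_mul, abs_of_pos hW, abs_div, abs_norm]
    rcases le_or_gt ‖y k‖ (‖x‖ / 2) with h | h
    · rw [abs_sub_comm]
      refine le_trans ?_ (le_add_of_le_of_nonneg (le_add_of_le_of_nonneg le_rfl (by positivity))
        (by positivity))
      rw [← mul_assoc c]
      refine mul_le_mul_of_nonneg_right ((inv_dist_mirror_le x _ hx0 h).trans ?_) (abs_nonneg _)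
      calc 16 * |height x| / ‖x‖ ^ 3 * ‖y k‖ ≤ 16 * |height x| / ‖x‖ ^ 3 * (weight ε 0 y / ε) :=
            mul_le_mul_of_nonneg_left ha (by positivity)
        _ = _ := by rw [hc]; ring
    · have h5 : 1 ≤ e * weight ε 0 y := by
        calc (1 : ℝ) = e * Real.exp (ε * (‖x‖ / 2)) := by
              rw [he, ← Real.exp_add]
              simp [show -(ε * ‖x‖ / 2) + ε * (‖x‖ / 2) = 0 by ring]
          _ ≤ _ := mul_le_mul_of_nonneg_left
              ((Real.exp_le_exp.2 (mul_le_mul_of_nonneg_left h.le hε.le)).trans hb) he0.le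
      have h6 : ∀ t : ℝ, 0 ≤ t → t ≤ e * (weight ε 0 y * t) := fun t ht => by
        rw [← mul_assoc]; exact le_mul_of_one_le_left ht h5
      refine (mul_le_mul_of_nonneg_right (abs_sub _ _) (abs_nonneg _)).trans ?_
      rw [abs_of_nonneg (by positivity : (0 : ℝ) ≤ 1 / ‖mirror x - y k‖),
        abs_of_nonneg (by positivity : (0 : ℝ) ≤ 1 / ‖x - y k‖), add_mul, one_div_mul_eq_div,
        one_div_mul_eq_div]
      have := h6 (|P y| / ‖x - y k‖) (by positivity)
      have := h6 (|P y| / ‖mirror x - y k‖) (by positivity)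
      have : 0 ≤ c * (weight ε 0 y * |P y|) := by positivity
      linarith
  have hTm : ∀ k, MemLp (T k) 2 := fun k =>
    (((hw.abs).const_mul c).add ((hH x k).1.abs.const_mul e)).add
      ((hH (mirror x) k).1.abs.const_mul e)
  have hle : ∀ y, ((repel (mirror x) y - repel x y) * P y) ^ 2 ≤
      2 * T 0 y ^ 2 + 2 * T 1 y ^ 2 := by
    intro y
    have hsum : |(repel (mirror x) y - repel x y) * P y| ≤ T 0 y + T 1 y := by
      refine le_trans (le_of_eq ?_) ((abs_add_le _ _).trans (add_le_add (hd 0 y) (hd 1 y)))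
      simp only [repel, Fin.sum_univ_two]
      congr 1
      ring
    have h2 := pow_le_pow_left₀ (abs_nonneg _) hsum 2
    rw [sq_abs] at h2
    nlinarith [sq_nonneg (T 0 y - T 1 y)]
  have hI : ∫ y, (2 * T 0 y ^ 2 + 2 * T 1 y ^ 2) ≤ (4 * c * √N + 48 * e * M) ^ 2 := by
    have hT2 : ∀ k, ∫ y, T k y ^ 2 ≤ 3 * c ^ 2 * N + 576 * e ^ 2 * M ^ 2 := by
      intro k
      have i0 := hw.integrable_sq.const_mul (3 * c ^ 2)
      have i1 := (hH x k).1.integrable_sq.const_mul (3 * e ^ 2)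
      have i2 := (hH (mirror x) k).1.integrable_sq.const_mul (3 * e ^ 2)
      refine (integral_mono (hTm k).integrable_sq ((i0.add i1).add i2) fun y => ?_).trans ?_
      · simp only [Pi.add_apply, hT]
        rw [← sq_abs (weight ε 0 y * P y), ← sq_abs (weight ε 0 y * (P y / ‖x - y k‖)),
          ← sq_abs (weight ε 0 y * (P y / ‖mirror x - y k‖))]
        generalize |weight ε 0 y * P y| = p
        generalize |weight ε 0 y * (P y / ‖x - y k‖)| = q
        generalize |weight ε 0 y * (P y / ‖mirror x - y k‖)| = s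
        nlinarith [sq_nonneg (c * p - e * q), sq_nonneg (c * p - e * s), sq_nonneg (e * q - e * s)]
      · rw [integral_add' (i0.add i1) i2, integral_add' i0 i1, integral_const_mul,
          integral_const_mul, integral_const_mul]
        nlinarith [mul_le_mul_of_nonneg_left (hH x k).2 (sq_nonneg e),
          mul_le_mul_of_nonneg_left (hH (mirror x) k).2 (sq_nonneg e)]
    rw [integral_add ((hTm 0).integrable_sq.const_mul 2) ((hTm 1).integrable_sq.const_mul 2),
      integral_const_mul, integral_const_mul]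
    nlinarith [hT2 0, hT2 1, Real.sq_sqrt hN, mul_nonneg (mul_nonneg hc0 (Real.sqrt_nonneg N))
      (mul_nonneg he0.le (add_nonneg (Real.sqrt_nonneg N) (Real.sqrt_nonneg J))),
      mul_nonneg (sq_nonneg c) hN]
  obtain ⟨hmem, hn⟩ := memLp_of_sq_le
    (((measurable_repel _).sub (measurable_repel x)).aestronglyMeasurable.mul hP.memLp.1)
    (((hTm 0).integrable_sq.const_mul 2).add ((hTm 1).integrable_sq.const_mul 2))
    (Eventually.of_forall hle) (B := 4 * c * √N + 48 * e * M) (by positivity) hI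
  refine ⟨hmem, ?_⟩
  rw [← nrmN_eq_sqrt]
  refine hn.trans ?_
  have h48 : 48 ≤ 64 / ε := by rw [le_div_iff₀ hε]; linarith
  have h3 : 0 ≤ e * M := by positivity
  rw [hc]
  have := mul_le_mul_of_nonneg_right h48 h3
  linarith [show 64 / ε * (|height x| / ‖x‖ ^ 3 * √N + e * M) =
    4 * (16 / ε * (|height x| / ‖x‖ ^ 3)) * √N + 64 / ε * (e * M) by ring]

/-- The same for almost every slice of the excited part. -/
theorem perp_mirror_diff_le (hε : 0 < ε) (hε1 : ε ≤ 1) (hm : MolBound (2 * ε) K f D)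
    (hb : IonBound ε K' χ Dχ) :
    ∀ᵐ x : Space, 1 ≤ ‖x‖ → MemLp (fun y => (repel (mirror x) y - repel x y) * perp χ f x y) 2 ∧
      √(∫ y, ((repel (mirror x) y - repel x y) * perp χ f x y) ^ 2) ≤
        64 / ε * (|height x| / ‖x‖ ^ 3 * uWeight ε 0 χ f x + farSource ε χ f D Dχ x) := by
  obtain ⟨h1, h2⟩ := memLp_weight_perp hm hb
  filter_upwards [(inH1_perpF hm.inH1 hb.inH1 0).slices 0, memLp_slices 0 h1,
    ae_all_iff.2 fun k => ae_all_iff.2 fun a => memLp_slices 0 (h2 k a)] with x hP hw hg hx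
  simp only [wL_ins] at hw hg
  obtain ⟨hm', hn⟩ := mirror_diff_le hε hε1 hP hw hg hx
  simp only [perpF_ins_zero] at hm' hn
  refine ⟨hm', hn.trans (le_of_eq ?_)⟩
  rw [farSource, ionKin_eq, uWeight, nrmN_eq_sqrt]

end Vale.Agent.P363.Inter
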