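import Vale.Agent.P363.Inter.Slice.Split
import Vale.Agent.P363.Tool.Sobolev.Smooth
import Vale.Agent.P363.KS.FormLip

/-!
P363, interacting side: Hardy's inequality in the position of one electron; the Coulomb potential
maps the energy space into `L²`; the bilinear form.
-/

noncomputable section

namespace Vale.Agent.P363.Inter

open MeasureTheory Filter Set
open scoped BigOperators Topology

variable {m : ℕ}

/-- The squared gradient in the position of electron `i`, integrated. -/
def slotKin {n : ℕ} (i : Fin n) (D : Fin n → Fin 3 → Cfg n → ℝ) : ℝ :=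
  ∑ a, ∫ z, D i a z ^ 2

/-- The distance of electron `i` from a centre given by the other electrons. -/
def pole (i : Fin (m + 1)) (c : Cfg m → Space) (z : Cfg (m + 1)) : ℝ :=
  ‖z i - c (i.removeNth z)‖

theorem continuous_pole (i : Fin (m + 1)) {c : Cfg m → Space} (hc : Continuous c) :
    Continuous (pole i c) :=
  ((continuous_apply i).sub (hc.comp
    (continuous_pi (f := fun z : Cfg (m + 1) => i.removeNth z) fun k =>
      continuous_apply (i.succAbove k)))).norm

theorem pole_ins (i : Fin (m + 1)) (c : Cfg m → Space) (x : Space) (y : Cfg m) :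
    pole i c (i.insertNth x y) = ‖x - c y‖ := by
  simp [pole]

/-- Hardy's inequality in one slot. -/
theorem IsC1.hardy {φ : Cfg (m + 1) → ℝ} (h : IsC1 φ) (i : Fin (m + 1)) {c : Cfg m → Space}
    (hc : Continuous c) {ε : ℝ} (hε : 0 < ε) :
    ∫ z, φ z ^ 2 * (pole i c z ^ 2 + ε)⁻¹ ≤ 4 * slotKin i fun i a => slotDeriv i a φ := by
  have hne : ∀ z, pole i c z ^ 2 + ε ≠ 0 := fun z =>
    ne_of_gt (add_pos_of_nonneg_of_pos (sq_nonneg _) hε)
  have hw : Continuous fun z => φ z ^ 2 * (pole i c z ^ 2 + ε)⁻¹ :=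
    (h.continuous.pow 2).mul ((((continuous_pole i hc).pow 2).add continuous_const).inv₀ hne)
  have hL : Integrable fun z => φ z ^ 2 * (pole i c z ^ 2 + ε)⁻¹ :=
    hw.integrable_of_hasCompactSupport
      (h.compact.mono fun z hz => by
        intro h0; exact hz (by simp [h0]))
  have hR : Integrable fun z => ∑ a, slotDeriv i a φ z ^ 2 :=
    integrable_finsetSum _ fun a _ => (h.memLp_slot i a).integrable_sq
  rw [slotKin, ← integral_finsetSum _ fun a _ => (h.memLp_slot i a).integrable_sq,
    ← integral_const_mul, integral_insertNth i hL, integral_insertNth i (hR.const_mul 4)]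
  have hy : ∀ y : Cfg m, ∫ x : Space, φ (i.insertNth x y) ^ 2 *
      (pole i c (i.insertNth x y) ^ 2 + ε)⁻¹ ≤
      ∫ x : Space, 4 * ∑ a, slotDeriv i a φ (i.insertNth x y) ^ 2 := fun y => by
    rw [integral_const_mul]
    simp only [pole_ins, ← h.slot_sliceX i _ y]
    exact hardy_smooth (h.sliceX i y).1 (h.sliceX i y).2 (c y) hε
  refine integral_mono_of_nonneg (Eventually.of_forall fun y => integral_nonneg fun x => by
    positivity) ?_ (Eventually.of_forall hy)
  exact ((integrable_prod_ins i (hR.const_mul 4)).integral_prod_right)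

theorem sqrt_weight (a : ℝ) {ε : ℝ} (hε : 0 < ε) (t : ℝ) :
    (√(a ^ 2 + ε)⁻¹ * t) ^ 2 = t ^ 2 * (a ^ 2 + ε)⁻¹ := by
  rw [mul_pow, Real.sq_sqrt (by positivity), mul_comm]

theorem InH1.hardy_eps {f : Cfg (m + 1) → ℝ} {D : Fin (m + 1) → Fin 3 → Cfg (m + 1) → ℝ}
    (h : InH1 f D) (i : Fin (m + 1)) {c : Cfg m → Space} (hc : Continuous c) {ε : ℝ}
    (hε : 0 < ε) :
    Integrable (fun z => f z ^ 2 * (pole i c z ^ 2 + ε)⁻¹) ∧
      ∫ z, f z ^ 2 * (pole i c z ^ 2 + ε)⁻¹ ≤ 4 * slotKin i D := by
  obtain ⟨φ, hφ⟩ := h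
  have hwc : Continuous fun z => √(pole i c z ^ 2 + ε)⁻¹ :=
    ((((continuous_pole i hc).pow 2).add continuous_const).inv₀ fun z =>
      ne_of_gt (add_pos_of_nonneg_of_pos (sq_nonneg _) hε)).sqrt
  have hs := hφ.val.mul_bdd hwc.aestronglyMeasurable (B := √ε⁻¹) fun z => by
    rw [abs_of_nonneg (Real.sqrt_nonneg _)]
    exact Real.sqrt_le_sqrt (inv_anti₀ hε (le_add_of_nonneg_left (sq_nonneg _)))
  have hi := hs.lim_mem.integrable_sq
  have hlim := hs.integral_sq
  simp only [sqrt_weight _ hε] at hi hlim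
  refine ⟨hi, le_of_tendsto_of_tendsto' hlim ?_ fun k => (hφ.c1 k).hardy i hc hε⟩
  exact (tendsto_finsetSum Finset.univ fun a _ => (hφ.der i a).integral_sq).const_mul 4

/-- Hardy's inequality on the energy space. -/
theorem InH1.hardy {f : Cfg (m + 1) → ℝ} {D : Fin (m + 1) → Fin 3 → Cfg (m + 1) → ℝ}
    (h : InH1 f D) (i : Fin (m + 1)) {c : Cfg m → Space} (hc : Continuous c) :
    Integrable (fun z => (f z / pole i c z) ^ 2) ∧
      ∫ z, (f z / pole i c z) ^ 2 ≤ 4 * slotKin i D := by
  have hne : ∀ᵐ z : Cfg (m + 1), pole i c z ≠ 0 := by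
    have hP : MeasurableSet {z : Cfg (m + 1) | pole i c z ≠ 0} :=
      ((continuous_pole i hc).measurable (measurableSet_singleton (0 : ℝ)).compl)
    have hP' : MeasurableSet {z : Space × Cfg m | pole i c (i.insertNth z.1 z.2) ≠ 0} :=
      (mp_ins i).measurable hP
    rw [← (mp_ins i).map_eq, ae_map_iff (mp_ins i).measurable.aemeasurable hP,
      Measure.ae_prod_iff_ae_ae hP', Measure.ae_ae_comm hP']
    exact Eventually.of_forall fun y => by
      simp only [pole_ins, ne_eq, norm_eq_zero, sub_eq_zero]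
      exact Measure.ae_ne volume (c y)
  refine integrable_of_tendsto_bound
    (F := fun j z => f z ^ 2 * (pole i c z ^ 2 + 1 / ((j : ℝ) + 1))⁻¹)
    (fun j => (h.hardy_eps i hc (by positivity)).1)
    (fun j => Eventually.of_forall fun z => by positivity) ?_
    (fun j => (h.hardy_eps i hc (by positivity)).2) tendsto_const_nhds
  filter_upwards [hne] with z hz
  have := (((tendsto_one_div_add_atTop_nhds_zero_nat (𝕜 := ℝ)).const_add (pole i c z ^ 2)).inv₀
    (by simp [hz])).const_mul (f z ^ 2)
  rw [add_zero, ← div_eq_mul_inv, ← div_pow] at this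
  exact this

theorem InH1.memLp_div {f : Cfg (m + 1) → ℝ} {D : Fin (m + 1) → Fin 3 → Cfg (m + 1) → ℝ}
    (h : InH1 f D) (i : Fin (m + 1)) {c : Cfg m → Space} (hc : Continuous c) :
    MemLp (fun z => f z / pole i c z) 2 :=
  (memLp_two_iff_integrable_sq ((h.memLp.1.aemeasurable.div
    (continuous_pole i hc).aemeasurable).aestronglyMeasurable)).2 (h.hardy i hc).1

/-- Division by a pole is continuous from the energy space to `L²`. -/
theorem Approx.div_pole {φ : ℕ → Cfg (m + 1) → ℝ} {f : Cfg (m + 1) → ℝ}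
    {D : Fin (m + 1) → Fin 3 → Cfg (m + 1) → ℝ} (h : Approx φ f D) (i : Fin (m + 1))
    {c : Cfg m → Space} (hc : Continuous c) :
    SqLim volume (fun k z => φ k z / pole i c z) fun z => f z / pole i c z := by
  refine ⟨fun k => (h.c1 k).inH1.memLp_div i hc, h.inH1.memLp_div i hc,
    squeeze_zero (fun k => integral_nonneg fun z => sq_nonneg _) (fun k => ?_) (show Tendsto
      (fun k => 4 * ∑ a, ∫ z, (slotDeriv i a (φ k) z - D i a z) ^ 2) atTop (𝓝 0) by
      simpa using (tendsto_finsetSum Finset.univ fun a _ => (h.der i a).tendsto).const_mul 4)⟩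
  obtain ⟨ψ, hψ⟩ := h.inH1
  obtain ⟨χ, hχ⟩ := (h.c1 k).inH1
  have := ((hχ.sub hψ).inH1.hardy i hc).2
  simpa only [sub_div, slotKin] using this

variable {φ ψ : ℕ → Cfg (m + 1) → ℝ} {f g : Cfg (m + 1) → ℝ}
  {D G : Fin (m + 1) → Fin 3 → Cfg (m + 1) → ℝ}

/-- The potential maps the energy space continuously into `L²`. -/
theorem Approx.molPot_mul (h : Approx φ f D) (l lam : ℝ) :
    SqLim volume (fun k z => molPot l lam z * φ k z) fun z => molPot l lam z * f z := by
  have hA : ∀ (i : Fin (m + 1)) (p : Space), SqLim volume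
      (fun k z => φ k z / ‖z i - p‖) fun z => f z / ‖z i - p‖ := fun i p => by
    simpa only [pole] using h.div_pole i (c := fun _ => p) continuous_const
  have hR : ∀ i k' : Fin (m + 1), i ≠ k' → SqLim volume
      (fun k z => φ k z / ‖z i - z k'‖) fun z => f z / ‖z i - z k'‖ := fun i k' hne => by
    obtain ⟨l, rfl⟩ := Fin.exists_succAbove_eq hne.symm
    simpa only [pole, Fin.removeNth] using h.div_pole i (c := fun y => y l) (continuous_apply l)
  have hsum : SqLim volume
      (fun k z => -(∑ i, (φ k z / ‖z i - nuc l‖ + φ k z / ‖z i - -nuc l‖)) +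
        lam * ∑ i, ∑ k' ∈ Finset.Ioi i, φ k z / ‖z i - z k'‖)
      fun z => -(∑ i, (f z / ‖z i - nuc l‖ + f z / ‖z i - -nuc l‖)) +
        lam * ∑ i, ∑ k' ∈ Finset.Ioi i, f z / ‖z i - z k'‖ := by
    have h1 := (SqLim.sum Finset.univ fun i _ => (hA i (nuc l)).add (hA i (-nuc l))).smul (-1)
    simp only [neg_one_mul] at h1
    exact h1.add ((SqLim.sum Finset.univ fun i _ => SqLim.sum (Finset.Ioi i)
      fun k' hk => hR i k' (ne_of_lt (Finset.mem_Ioi.1 hk))).smul lam)
  have e : ∀ (u : ℝ) (z : Cfg (m + 1)),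
      -(∑ i, (u / ‖z i - nuc l‖ + u / ‖z i - -nuc l‖)) +
        lam * ∑ i, ∑ k' ∈ Finset.Ioi i, u / ‖z i - z k'‖ = molPot l lam z * u := fun u z => by
    simp only [molPot, attract, sub_neg_eq_add, add_mul, neg_mul, mul_assoc, Finset.sum_mul,
      one_div_mul_eq_div]
  simpa only [e] using hsum

theorem InH1.molPot_memLp (h : InH1 f D) (l lam : ℝ) : MemLp (fun z => molPot l lam z * f z) 2 :=
  (h.choose_spec.molPot_mul l lam).lim_mem

/-- The bilinear form of the molecule minus `E`. -/
def bform {n : ℕ} (l lam E : ℝ) (f : Cfg n → ℝ) (D : Fin n → Fin 3 → Cfg n → ℝ)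
    (g : Cfg n → ℝ) (G : Fin n → Fin 3 → Cfg n → ℝ) : ℝ :=
  ∫ z, ((1 / 2 : ℝ) * ∑ i, ∑ a, D i a z * G i a z + (molPot l lam z - E) * f z * g z)

theorem integrable_bform (hf : InH1 f D) (hg : InH1 g G) (l lam E : ℝ) :
    Integrable fun z => (1 / 2 : ℝ) * ∑ i, ∑ a, D i a z * G i a z +
      (molPot l lam z - E) * f z * g z := by
  refine ((integrable_finsetSum _ fun i _ => integrable_finsetSum _ fun a _ =>
    (hf.grad_memLp i a).integrable_mul (hg.grad_memLp i a)).const_mul _).add
    ((((hf.molPot_memLp l lam).integrable_mul hg.memLp).sub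
      ((hf.memLp.integrable_mul hg.memLp).const_mul E)).congr (Eventually.of_forall fun z => ?_))
  simp only [Pi.sub_apply, Pi.mul_apply]
  ring

theorem bform_eq (hf : InH1 f D) (hg : InH1 g G) (l lam E : ℝ) :
    bform l lam E f D g G = (1 / 2 : ℝ) * (∑ i, ∑ a, ∫ z, D i a z * G i a z) +
      (∫ z, molPot l lam z * f z * g z) - E * ∫ z, f z * g z := by
  have h1 : ∀ i a, Integrable fun z => D i a z * G i a z := fun i a =>
    (hf.grad_memLp i a).integrable_mul (hg.grad_memLp i a)
  have h2 : Integrable fun z => molPot l lam z * f z * g z :=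
    (hf.molPot_memLp l lam).integrable_mul hg.memLp
  have h3 : Integrable fun z => f z * g z := hf.memLp.integrable_mul hg.memLp
  have h4 : Integrable fun z => (1 / 2 : ℝ) * ∑ i, ∑ a, D i a z * G i a z :=
    (integrable_finsetSum _ fun i _ => integrable_finsetSum _ fun a _ => h1 i a).const_mul _
  have h5 : Integrable fun z => molPot l lam z * f z * g z - E * (f z * g z) :=
    h2.sub (h3.const_mul E)
  have e : ∀ z, (molPot l lam z - E) * f z * g z =
      molPot l lam z * f z * g z - E * (f z * g z) := fun z => by ring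
  simp only [bform, e]
  rw [integral_add h4 h5, integral_sub h2 (h3.const_mul E), integral_const_mul,
    integral_const_mul, integral_finsetSum _ fun i _ => integrable_finsetSum _ fun a _ => h1 i a]
  rw [Finset.sum_congr rfl fun i _ => integral_finsetSum _ fun a _ => h1 i a]
  ring

/-- The bilinear form is continuous on the energy space. -/
theorem Approx.tendsto_bform (h : Approx φ f D) (h' : Approx ψ g G) (l lam E : ℝ) :
    Tendsto (fun k => bform l lam E (φ k) (fun i a => slotDeriv i a (φ k)) (ψ k)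
      fun i a => slotDeriv i a (ψ k)) atTop (𝓝 (bform l lam E f D g G)) := by
  rw [bform_eq h.inH1 h'.inH1]
  simp only [fun k => bform_eq (h.c1 k).inH1 (h'.c1 k).inH1 l lam E]
  exact ((((tendsto_finsetSum _ fun i _ => tendsto_finsetSum _ fun a _ =>
    (h.der i a).integral_mul (h'.der i a)).const_mul _).add
      ((h.molPot_mul l lam).integral_mul h'.val)).sub ((h.val.integral_mul h'.val).const_mul E))

/-- The weak equation holds against the whole energy space. -/
theorem bform_eq_zero_of_weak {l lam E : ℝ} (hf : InH1 f D) (hg : InH1 g G)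
    (h : ∀ η : Cfg (m + 1) → ℝ, IsC1 η →
      bform l lam E f D η (fun i a => slotDeriv i a η) = 0) :
    bform l lam E f D g G = 0 := by
  obtain ⟨ψ, hψ⟩ := hg
  refine tendsto_nhds_unique ?_ (tendsto_const_nhds (x := (0 : ℝ)) (f := atTop (α := ℕ)))
  have : Tendsto (fun k => bform l lam E f D (ψ k) fun i a => slotDeriv i a (ψ k)) atTop
      (𝓝 (bform l lam E f D g G)) := by
    rw [bform_eq hf hψ.inH1]
    simp only [fun k => bform_eq hf (hψ.c1 k).inH1 l lam E]
    exact ((((tendsto_finsetSum _ fun i _ => tendsto_finsetSum _ fun a _ =>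
      (SqLim.const (hf.grad_memLp i a)).integral_mul (hψ.der i a)).const_mul _).add
      ((SqLim.const (hf.molPot_memLp l lam)).integral_mul hψ.val)).sub
        (((SqLim.const hf.memLp).integral_mul hψ.val).const_mul E))
  simpa only [h _ (hψ.c1 _)] using this

/-- Lowest states solve the equation on the energy space. -/
theorem _root_.Vale.Agent.P363.IsLowest.bform_zero {l lam E : ℝ} {P : (Cfg (m + 1) → ℝ) → Prop}
    (h : IsLowest l lam P E f D) (hg : InH1 g G) : bform l lam E f D g G = 0 :=
  bform_eq_zero_of_weak (inH1_of_isFormLim h.lim) hg fun η hη => h.weak η hη.realTest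

end Vale.Agent.P363.Inter
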